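import Mathlib

/-!
Hot spots on simply connected planar domains (row 101): basic definitions in the disc model.

`db f = 2 ∂̄ f = f_x + i f_y`, `dd f = 2 ∂ f = f_x - i f_y`, `gr a = a_x - i a_y` for real `a`.
-/

open MeasureTheory Complex Metric Set ComplexConjugate

noncomputable section
namespace Crest.Agent.R101

/-- The open unit disc. -/
abbrev D : Set ℂ := Metric.ball (0 : ℂ) 1

/-- The defining function of the disc. -/
def w (z : ℂ) : ℝ := 1 - ‖z‖ ^ 2

section
variable {E : Type*} [NormedAddCommGroup E] [NormedSpace ℝ E]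
/-- Partial derivative in the real direction. -/
def px (f : ℂ → E) (z : ℂ) : E := fderiv ℝ f z 1
/-- Partial derivative in the imaginary direction. -/
def py (f : ℂ → E) (z : ℂ) : E := fderiv ℝ f z I
end

/-- `2 ∂̄ f`. -/
def db (f : ℂ → ℂ) (z : ℂ) : ℂ := px f z + I * py f z
/-- `2 ∂ f`. -/
def dd (f : ℂ → ℂ) (z : ℂ) : ℂ := px f z - I * py f z
/-- Squared gradient of a real function. -/
def gsq (a : ℂ → ℝ) (z : ℂ) : ℝ := px a z ^ 2 + py a z ^ 2
/-- Inner product of gradients. -/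
def gdot (a b : ℂ → ℝ) (z : ℂ) : ℝ := px a z * px b z + py a z * py b z
/-- Jacobian determinant of a pair of real functions. -/
def jac (a b : ℂ → ℝ) (z : ℂ) : ℝ := px a z * py b z - py a z * px b z
/-- `2 ∂ a` for a real function `a`. -/
def gr (a : ℂ → ℝ) (z : ℂ) : ℂ := (px a z : ℝ) - I * (py a z : ℝ)

/-- Admissible test functions for the weighted Neumann problem on the disc. -/
structure Adm (q : ℂ → ℂ) (a : ℂ → ℝ) : Prop where
  c1 : ContDiffOn ℝ 1 a D
  l2 : IntegrableOn (fun z => ‖q z‖ ^ 2 * a z ^ 2) D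
  g2 : IntegrableOn (gsq a) D

/-- Disc data: `Φ` is `√μ` times a Riemann map, and the Poincaré inequality holds with weight
`‖Φ'‖²`. -/
structure Data (Φ : ℂ → ℂ) : Prop where
  holo : DifferentiableOn ℂ Φ D
  bdd : ∃ C : ℝ, ∀ z ∈ D, ‖Φ z‖ ≤ C
  area : IntegrableOn (fun z => ‖deriv Φ z‖ ^ 2) D
  pos : 0 < ∫ z in D, ‖deriv Φ z‖ ^ 2
  poinc : ∀ a : ℂ → ℝ, Adm (deriv Φ) a → ∫ z in D, ‖deriv Φ z‖ ^ 2 * a z = 0 →
    ∫ z in D, ‖deriv Φ z‖ ^ 2 * a z ^ 2 ≤ ∫ z in D, gsq a z

/-- A Neumann eigenfunction for the optimal constant. -/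
structure Eig (q : ℂ → ℂ) (U : ℂ → ℝ) : Prop where
  adm : Adm q U
  mean : ∫ z in D, ‖q z‖ ^ 2 * U z = 0
  eq : ∫ z in D, ‖q z‖ ^ 2 * U z ^ 2 = ∫ z in D, gsq U z

/-- Complex test functions: `C¹` on the plane and real on the unit circle. -/
structure Test (Θ : ℂ → ℂ) : Prop where
  c1 : ContDiff ℝ 1 Θ
  re : ∀ z : ℂ, ‖z‖ = 1 → (Θ z).im = 0

/-- Radial average. -/
def MM (g : ℂ → ℂ) (z : ℂ) : ℂ := ∫ s in (0 : ℝ)..1, g (s • z)

/-- `conj q * U`. -/
def gg (q : ℂ → ℂ) (U : ℂ → ℝ) (z : ℂ) : ℂ := conj (q z) * (U z : ℂ)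

def Gp (q ψ M : ℂ → ℂ) (z : ℂ) : ℂ := z * ψ z - (w z : ℂ) * q z * M z / 2
def Gm (q ψ M : ℂ → ℂ) (z : ℂ) : ℂ := ψ z / z + conj z / z * (w z : ℂ) * q z * M z / 2
def Kp (M : ℂ → ℂ) (z : ℂ) : ℂ := -(z ^ 2 * dd M z + db M z) / 2
def Km (M : ℂ → ℂ) (z : ℂ) : ℂ := -(dd M z / 2 + 2 * conj z * M z + conj z ^ 2 * db M z / 2)

/-! ### Elementary facts -/

lemma mem_D {z : ℂ} : z ∈ D ↔ ‖z‖ < 1 := mem_ball_zero_iff
lemma isOpen_D : IsOpen D := isOpen_ball
lemma measurableSet_D : MeasurableSet D := isOpen_D.measurableSet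
lemma D_mem_nhds {z : ℂ} (hz : z ∈ D) : D ∈ nhds z := isOpen_D.mem_nhds hz
lemma zero_mem_D : (0 : ℂ) ∈ D := by simp
lemma volume_D_lt_top : volume D < ⊤ := measure_ball_lt_top
instance : IsFiniteMeasure (volume.restrict D) := ⟨by simpa only [Measure.restrict_apply_univ] using volume_D_lt_top⟩

lemma w_pos {z : ℂ} (hz : z ∈ D) : 0 < w z := by
  have := mem_D.1 hz
  have h0 := norm_nonneg z
  unfold w; nlinarith
lemma w_le_one (z : ℂ) : w z ≤ 1 := by unfold w; nlinarith [sq_nonneg ‖z‖]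
lemma w_eq (z : ℂ) : w z = 1 - (z.re ^ 2 + z.im ^ 2) := by
  unfold w; rw [Complex.sq_norm, Complex.normSq_apply]; ring
lemma w_ofReal (z : ℂ) : (w z : ℂ) = 1 - z * conj z := by
  unfold w; rw [Complex.mul_conj, Complex.normSq_eq_norm_sq]; push_cast; ring
lemma contDiff_w {n : WithTop ℕ∞} : ContDiff ℝ n w := by
  have : w = fun z : ℂ => 1 - (z.re ^ 2 + z.im ^ 2) := funext w_eq
  rw [this]
  have h1 : ContDiff ℝ n (fun z : ℂ => z.re) := Complex.reCLM.contDiff
  have h2 : ContDiff ℝ n (fun z : ℂ => z.im) := Complex.imCLM.contDiff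
  fun_prop
lemma continuous_w : Continuous w := (contDiff_w (n := 0)).continuous
lemma smul_mem_D {z : ℂ} (hz : z ∈ D) {s : ℝ} (h0 : 0 ≤ s) (h1 : s ≤ 1) : s • z ∈ D := by
  rw [mem_D] at *
  rw [norm_smul, Real.norm_of_nonneg h0]
  nlinarith [norm_nonneg z]

section
variable {E : Type*} [NormedAddCommGroup E] [NormedSpace ℝ E]

lemma diffAt_of_c1 {f : ℂ → E} (hf : ContDiffOn ℝ 1 f D) {z : ℂ} (hz : z ∈ D) :
    DifferentiableAt ℝ f z :=
  (hf.contDiffAt (D_mem_nhds hz)).differentiableAt one_ne_zero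

lemma continuousOn_fderiv_of_c1 {f : ℂ → E} (hf : ContDiffOn ℝ 1 f D) :
    ContinuousOn (fderiv ℝ f) D :=
  hf.continuousOn_fderiv_of_isOpen isOpen_D le_rfl

lemma continuousOn_px {f : ℂ → E} (hf : ContDiffOn ℝ 1 f D) : ContinuousOn (px f) D :=
  (continuousOn_fderiv_of_c1 hf).clm_apply continuousOn_const
lemma continuousOn_py {f : ℂ → E} (hf : ContDiffOn ℝ 1 f D) : ContinuousOn (py f) D :=
  (continuousOn_fderiv_of_c1 hf).clm_apply continuousOn_const

lemma px_of_hasFDerivAt {f : ℂ → E} {f' : ℂ →L[ℝ] E} {z : ℂ} (h : HasFDerivAt f f' z) :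
    px f z = f' 1 := by rw [px, h.fderiv]
lemma py_of_hasFDerivAt {f : ℂ → E} {f' : ℂ →L[ℝ] E} {z : ℂ} (h : HasFDerivAt f f' z) :
    py f z = f' I := by rw [py, h.fderiv]

lemma px_congr {f g : ℂ → E} {z : ℂ} (h : f =ᶠ[nhds z] g) : px f z = px g z := by
  rw [px, px, h.fderiv_eq]
lemma py_congr {f g : ℂ → E} {z : ℂ} (h : f =ᶠ[nhds z] g) : py f z = py g z := by
  rw [py, py, h.fderiv_eq]

lemma fderiv_eq_px_py (f : ℂ → E) (z v : ℂ) :
    fderiv ℝ f z v = v.re • px f z + v.im • py f z := by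
  have : v = v.re • (1 : ℂ) + v.im • I := by
    simp [Complex.real_smul]
  conv_lhs => rw [this]
  rw [map_add, map_smul, map_smul, px, py]
end

lemma db_congr {f g : ℂ → ℂ} {z : ℂ} (h : f =ᶠ[nhds z] g) : db f z = db g z := by
  rw [db, db, px_congr h, py_congr h]
lemma dd_congr {f g : ℂ → ℂ} {z : ℂ} (h : f =ᶠ[nhds z] g) : dd f z = dd g z := by
  rw [dd, dd, px_congr h, py_congr h]

lemma continuousOn_db {f : ℂ → ℂ} (hf : ContDiffOn ℝ 1 f D) : ContinuousOn (db f) D :=
  (continuousOn_px hf).add (continuousOn_const.mul (continuousOn_py hf))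
lemma continuousOn_dd {f : ℂ → ℂ} (hf : ContDiffOn ℝ 1 f D) : ContinuousOn (dd f) D :=
  (continuousOn_px hf).sub (continuousOn_const.mul (continuousOn_py hf))
lemma continuousOn_gr {a : ℂ → ℝ} (ha : ContDiffOn ℝ 1 a D) : ContinuousOn (gr a) D :=
  (Complex.continuous_ofReal.comp_continuousOn (continuousOn_px ha)).sub
    (continuousOn_const.mul (Complex.continuous_ofReal.comp_continuousOn (continuousOn_py ha)))
lemma continuousOn_gsq {a : ℂ → ℝ} (ha : ContDiffOn ℝ 1 a D) : ContinuousOn (gsq a) D :=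
  ((continuousOn_px ha).pow 2).add ((continuousOn_py ha).pow 2)

lemma gsq_nonneg (a : ℂ → ℝ) (z : ℂ) : 0 ≤ gsq a z := by unfold gsq; positivity
lemma norm_gr_sq (a : ℂ → ℝ) (z : ℂ) : ‖gr a z‖ ^ 2 = gsq a z := by
  rw [Complex.sq_norm, Complex.normSq_apply]; simp [gr, gsq]; ring

lemma fderiv_eq_dd_db (f : ℂ → ℂ) (z v : ℂ) :
    fderiv ℝ f z v = (dd f z * v + db f z * conj v) / 2 := by
  rw [fderiv_eq_px_py, dd, db]
  apply Complex.ext <;> simp <;> ring

section rules
variable {f g : ℂ → ℂ} {z : ℂ}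

lemma db_add (hf : DifferentiableAt ℝ f z) (hg : DifferentiableAt ℝ g z) :
    db (fun z => f z + g z) z = db f z + db g z := by
  simp only [db, px, py, fderiv_fun_add hf hg, add_apply]; ring
lemma dd_add (hf : DifferentiableAt ℝ f z) (hg : DifferentiableAt ℝ g z) :
    dd (fun z => f z + g z) z = dd f z + dd g z := by
  simp only [dd, px, py, fderiv_fun_add hf hg, add_apply]; ring
lemma db_sub (hf : DifferentiableAt ℝ f z) (hg : DifferentiableAt ℝ g z) :
    db (fun z => f z - g z) z = db f z - db g z := by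
  simp only [db, px, py, fderiv_fun_sub hf hg, sub_apply]; ring
lemma dd_sub (hf : DifferentiableAt ℝ f z) (hg : DifferentiableAt ℝ g z) :
    dd (fun z => f z - g z) z = dd f z - dd g z := by
  simp only [dd, px, py, fderiv_fun_sub hf hg, sub_apply]; ring
lemma db_mul (hf : DifferentiableAt ℝ f z) (hg : DifferentiableAt ℝ g z) :
    db (fun z => f z * g z) z = db f z * g z + f z * db g z := by
  simp only [db, px, py, fderiv_fun_mul hf hg, add_apply,
    smul_apply, smul_eq_mul]; ring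
lemma dd_mul (hf : DifferentiableAt ℝ f z) (hg : DifferentiableAt ℝ g z) :
    dd (fun z => f z * g z) z = dd f z * g z + f z * dd g z := by
  simp only [dd, px, py, fderiv_fun_mul hf hg, add_apply,
    smul_apply, smul_eq_mul]; ring
lemma db_const (c : ℂ) : db (fun _ => c) z = 0 := by simp [db, px, py]
lemma dd_const (c : ℂ) : dd (fun _ => c) z = 0 := by simp [dd, px, py]
lemma db_const_mul (c : ℂ) (hf : DifferentiableAt ℝ f z) :
    db (fun z => c * f z) z = c * db f z := by
  rw [db_mul (differentiableAt_const c) hf, db_const]; ring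
lemma dd_const_mul (c : ℂ) (hf : DifferentiableAt ℝ f z) :
    dd (fun z => c * f z) z = c * dd f z := by
  rw [dd_mul (differentiableAt_const c) hf, dd_const]; ring

lemma differentiableAt_conj (hf : DifferentiableAt ℝ f z) :
    DifferentiableAt ℝ (fun z => conj (f z)) z :=
  Complex.conjCLE.differentiableAt.comp z hf
lemma px_conj (hf : DifferentiableAt ℝ f z) : px (fun z => conj (f z)) z = conj (px f z) := by
  have := (Complex.conjCLE.hasFDerivAt (x := f z)).comp z hf.hasFDerivAt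
  exact (px_of_hasFDerivAt this).trans (by simp [px])
lemma py_conj (hf : DifferentiableAt ℝ f z) : py (fun z => conj (f z)) z = conj (py f z) := by
  have := (Complex.conjCLE.hasFDerivAt (x := f z)).comp z hf.hasFDerivAt
  exact (py_of_hasFDerivAt this).trans (by simp [py])
lemma db_conj (hf : DifferentiableAt ℝ f z) : db (fun z => conj (f z)) z = conj (dd f z) := by
  rw [db, dd, px_conj hf, py_conj hf]; simp
lemma dd_conj (hf : DifferentiableAt ℝ f z) : dd (fun z => conj (f z)) z = conj (db f z) := by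
  rw [db, dd, px_conj hf, py_conj hf]; simp [sub_eq_add_neg]

lemma px_holo (hf : DifferentiableAt ℂ f z) : px f z = deriv f z := by
  have := hf.hasDerivAt.hasFDerivAt.restrictScalars ℝ
  exact (px_of_hasFDerivAt this).trans (by simp)
lemma py_holo (hf : DifferentiableAt ℂ f z) : py f z = I * deriv f z := by
  have := hf.hasDerivAt.hasFDerivAt.restrictScalars ℝ
  exact (py_of_hasFDerivAt this).trans (by simp)
lemma db_holo (hf : DifferentiableAt ℂ f z) : db f z = 0 := by
  rw [db, px_holo hf, py_holo hf, ← mul_assoc, I_mul_I]; ring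
lemma dd_holo (hf : DifferentiableAt ℂ f z) : dd f z = 2 * deriv f z := by
  rw [dd, px_holo hf, py_holo hf, ← mul_assoc, I_mul_I]; ring
lemma db_id : db (fun z => z) z = 0 := db_holo differentiableAt_id
lemma dd_id : dd (fun z => z) z = 2 := by
  rw [dd_holo (f := fun z => z) differentiableAt_id]; simp
lemma db_conj_id : db (fun z => conj z) z = 2 := by
  rw [db_conj (f := fun z => z) differentiableAt_id, dd_id]; simp [map_ofNat]
lemma dd_conj_id : dd (fun z => conj z) z = 0 := by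
  rw [dd_conj (f := fun z => z) differentiableAt_id, db_id]; simp

lemma px_re (hf : DifferentiableAt ℝ f z) : px (fun z => (f z).re) z = (px f z).re := by
  have := (Complex.reCLM.hasFDerivAt (x := f z)).comp z hf.hasFDerivAt
  exact (px_of_hasFDerivAt this).trans (by simp [px])
lemma py_re (hf : DifferentiableAt ℝ f z) : py (fun z => (f z).re) z = (py f z).re := by
  have := (Complex.reCLM.hasFDerivAt (x := f z)).comp z hf.hasFDerivAt
  exact (py_of_hasFDerivAt this).trans (by simp [py])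
lemma px_im (hf : DifferentiableAt ℝ f z) : px (fun z => (f z).im) z = (px f z).im := by
  have := (Complex.imCLM.hasFDerivAt (x := f z)).comp z hf.hasFDerivAt
  exact (px_of_hasFDerivAt this).trans (by simp [px])
lemma py_im (hf : DifferentiableAt ℝ f z) : py (fun z => (f z).im) z = (py f z).im := by
  have := (Complex.imCLM.hasFDerivAt (x := f z)).comp z hf.hasFDerivAt
  exact (py_of_hasFDerivAt this).trans (by simp [py])

variable {a : ℂ → ℝ}
lemma differentiableAt_ofReal (ha : DifferentiableAt ℝ a z) :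
    DifferentiableAt ℝ (fun z => (a z : ℂ)) z :=
  Complex.ofRealCLM.differentiableAt.comp z ha
lemma px_ofReal (ha : DifferentiableAt ℝ a z) : px (fun z => (a z : ℂ)) z = (px a z : ℝ) := by
  have := (Complex.ofRealCLM.hasFDerivAt (x := a z)).comp z ha.hasFDerivAt
  exact (px_of_hasFDerivAt this).trans (by simp [px])
lemma py_ofReal (ha : DifferentiableAt ℝ a z) : py (fun z => (a z : ℂ)) z = (py a z : ℝ) := by
  have := (Complex.ofRealCLM.hasFDerivAt (x := a z)).comp z ha.hasFDerivAt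
  exact (py_of_hasFDerivAt this).trans (by simp [py])
lemma dd_ofReal (ha : DifferentiableAt ℝ a z) : dd (fun z => (a z : ℂ)) z = gr a z := by
  rw [dd, px_ofReal ha, py_ofReal ha, gr]
lemma db_ofReal (ha : DifferentiableAt ℝ a z) : db (fun z => (a z : ℂ)) z = conj (gr a z) := by
  rw [db, px_ofReal ha, py_ofReal ha, gr]; simp

lemma differentiableAt_w : DifferentiableAt ℝ w z :=
  (contDiff_w (n := 1)).differentiable one_ne_zero z
lemma differentiableAt_w_ofReal : DifferentiableAt ℝ (fun z => (w z : ℂ)) z :=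
  differentiableAt_ofReal differentiableAt_w
lemma db_w : db (fun z => (w z : ℂ)) z = -2 * z := by
  have : (fun z => (w z : ℂ)) = fun z => 1 - z * conj z := funext w_ofReal
  have h1 : DifferentiableAt ℝ (fun z : ℂ => z) z := differentiableAt_id
  rw [this, db_sub (differentiableAt_const _) (h1.fun_mul (differentiableAt_conj h1)), db_const,
    db_mul h1 (differentiableAt_conj h1), db_id, db_conj_id]; ring
lemma dd_w : dd (fun z => (w z : ℂ)) z = -2 * conj z := by
  have : (fun z => (w z : ℂ)) = fun z => 1 - z * conj z := funext w_ofReal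
  have h1 : DifferentiableAt ℝ (fun z : ℂ => z) z := differentiableAt_id
  rw [this, dd_sub (differentiableAt_const _) (h1.fun_mul (differentiableAt_conj h1)), dd_const,
    dd_mul h1 (differentiableAt_conj h1), dd_id, dd_conj_id]; ring
lemma gr_w : gr w z = -2 * conj z := by rw [← dd_ofReal differentiableAt_w, dd_w]
lemma px_w : px w z = -2 * z.re := by
  have := congrArg Complex.re (gr_w (z := z)); simpa [gr] using this
lemma py_w : py w z = -2 * z.im := by
  have := congrArg Complex.im (gr_w (z := z)); simp [gr] at this; linarith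

/-- `‖2∂̄f‖² - ‖2∂f‖² = -4 Jac(Re f, Im f)`. -/
lemma norm_db_sq_sub (hf : DifferentiableAt ℝ f z) :
    ‖db f z‖ ^ 2 - ‖dd f z‖ ^ 2 = -4 * jac (fun z => (f z).re) (fun z => (f z).im) z := by
  rw [Complex.sq_norm, Complex.sq_norm, Complex.normSq_apply, Complex.normSq_apply, jac,
    px_re hf, py_re hf, px_im hf, py_im hf]
  simp [db, dd]; ring
/-- `‖2∂̄f‖² = |∇ Re f|² + |∇ Im f|² - 2 Jac`. -/
lemma norm_db_sq (hf : DifferentiableAt ℝ f z) :
    ‖db f z‖ ^ 2 = gsq (fun z => (f z).re) z + gsq (fun z => (f z).im) z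
      - 2 * jac (fun z => (f z).re) (fun z => (f z).im) z := by
  rw [Complex.sq_norm, Complex.normSq_apply, jac, gsq, gsq,
    px_re hf, py_re hf, px_im hf, py_im hf]
  simp [db]; ring
/-- `|∇ Re f|² + |∇ Im f|² = (‖2∂̄f‖² + ‖2∂f‖²)/2`. -/
lemma gsq_re_add_gsq_im (hf : DifferentiableAt ℝ f z) :
    gsq (fun z => (f z).re) z + gsq (fun z => (f z).im) z = (‖db f z‖ ^ 2 + ‖dd f z‖ ^ 2) / 2 := by
  rw [Complex.sq_norm, Complex.sq_norm, Complex.normSq_apply, Complex.normSq_apply, gsq, gsq,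
    px_re hf, py_re hf, px_im hf, py_im hf]
  simp [db, dd]; ring
/-- `Re (2∂a · 2∂̄f) = ∇a·∇Re f - Jac(a, Im f)`. -/
lemma re_gr_mul_db (a : ℂ → ℝ) (hf : DifferentiableAt ℝ f z) :
    (gr a z * db f z).re = gdot a (fun z => (f z).re) z - jac a (fun z => (f z).im) z := by
  rw [gdot, jac, px_re hf, py_re hf, px_im hf, py_im hf]
  simp [gr, db]; ring
end rules

lemma Data.holo_q {Φ : ℂ → ℂ} (h : Data Φ) : DifferentiableOn ℂ (deriv Φ) D :=
  h.holo.deriv isOpen_D
lemma contDiffOn_of_holo {f : ℂ → ℂ} (hf : DifferentiableOn ℂ f D) : ContDiffOn ℝ 1 f D :=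
  (hf.contDiffOn isOpen_D).restrict_scalars ℝ

end Crest.Agent.R101
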