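import Crest.Agent.R101.Basic

/-!
Integration by parts on the unit disc for functions vanishing at the boundary in a weak sense.

Cut-off: `χ n z = Real.smoothTransition (n * w z - 1)` (`n ≥ 1`): smooth on `ℂ`, `= 0` where
`w z ≤ 1/n`, `= 1` where `w z ≥ 2/n`, values in `[0,1]`, and
`w z * |px (χ n) z|, w z * |py (χ n) z| ≤ C` on `D` (C = 4 sup |smoothTransition'|), while for fixed
`z ∈ D` the derivatives vanish for large `n`.  For `b` that is `C¹` on `D` only, `χ n * b` is
`C¹` on all of `ℂ` with compact support (off `D`, and near the circle, it is locally zero).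
-/

open MeasureTheory Complex Metric Set ComplexConjugate

noncomputable section
namespace Crest.Agent.R101

/-- A continuous function on the plane is bounded on the disc. -/
lemma bdd_of_continuous {E : Type*} [NormedAddCommGroup E] {f : ℂ → E} (hf : Continuous f) :
    ∃ C : ℝ, ∀ z ∈ D, ‖f z‖ ≤ C := by
  obtain ⟨C, hC⟩ := (isCompact_closedBall (0 : ℂ) 1).exists_bound_of_continuousOn hf.continuousOn
  exact ⟨C, fun z hz => hC z (ball_subset_closedBall hz)⟩

/-- A `C¹` function vanishing on the circle is `O(w)` (mean value inequality on the segment from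
`z` to `z/‖z‖` for `‖z‖ ≥ 1/2`, or Lipschitz on the closed ball; `1 - ‖z‖ ≤ w z`). -/
lemma abs_le_mul_w {b : ℂ → ℝ} (hb : ContDiff ℝ 1 b) (h0 : ∀ z : ℂ, ‖z‖ = 1 → b z = 0) :
    ∃ C : ℝ, ∀ z ∈ D, |b z| ≤ C * w z := by
  obtain ⟨C, hC⟩ := (isCompact_closedBall (0 : ℂ) 1).exists_bound_of_continuousOn
    (hb.continuous_fderiv one_ne_zero).continuousOn
  have hC0 : 0 ≤ C := (norm_nonneg _).trans (hC 0 (by simp))
  refine ⟨C, fun z hz => ?_⟩
  have hz1 := mem_D.1 hz
  set u : ℂ := Complex.exp (z.arg * I) with hu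
  have hu1 : ‖u‖ = 1 := Complex.norm_exp_ofReal_mul_I _
  have hzu : z - u = ((‖z‖ - 1 : ℝ) : ℂ) * u := by
    have := Complex.norm_mul_exp_arg_mul_I z
    push_cast
    rw [sub_mul, one_mul, hu, this]
  have key := (convex_closedBall (0 : ℂ) 1).norm_image_sub_le_of_norm_fderiv_le (𝕜 := ℝ)
    (fun x _ => hb.differentiable one_ne_zero x) hC (x := u) (y := z)
    (by simp [hu1]) (ball_subset_closedBall hz)
  rw [h0 u hu1, sub_zero, hzu, norm_mul, hu1, mul_one, Complex.norm_real, Real.norm_eq_abs,
    Real.norm_eq_abs, abs_of_nonpos (by linarith : ‖z‖ - 1 ≤ 0)] at key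
  refine key.trans (mul_le_mul_of_nonneg_left ?_ hC0)
  unfold w
  nlinarith [norm_nonneg z]

/-- the cut-off function -/
def cutChi (n : ℕ) (z : ℂ) : ℝ := Real.smoothTransition (n * w z - 1)

/-- the factor in its derivative -/
def cutKap (n : ℕ) (z : ℂ) : ℝ := deriv Real.smoothTransition (n * w z - 1) * n

lemma cut_contDiff_chi (n : ℕ) : ContDiff ℝ 1 (cutChi n) :=
  (Real.smoothTransition.contDiff (n := 1)).comp ((contDiff_const.mul contDiff_w).sub contDiff_const)

lemma cut_hasFDerivAt_chi (n : ℕ) (z : ℂ) :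
    HasFDerivAt (cutChi n) (cutKap n z • fderiv ℝ w z) z := by
  have h1 : HasFDerivAt (fun z => (n : ℝ) * w z - 1) ((n : ℝ) • fderiv ℝ w z) z :=
    (differentiableAt_w.hasFDerivAt.const_mul (n : ℝ)).sub_const 1
  have h2 : HasDerivAt Real.smoothTransition (deriv Real.smoothTransition (n * w z - 1))
      (n * w z - 1) :=
    ((Real.smoothTransition.contDiff (n := 1)).differentiable one_ne_zero _).hasDerivAt
  have h3 := h2.comp_hasFDerivAt z h1
  rw [smul_smul] at h3
  exact h3

lemma cut_chi_zero {n : ℕ} {z : ℂ} (h : n * w z < 1) : cutChi n =ᶠ[nhds z] fun _ => 0 := by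
  have hc : Continuous fun z => (n : ℝ) * w z := continuous_const.mul continuous_w
  filter_upwards [hc.continuousAt.eventually_lt continuousAt_const h] with y hy
  exact Real.smoothTransition.zero_of_nonpos (by linarith)

lemma cut_chi_one {n : ℕ} {z : ℂ} (h : 2 < n * w z) : cutChi n =ᶠ[nhds z] fun _ => 1 := by
  have hc : Continuous fun z => (n : ℝ) * w z := continuous_const.mul continuous_w
  filter_upwards [continuousAt_const.eventually_lt hc.continuousAt h] with y hy
  exact Real.smoothTransition.one_of_one_le (by linarith)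

lemma cut_lt_one {z : ℂ} (hz : z ∉ D) (n : ℕ) : n * w z < 1 := by
  have h1 : 1 ≤ ‖z‖ := not_lt.1 fun h => hz (mem_D.2 h)
  have h2 : w z ≤ 0 := by unfold w; nlinarith
  have h3 : (n : ℝ) * w z ≤ 0 := mul_nonpos_of_nonneg_of_nonpos n.cast_nonneg h2
  linarith

lemma cut_eventually {z : ℂ} (hz : z ∈ D) : ∀ᶠ n : ℕ in Filter.atTop, 2 < n * w z :=
  (tendsto_natCast_atTop_atTop.atTop_mul_const (w_pos hz)).eventually_gt_atTop 2

lemma cut_kap_bound : ∃ C : ℝ, 0 ≤ C ∧ ∀ n : ℕ, ∀ z ∈ D, |cutKap n z| * w z ≤ C := by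
  have hc : Continuous (deriv Real.smoothTransition) :=
    (Real.smoothTransition.contDiff (n := 1)).continuous_deriv le_rfl
  obtain ⟨C, hC⟩ := (isCompact_Icc (a := (-1 : ℝ)) (b := 1)).exists_bound_of_continuousOn
    hc.continuousOn
  have hC0 : 0 ≤ C := (norm_nonneg _).trans (hC 0 (by simp))
  refine ⟨2 * C, by positivity, fun n z hz => ?_⟩
  have hw := w_pos hz
  have h0 : 0 ≤ (n : ℝ) * w z := by positivity
  rw [cutKap, abs_mul, Nat.abs_cast, mul_assoc]
  by_cases h : (n : ℝ) * w z ≤ 2
  · have := hC (n * w z - 1) ⟨by linarith, by linarith⟩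
    rw [Real.norm_eq_abs] at this
    calc _ ≤ C * 2 := mul_le_mul this h h0 hC0
      _ = 2 * C := mul_comm _ _
  · have h1 : Real.smoothTransition =ᶠ[nhds ((n : ℝ) * w z - 1)] fun _ => 1 := by
      filter_upwards [Ioi_mem_nhds (show (1 : ℝ) < n * w z - 1 by linarith)] with y hy
      exact Real.smoothTransition.one_of_one_le (le_of_lt hy)
    rw [h1.deriv_eq]
    simp only [deriv_const', abs_zero, zero_mul]
    positivity

section cut
variable {E : Type*} [NormedAddCommGroup E] [NormedSpace ℝ E]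

/-- cut-off of a function -/
def cut (n : ℕ) (b : ℂ → E) (z : ℂ) : E := cutChi n z • b z

lemma cut_zero (b : ℂ → E) {n : ℕ} {z : ℂ} (h : n * w z < 1) : cut n b =ᶠ[nhds z] fun _ => 0 := by
  filter_upwards [cut_chi_zero h] with y hy
  rw [cut, hy, zero_smul]

lemma cut_one (b : ℂ → E) {n : ℕ} {z : ℂ} (h : 2 < n * w z) : cut n b =ᶠ[nhds z] b := by
  filter_upwards [cut_chi_one h] with y hy
  rw [cut, hy, one_smul]

lemma cut_fderiv_zero (b : ℂ → E) {n : ℕ} {z : ℂ} (h : n * w z < 1) (v : ℂ) :
    fderiv ℝ (cut n b) z v = 0 := by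
  rw [(cut_zero b h).fderiv_eq]
  simp

lemma cut_contDiff {b : ℂ → E} (hb : ContDiffOn ℝ 1 b D) (n : ℕ) : ContDiff ℝ 1 (cut n b) := by
  rw [contDiff_iff_contDiffAt]
  intro z
  by_cases hz : z ∈ D
  · exact (cut_contDiff_chi n).contDiffAt.smul (hb.contDiffAt (D_mem_nhds hz))
  · exact contDiffAt_const.congr_of_eventuallyEq (cut_zero b (cut_lt_one hz n))

lemma cut_compact (b : ℂ → E) (n : ℕ) : HasCompactSupport (cut n b) :=
  HasCompactSupport.intro (isCompact_closedBall (0 : ℂ) 1) fun _ hz =>
    (cut_zero b (cut_lt_one (fun h => hz (ball_subset_closedBall h)) n)).self_of_nhds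

lemma cut_fderiv {b : ℂ → E} (hb : ContDiffOn ℝ 1 b D) (n : ℕ) {z : ℂ} (hz : z ∈ D) (v : ℂ) :
    fderiv ℝ (cut n b) z v =
      cutChi n z • fderiv ℝ b z v + (cutKap n z * fderiv ℝ w z v) • b z := by
  have h := (cut_hasFDerivAt_chi n z).smul (diffAt_of_c1 hb hz).hasFDerivAt
  have h' : HasFDerivAt (cut n b) _ z := h
  rw [h'.fderiv]
  simp

lemma cut_cont_fderiv {f : ℂ → E} (hf : ContDiff ℝ 1 f) (v : ℂ) :
    Continuous fun z => fderiv ℝ f z v :=
  (hf.continuous_fderiv one_ne_zero).clm_apply continuous_const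

lemma cut_integrable_fderiv {f : ℂ → E} (hf : ContDiff ℝ 1 f) (hc : HasCompactSupport f) (v : ℂ) :
    Integrable fun z => fderiv ℝ f z v :=
  (cut_cont_fderiv hf v).integrable_of_hasCompactSupport (hc.fderiv_apply ℝ v)

lemma cut_integral_fderiv [CompleteSpace E] {f : ℂ → E} (hf : ContDiff ℝ 1 f)
    (hc : HasCompactSupport f) (v : ℂ) : ∫ z, fderiv ℝ f z v = 0 := by
  have := integral_smul_fderiv_eq_neg_fderiv_smul_of_integrable (μ := volume)
    (f := fun _ : ℂ => (1 : ℝ)) (g := f) (v := v) (by simp)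
    (by simpa using cut_integrable_fderiv hf hc v)
    (by simpa using hf.continuous.integrable_of_hasCompactSupport hc)
    (fun _ _ => differentiableAt_const _) (fun x _ => hf.differentiable one_ne_zero x)
  simpa using this

lemma cut_dct {F : ℕ → ℂ → E} {f : ℂ → E} {bound : ℂ → ℝ} (hF : ∀ n, Continuous (F n))
    (hb : IntegrableOn bound D) (hle : ∀ n, ∀ z ∈ D, ‖F n z‖ ≤ bound z)
    (hlim : ∀ z ∈ D, ∀ᶠ n in Filter.atTop, F n z = f z) (h0 : ∀ n, ∫ z, F n z = 0)
    (hout : ∀ n, ∀ z, z ∉ D → F n z = 0) : ∫ z in D, f z = 0 := by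
  have h1 := tendsto_integral_of_dominated_convergence (μ := volume.restrict D) (F := F) (f := f)
    bound (fun n => (hF n).aestronglyMeasurable) hb
    (fun n => (ae_restrict_iff' measurableSet_D).2 (Filter.Eventually.of_forall (hle n)))
    ((ae_restrict_iff' measurableSet_D).2 (Filter.Eventually.of_forall fun z hz =>
      tendsto_const_nhds.congr' ((hlim z hz).mono fun _ h => h.symm)))
  have h2 : ∀ n, ∫ z in D, F n z = 0 := fun n => by
    rw [setIntegral_eq_integral_of_forall_compl_eq_zero (hout n), h0]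
  simp only [h2] at h1
  exact (tendsto_nhds_unique tendsto_const_nhds h1).symm

end cut

lemma cut_chi_abs (n : ℕ) (z : ℂ) : |cutChi n z| ≤ 1 :=
  abs_le.2 ⟨by linarith [Real.smoothTransition.nonneg (n * w z - 1), cutChi.eq_1 n z],
    Real.smoothTransition.le_one _⟩

lemma cut_shift {a b : ℂ → ℝ} (ha : ContDiff ℝ 1 a) (hb : ContDiff ℝ 1 b)
    (hc : HasCompactSupport a) (v : ℂ) :
    ∫ z, b (z + v) * px a z = -∫ z, a (z + -v) * px b z := by
  have hbv : ContDiff ℝ 1 fun z => b (z + v) := hb.comp (contDiff_id.add contDiff_const)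
  have h1 := integral_mul_fderiv_eq_neg_fderiv_mul_of_integrable (μ := volume)
    (f := fun z : ℂ => b (z + v)) (g := a) (v := 1)
    (((cut_cont_fderiv hbv 1).mul ha.continuous).integrable_of_hasCompactSupport hc.mul_left)
    ((hbv.continuous.mul (cut_cont_fderiv ha 1)).integrable_of_hasCompactSupport
      (hc.fderiv_apply ℝ 1).mul_left)
    ((hbv.continuous.mul ha.continuous).integrable_of_hasCompactSupport hc.mul_left)
    (fun x _ => hbv.differentiable one_ne_zero x) (fun x _ => ha.differentiable one_ne_zero x)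
  unfold px
  rw [h1, ← integral_add_right_eq_self (fun z => a (z + -v) * fderiv ℝ b z 1) v]
  congr 2
  funext z
  rw [fderiv_comp_add_right, add_neg_cancel_right, mul_comm]

lemma cut_jac_compact {a b : ℂ → ℝ} (ha : ContDiff ℝ 1 a) (hb : ContDiff ℝ 1 b)
    (hca : HasCompactSupport a) (hcb : HasCompactSupport b) : ∫ z, jac a b z = 0 := by
  obtain ⟨Ka, hKa⟩ := ha.lipschitzWith_of_hasCompactSupport hca one_ne_zero
  obtain ⟨Kb, hKb⟩ := hb.lipschitzWith_of_hasCompactSupport hcb one_ne_zero
  have ia : Integrable (px a) := cut_integrable_fderiv ha hca 1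
  have ib : Integrable (px b) := cut_integrable_fderiv hb hcb 1
  have t1 := hKb.integral_inv_smul_sub_mul_tendsto_integral_lineDeriv_mul ia I
  have t2 := (hKa.integral_inv_smul_sub_mul_tendsto_integral_lineDeriv_mul ib (-I)).neg
  have i1 : ∀ v : ℂ, Integrable fun z => b (z + v) * px a z := fun v =>
    ((hb.continuous.comp (continuous_add_const v)).mul
      (cut_cont_fderiv ha 1)).integrable_of_hasCompactSupport (hca.fderiv_apply ℝ 1).mul_left
  have i2 : ∀ v : ℂ, Integrable fun z => a (z + v) * px b z := fun v =>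
    ((ha.continuous.comp (continuous_add_const v)).mul
      (cut_cont_fderiv hb 1)).integrable_of_hasCompactSupport (hcb.fderiv_apply ℝ 1).mul_left
  have e : ∀ t : ℝ, ∫ z, (t⁻¹ • (b (z + t • I) - b z)) * px a z =
      -∫ z, (t⁻¹ • (a (z + t • -I) - a z)) * px b z := by
    intro t
    have e1 := cut_shift ha hb hca (t • I)
    have e2 := cut_shift ha hb hca 0
    have i3 := i1 0
    have i4 := i2 0
    simp only [add_zero, neg_zero] at e2 i3 i4
    simp only [smul_eq_mul, mul_assoc, sub_mul, integral_const_mul, smul_neg]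
    rw [integral_sub (i1 _) i3, integral_sub (i2 _) i4, e1, e2]
    ring
  simp only [e] at t1
  have h := tendsto_nhds_unique t1 t2
  have l1 : ∀ z, lineDeriv ℝ b z I = py b z := fun z =>
    (hb.differentiable one_ne_zero z).lineDeriv_eq_fderiv
  have l2 : ∀ z, lineDeriv ℝ a z (-I) = -py a z := fun z => by
    rw [(ha.differentiable one_ne_zero z).lineDeriv_eq_fderiv, map_neg, py]
  simp only [l1, l2, neg_mul, integral_neg, neg_neg] at h
  have j1 : Integrable fun z => px a z * py b z :=
    ((cut_cont_fderiv ha 1).mul (cut_cont_fderiv hb I)).integrable_of_hasCompactSupport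
      (hcb.fderiv_apply ℝ I).mul_left
  have j2 : Integrable fun z => py a z * px b z :=
    ((cut_cont_fderiv ha I).mul (cut_cont_fderiv hb 1)).integrable_of_hasCompactSupport
      (hcb.fderiv_apply ℝ 1).mul_left
  unfold jac
  rw [integral_sub j1 j2, ← h, sub_eq_zero]
  simp only [mul_comm]

lemma cut_abs_jac (a b : ℂ → ℝ) (z : ℂ) : |jac a b z| ≤ gsq a z + gsq b z := by
  unfold jac gsq
  rw [abs_le]
  constructor <;> nlinarith [sq_nonneg (px a z + py b z), sq_nonneg (px a z - py b z),
    sq_nonneg (py a z + px b z), sq_nonneg (py a z - px b z)]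

lemma cut_abs_jac_w (a : ℂ → ℝ) {z : ℂ} (hz : z ∈ D) (β : ℝ) :
    |β * jac a w z| ≤ gsq a z + 2 * β ^ 2 := by
  have h1 := w_pos hz
  rw [w_eq] at h1
  have h2 : jac a w z ^ 2 ≤ 4 * gsq a z := by
    unfold jac gsq
    rw [px_w, py_w]
    nlinarith [sq_nonneg (px a z * z.re + py a z * z.im),
      mul_nonneg h1.le (add_nonneg (sq_nonneg (px a z)) (sq_nonneg (py a z)))]
  rw [abs_le]
  constructor <;> nlinarith [sq_nonneg (jac a w z / 2 + β), sq_nonneg (jac a w z / 2 - β),
    sq_nonneg β]

/-- Divergence theorem.  Proof: `∫ db (χ n * b) = 0` on `ℂ` (compact support, `C¹`: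
`integral_fderiv_eq_zero`-type lemma, e.g. from
`integral_mul_fderiv_eq_neg_fderiv_mul_of_integrable` with the constant function 1),
`db (χ n * b) = χ n * db b + db (χ n) * b`; dominated convergence with bounds `‖db b‖` and
`C ‖b‖ / w`. -/
lemma divD {b : ℂ → ℂ} (hb : ContDiffOn ℝ 1 b D) (h1 : IntegrableOn (db b) D)
    (h2 : IntegrableOn (fun z => ‖b z‖ / w z) D) : ∫ z in D, db b z = 0 := by
  obtain ⟨C, hC0, hC⟩ := cut_kap_bound
  refine cut_dct (F := fun n => db (cut n b)) (bound := fun z => ‖db b z‖ + 2 * C * (‖b z‖ / w z))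
    (fun n => ?_) (h1.norm.add (h2.const_mul _)) (fun n z hz => ?_) (fun z hz => ?_) (fun n => ?_)
    fun n z hz => ?_
  · exact (cut_cont_fderiv (cut_contDiff hb n) 1).add
      (continuous_const.mul (cut_cont_fderiv (cut_contDiff hb n) I))
  · have e : db (cut n b) z = cutChi n z • db b z + cutKap n z • (-2 * z * b z) := by
      have e1 : fderiv ℝ w z 1 = -2 * z.re := px_w
      have e2 : fderiv ℝ w z I = -2 * z.im := py_w
      simp only [db, px, py, cut_fderiv hb n hz, e1, e2, Complex.real_smul]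
      push_cast
      have := Complex.re_add_im z
      linear_combination (-2 * (cutKap n z : ℂ) * b z) * this
    have hw := w_pos hz
    rw [e]
    refine (norm_add_le _ _).trans (add_le_add ?_ ?_)
    · rw [norm_smul, Real.norm_eq_abs]
      exact mul_le_of_le_one_left (norm_nonneg _) (cut_chi_abs n z)
    · rw [norm_smul, Real.norm_eq_abs, norm_mul, norm_mul, norm_neg, Complex.norm_ofNat]
      have h3 := (mem_D.1 hz).le
      calc |cutKap n z| * (2 * ‖z‖ * ‖b z‖) ≤ |cutKap n z| * (2 * 1 * ‖b z‖) := by gcongr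
        _ = 2 * (|cutKap n z| * w z) * (‖b z‖ / w z) := by field_simp
        _ ≤ 2 * C * (‖b z‖ / w z) := by
            have := hC n z hz
            gcongr
  · filter_upwards [cut_eventually hz] with n hn
    exact db_congr (cut_one b hn)
  · have hc := cut_contDiff hb n
    have hs := cut_compact b n
    unfold db px py
    rw [integral_add (cut_integrable_fderiv hc hs 1) ((cut_integrable_fderiv hc hs I).const_mul I),
      integral_const_mul, cut_integral_fderiv hc hs, cut_integral_fderiv hc hs]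
    simp
  · simp only [db, px, py, cut_fderiv_zero b (cut_lt_one hz n), mul_zero, add_zero]

/-- The Jacobian integrates to zero when one function has zero boundary values.
Proof: (i) for `a b : ℂ → ℝ` both `C¹` with compact support, `∫ px a * py b = ∫ py a * px b`:
for `h ≠ 0`, integration by parts in `x` and translation invariance give
`∫ px a z * (b (z + h I) - b z) = - ∫ a z * (px b (z + h I) - px b z)
  = - ∫ (a (z - h I) - a z) * px b z`; divide by `h`, let `h → 0` (dominated convergence, `a, b`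
Lipschitz).  (ii) apply (i) to `χ (4n) * a` and `χ n * b` (`χ (4n) = 1` near the support of
`χ n`), so `∫ jac a (χ n * b) = 0`; `jac a (χ n * b) = χ n * jac a b + b * jac a (χ n)`, dominated
by `gsq a + gsq b` and `C (gsq a + (b/w)^2)`. -/
lemma jacD {a b : ℂ → ℝ} (ha : ContDiffOn ℝ 1 a D) (hb : ContDiffOn ℝ 1 b D)
    (ha2 : IntegrableOn (gsq a) D) (hb2 : IntegrableOn (gsq b) D)
    (hbw : IntegrableOn (fun z => (b z / w z) ^ 2) D) :
    IntegrableOn (jac a b) D ∧ ∫ z in D, jac a b z = 0 := by
  obtain ⟨C, hC0, hC⟩ := cut_kap_bound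
  have hz0 : ∀ (a' : ℂ → ℝ) {n : ℕ} {z : ℂ}, n * w z < 1 → jac a' (cut n b) z = 0 :=
    fun a' n z h => by
      simp only [jac, px, py, cut_fderiv_zero b h, mul_zero, sub_zero]
  refine ⟨Integrable.mono' (ha2.add hb2) ?_ (Filter.Eventually.of_forall (cut_abs_jac a b)), ?_⟩
  · exact (((continuousOn_px ha).mul (continuousOn_py hb)).sub
      ((continuousOn_py ha).mul (continuousOn_px hb))).aestronglyMeasurable measurableSet_D
  refine cut_dct (F := fun n => jac (cut (4 * n) a) (cut n b))
    (bound := fun z => (gsq a z + gsq b z) + C * (gsq a z + 2 * (b z / w z) ^ 2))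
    (fun n => ?_) ((ha2.add hb2).add ((ha2.add (hbw.const_mul 2)).const_mul C))
    (fun n z hz => ?_) (fun z hz => ?_)
    (fun n => cut_jac_compact (cut_contDiff ha _) (cut_contDiff hb _) (cut_compact a _)
      (cut_compact b _)) fun n z hz => hz0 _ (cut_lt_one hz n)
  · have c1 := cut_contDiff ha (4 * n)
    have c2 := cut_contDiff hb n
    exact ((cut_cont_fderiv c1 1).mul (cut_cont_fderiv c2 I)).sub
      ((cut_cont_fderiv c1 I).mul (cut_cont_fderiv c2 1))
  · have hw := w_pos hz
    have g1 := gsq_nonneg a z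
    have g2 := gsq_nonneg b z
    by_cases h : (n : ℝ) * w z < 1
    · rw [hz0 _ h, norm_zero]
      positivity
    have h4 : 2 < ((4 * n : ℕ) : ℝ) * w z := by push_cast; linarith
    have e : jac (cut (4 * n) a) (cut n b) z =
        cutChi n z * jac a b z + cutKap n z * w z * (b z / w z * jac a w z) := by
      rw [jac, px_congr (cut_one a h4), py_congr (cut_one a h4)]
      simp only [jac, px, py, cut_fderiv hb n hz, smul_eq_mul]
      field_simp
      ring
    rw [e, Real.norm_eq_abs]
    refine (abs_add_le _ _).trans (add_le_add ?_ ?_)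
    · rw [abs_mul]
      exact (mul_le_of_le_one_left (abs_nonneg _) (cut_chi_abs n z)).trans (cut_abs_jac a b z)
    · rw [abs_mul, abs_mul, abs_of_pos hw]
      exact mul_le_mul (hC n z hz) (cut_abs_jac_w a hz _) (abs_nonneg _) hC0
  · filter_upwards [cut_eventually hz] with n hn
    have h4 : 2 < ((4 * n : ℕ) : ℝ) * w z := by push_cast; linarith
    rw [jac, jac, px_congr (cut_one a h4), py_congr (cut_one a h4), px_congr (cut_one b hn),
      py_congr (cut_one b hn)]

end Crest.Agent.R101
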