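import Crest.Agent.R101.Cutoff

/-!
The energy identity for `Kp, Km`.
-/

open MeasureTheory Complex Metric Set ComplexConjugate

noncomputable section
namespace Crest.Agent.R101

lemma bdd_half {E : Type*} [NormedAddCommGroup E] {f : ℂ → E} (hf : ContinuousOn f D) :
    ∃ C : ℝ, 0 ≤ C ∧ ∀ z : ℂ, ‖z‖ ≤ 1 / 2 → ‖f z‖ ≤ C := by
  have hsub : closedBall (0 : ℂ) (1 / 2) ⊆ D := closedBall_subset_ball (by norm_num)
  obtain ⟨C, hC⟩ := (isCompact_closedBall (0 : ℂ) (1 / 2)).exists_bound_of_continuousOn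
    (hf.mono hsub)
  refine ⟨max C 0, le_max_right _ _, fun z hz => (hC z ?_).trans (le_max_left _ _)⟩
  simpa using hz

lemma integrableOn_of_le {f F : ℂ → ℝ} (hf : ContinuousOn f D) (hF : IntegrableOn F D)
    (h : ∀ z ∈ D, |f z| ≤ F z) : IntegrableOn f D := by
  refine Integrable.mono' hF (hf.aestronglyMeasurable measurableSet_D) ?_
  filter_upwards [ae_restrict_mem measurableSet_D] with z hz
  exact h z hz

lemma energy_wY {g M : ℂ → ℂ} (hM : ContDiffOn ℝ 1 M D)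
    (hrad : ∀ z ∈ D, g z = M z + (z * dd M z + conj z * db M z) / 2)
    (hg2 : IntegrableOn (fun z => ‖g z‖ ^ 2) D) (hM2 : IntegrableOn (fun z => ‖M z‖ ^ 2) D)
    (hX : IntegrableOn (fun z => w z ^ 2 * ‖dd M z‖ ^ 2) D) :
    IntegrableOn (fun z => w z ^ 2 * ‖db M z‖ ^ 2) D := by
  obtain ⟨C, hC0, hC⟩ := bdd_half (continuousOn_db hM)
  have hw := continuous_w
  have hY := continuousOn_db hM
  have hF : IntegrableOn (fun z => C ^ 2 + (48 * ‖g z‖ ^ 2 + 48 * ‖M z‖ ^ 2 +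
      12 * (w z ^ 2 * ‖dd M z‖ ^ 2))) D :=
    (integrable_const (C ^ 2)).add (((hg2.const_mul 48).add (hM2.const_mul 48)).add
      (hX.const_mul 12))
  refine integrableOn_of_le ((hw.continuousOn.pow 2).mul (hY.norm.pow 2)) hF fun z hz => ?_
  rw [abs_of_nonneg (by positivity)]
  have hw0 := w_pos hz
  have hw1 := w_le_one z
  have hw2 : w z ^ 2 ≤ 1 := by nlinarith
  by_cases h : ‖z‖ ≤ 1 / 2
  · have h1 : ‖db M z‖ ^ 2 ≤ C ^ 2 := pow_le_pow_left₀ (norm_nonneg _) (hC z h) 2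
    have h2 : w z ^ 2 * ‖db M z‖ ^ 2 ≤ 1 * C ^ 2 := by gcongr
    have : 0 ≤ 48 * ‖g z‖ ^ 2 + 48 * ‖M z‖ ^ 2 + 12 * (w z ^ 2 * ‖dd M z‖ ^ 2) := by positivity
    linarith
  · push Not at h
    have e : conj z * db M z = 2 * g z - 2 * M z - z * dd M z := by rw [hrad z hz]; ring
    have hz1 := mem_D.1 hz
    have h1 : ‖z‖ * ‖db M z‖ ≤ 2 * ‖g z‖ + 2 * ‖M z‖ + ‖dd M z‖ := by
      have : ‖z‖ * ‖db M z‖ = ‖2 * g z - 2 * M z - z * dd M z‖ := by
        rw [← e, norm_mul, Complex.norm_conj]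
      rw [this]
      refine (norm_sub_le _ _).trans ?_
      have h3 := norm_sub_le (2 * g z) (2 * M z)
      simp only [norm_mul, Complex.norm_ofNat] at h3 ⊢
      nlinarith [norm_nonneg (dd M z)]
    have h2 : ‖db M z‖ ≤ 4 * ‖g z‖ + 4 * ‖M z‖ + 2 * ‖dd M z‖ := by
      nlinarith [norm_nonneg (db M z)]
    have h3 : w z * ‖db M z‖ ≤ 4 * ‖g z‖ + 4 * ‖M z‖ + 2 * (w z * ‖dd M z‖) := by
      have := mul_le_mul_of_nonneg_left h2 hw0.le
      nlinarith [norm_nonneg (g z), norm_nonneg (M z)]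
    have h4 : (w z * ‖db M z‖) ^ 2 ≤ (4 * ‖g z‖ + 4 * ‖M z‖ + 2 * (w z * ‖dd M z‖)) ^ 2 :=
      pow_le_pow_left₀ (by positivity) h3 2
    have h5 : 0 ≤ C ^ 2 := by positivity
    rw [← mul_pow, ← mul_pow]
    nlinarith [sq_nonneg (‖g z‖ - ‖M z‖), sq_nonneg (2 * ‖g z‖ - w z * ‖dd M z‖),
      sq_nonneg (2 * ‖M z‖ - w z * ‖dd M z‖)]

lemma energy_pt (z M X Y : ℂ) (W : ℝ) (hW : W = 1 - (z.re ^ 2 + z.im ^ 2)) :
    ‖-(z ^ 2 * X + Y) / 2‖ ^ 2 + ‖-(X / 2 + 2 * conj z * M + conj z ^ 2 * Y / 2)‖ ^ 2 =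
      2 * ‖M + (z * X + conj z * Y) / 2‖ ^ 2 + W ^ 2 * ‖X‖ ^ 2 / 2 +
        (‖-2 * z * M + W * Y‖ ^ 2 - ‖-2 * conj z * M + W * X‖ ^ 2) / 4 -
        ((2 * W + conj z * (-2 * z)) * (M * conj M) + conj z * W * (Y * conj M + M * conj X)).re := by
  subst hW
  simp only [Complex.sq_norm, Complex.normSq_apply]
  simp only [pow_two]
  simp
  ring

lemma energy {g M : ℂ → ℂ} (hM : ContDiffOn ℝ 1 M D)
    (hrad : ∀ z ∈ D, g z = M z + (z * dd M z + conj z * db M z) / 2)
    (hg2 : IntegrableOn (fun z => ‖g z‖ ^ 2) D) (hM2 : IntegrableOn (fun z => ‖M z‖ ^ 2) D)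
    (hX : IntegrableOn (fun z => w z ^ 2 * ‖dd M z‖ ^ 2) D) :
    IntegrableOn (fun z => ‖Kp M z‖ ^ 2) D ∧ IntegrableOn (fun z => ‖Km M z‖ ^ 2) D ∧
    (∫ z in D, ‖Kp M z‖ ^ 2) + ∫ z in D, ‖Km M z‖ ^ 2 =
      2 * (∫ z in D, ‖g z‖ ^ 2) + (∫ z in D, w z ^ 2 * ‖dd M z‖ ^ 2) / 2 := by
  have hY := energy_wY hM hrad hg2 hM2 hX
  have hwc : ContDiff ℝ 1 (fun z => (w z : ℂ)) := Complex.ofRealCLM.contDiff.comp contDiff_w
  have hcj : ContDiff ℝ 1 (fun z : ℂ => conj z) := Complex.conjCLE.contDiff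
  have hMc : ContDiffOn ℝ 1 (fun z => conj (M z)) D := Complex.conjCLE.contDiff.comp_contDiffOn hM
  set H : ℂ → ℂ := fun z => (w z : ℂ) * M z with hH
  set T : ℂ → ℂ := fun z => (conj z * (w z : ℂ)) * (M z * conj (M z)) with hT
  have hH1 : ContDiffOn ℝ 1 H D := hwc.contDiffOn.mul hM
  have hT1 : ContDiffOn ℝ 1 T D := (hcj.mul hwc).contDiffOn.mul (hM.mul hMc)
  have hdbH : ∀ z ∈ D, db H z = -2 * z * M z + w z * db M z := fun z hz => by
    rw [hH, db_mul differentiableAt_w_ofReal (diffAt_of_c1 hM hz), db_w]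
  have hddH : ∀ z ∈ D, dd H z = -2 * conj z * M z + w z * dd M z := fun z hz => by
    rw [hH, dd_mul differentiableAt_w_ofReal (diffAt_of_c1 hM hz), dd_w]
  have hdbT : ∀ z ∈ D, db T z = (2 * w z + conj z * (-2 * z)) * (M z * conj (M z)) +
      conj z * w z * (db M z * conj (M z) + M z * conj (dd M z)) := fun z hz => by
    have h1 : DifferentiableAt ℝ (fun z : ℂ => conj z) z := differentiableAt_conj differentiableAt_id
    have h2 := diffAt_of_c1 hM hz
    rw [hT, db_mul (h1.fun_mul differentiableAt_w_ofReal) (h2.fun_mul (differentiableAt_conj h2)),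
      db_mul h1 differentiableAt_w_ofReal, db_mul h2 (differentiableAt_conj h2), db_conj_id, db_w,
      db_conj h2]
  have hre : ContDiffOn ℝ 1 (fun z => (H z).re) D := Complex.reCLM.contDiff.comp_contDiffOn hH1
  have him : ContDiffOn ℝ 1 (fun z => (H z).im) D := Complex.imCLM.contDiff.comp_contDiffOn hH1
  have hbound : ∀ z ∈ D, gsq (fun z => (H z).re) z + gsq (fun z => (H z).im) z ≤
      8 * ‖M z‖ ^ 2 + (w z ^ 2 * ‖db M z‖ ^ 2 + w z ^ 2 * ‖dd M z‖ ^ 2) := by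
    intro z hz
    have hz1 := mem_D.1 hz
    have hw0 := w_pos hz
    rw [gsq_re_add_gsq_im (diffAt_of_c1 hH1 hz), hdbH z hz, hddH z hz]
    have h1 : ‖-2 * z * M z + w z * db M z‖ ≤ 2 * ‖M z‖ + w z * ‖db M z‖ := by
      refine (norm_add_le _ _).trans ?_
      simp only [norm_mul, norm_neg, Complex.norm_ofNat, Complex.norm_real, Real.norm_eq_abs,
        abs_of_pos hw0]
      nlinarith [norm_nonneg (M z)]
    have h2 : ‖-2 * conj z * M z + w z * dd M z‖ ≤ 2 * ‖M z‖ + w z * ‖dd M z‖ := by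
      refine (norm_add_le _ _).trans ?_
      simp only [norm_mul, norm_neg, Complex.norm_ofNat, Complex.norm_real, Real.norm_eq_abs,
        abs_of_pos hw0, Complex.norm_conj]
      nlinarith [norm_nonneg (M z)]
    have h3 := pow_le_pow_left₀ (norm_nonneg _) h1 2
    have h4 := pow_le_pow_left₀ (norm_nonneg _) h2 2
    rw [← mul_pow, ← mul_pow]
    nlinarith [sq_nonneg (2 * ‖M z‖ - w z * ‖db M z‖), sq_nonneg (2 * ‖M z‖ - w z * ‖dd M z‖)]
  have hF : IntegrableOn (fun z => 8 * ‖M z‖ ^ 2 +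
      (w z ^ 2 * ‖db M z‖ ^ 2 + w z ^ 2 * ‖dd M z‖ ^ 2)) D := (hM2.const_mul 8).add (hY.add hX)
  have hre2 : IntegrableOn (gsq fun z => (H z).re) D := by
    refine integrableOn_of_le (continuousOn_gsq hre) hF fun z hz => ?_
    rw [abs_of_nonneg (gsq_nonneg _ _)]
    linarith [hbound z hz, gsq_nonneg (fun z => (H z).im) z]
  have him2 : IntegrableOn (gsq fun z => (H z).im) D := by
    refine integrableOn_of_le (continuousOn_gsq him) hF fun z hz => ?_
    rw [abs_of_nonneg (gsq_nonneg _ _)]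
    linarith [hbound z hz, gsq_nonneg (fun z => (H z).re) z]
  have hbw : IntegrableOn (fun z => ((H z).im / w z) ^ 2) D := by
    refine integrableOn_of_le ((him.continuousOn.div continuous_w.continuousOn
      fun z hz => (w_pos hz).ne').pow 2) hM2 fun z hz => ?_
    rw [abs_of_nonneg (by positivity)]
    have : (H z).im / w z = (M z).im := by
      have := (w_pos hz).ne'
      simp only [hH, Complex.mul_im, Complex.ofReal_re, Complex.ofReal_im]
      field_simp; ring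
    rw [this, ← sq_abs]
    exact pow_le_pow_left₀ (abs_nonneg _) (Complex.abs_im_le_norm _) 2
  obtain ⟨hJi, hJ⟩ := jacD hre him hre2 him2 hbw
  have hTi : IntegrableOn (db T) D := by
    refine Integrable.mono' hF ((continuousOn_db hT1).aestronglyMeasurable measurableSet_D) ?_
    filter_upwards [ae_restrict_mem measurableSet_D] with z hz
    have hz1 := mem_D.1 hz
    have hw0 := w_pos hz
    have hw1 := w_le_one z
    rw [hdbT z hz]
    have h1 : ‖(2 * w z + conj z * (-2 * z) : ℂ)‖ ≤ 4 := by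
      refine (norm_add_le _ _).trans ?_
      simp only [norm_mul, norm_neg, Complex.norm_ofNat, Complex.norm_real, Real.norm_eq_abs,
        abs_of_pos hw0, Complex.norm_conj]
      nlinarith [norm_nonneg z]
    have h2 : ‖db M z * conj (M z) + M z * conj (dd M z)‖ ≤
        ‖db M z‖ * ‖M z‖ + ‖M z‖ * ‖dd M z‖ := by
      refine (norm_add_le _ _).trans ?_
      simp only [norm_mul, Complex.norm_conj, le_refl]
    refine (norm_add_le _ _).trans ?_
    simp only [norm_mul, Complex.norm_conj, Complex.norm_real, Real.norm_eq_abs, abs_of_pos hw0]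
    have h3 : ‖(2 * w z + conj z * (-2 * z) : ℂ)‖ * (‖M z‖ * ‖M z‖) ≤ 4 * (‖M z‖ * ‖M z‖) := by
      gcongr
    have h4 : ‖z‖ * w z * ‖db M z * conj (M z) + M z * conj (dd M z)‖ ≤
        1 * w z * (‖db M z‖ * ‖M z‖ + ‖M z‖ * ‖dd M z‖) := by
      gcongr
    rw [← mul_pow, ← mul_pow]
    nlinarith [sq_nonneg (‖M z‖ - w z * ‖db M z‖), sq_nonneg (‖M z‖ - w z * ‖dd M z‖),
      sq_nonneg (w z * ‖db M z‖), sq_nonneg (w z * ‖dd M z‖), sq_nonneg ‖M z‖]
  have hTw : IntegrableOn (fun z => ‖T z‖ / w z) D := by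
    refine integrableOn_of_le (hT1.continuousOn.norm.div continuous_w.continuousOn
      fun z hz => (w_pos hz).ne') hM2 fun z hz => ?_
    have hz1 := mem_D.1 hz
    have hw0 := w_pos hz
    rw [abs_of_nonneg (by positivity), div_le_iff₀ hw0]
    simp only [hT, norm_mul, Complex.norm_conj, Complex.norm_real, Real.norm_eq_abs,
      abs_of_pos hw0]
    have : 0 ≤ w z * (‖M z‖ * ‖M z‖) := by positivity
    nlinarith
  have hT0 := divD hT1 hTi hTw
  have hTre : IntegrableOn (fun z => (db T z).re) D := hTi.re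
  have hTre0 : ∫ z in D, (db T z).re = 0 := by
    have := integral_re (𝕜 := ℂ) hTi
    simp only [RCLike.re_to_complex] at this
    rw [this, hT0]; simp
  have hpt : ∀ z ∈ D, ‖Kp M z‖ ^ 2 + ‖Km M z‖ ^ 2 = 2 * ‖g z‖ ^ 2 + w z ^ 2 * ‖dd M z‖ ^ 2 / 2
      - jac (fun z => (H z).re) (fun z => (H z).im) z - (db T z).re := by
    intro z hz
    have h1 := norm_db_sq_sub (diffAt_of_c1 hH1 hz)
    have h2 := energy_pt z (M z) (dd M z) (db M z) (w z) (w_eq z)
    rw [hdbH z hz, hddH z hz] at h1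
    rw [hdbT z hz, hrad z hz, Kp, Km, h2, h1]
    ring
  have hR : IntegrableOn (fun z => 2 * ‖g z‖ ^ 2 + w z ^ 2 * ‖dd M z‖ ^ 2 / 2
      - jac (fun z => (H z).re) (fun z => (H z).im) z - (db T z).re) D :=
    (((hg2.const_mul 2).add (hX.div_const 2)).sub hJi).sub hTre
  have hc1 := continuousOn_dd hM
  have hc2 := continuousOn_db hM
  have hc3 := hM.continuousOn
  have hc4 : Continuous (fun z : ℂ => conj z) := Complex.continuous_conj
  have hKp : IntegrableOn (fun z => ‖Kp M z‖ ^ 2) D := by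
    refine integrableOn_of_le (by unfold Kp; fun_prop) hR fun z hz => ?_
    rw [abs_of_nonneg (by positivity), ← hpt z hz]
    have : 0 ≤ ‖Km M z‖ ^ 2 := by positivity
    linarith
  have hKm : IntegrableOn (fun z => ‖Km M z‖ ^ 2) D := by
    refine integrableOn_of_le (by unfold Km; fun_prop) hR fun z hz => ?_
    rw [abs_of_nonneg (by positivity), ← hpt z hz]
    have : 0 ≤ ‖Kp M z‖ ^ 2 := by positivity
    linarith
  refine ⟨hKp, hKm, ?_⟩
  have hA : IntegrableOn (fun z => 2 * ‖g z‖ ^ 2 + w z ^ 2 * ‖dd M z‖ ^ 2 / 2) D :=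
    (hg2.const_mul 2).add (hX.div_const 2)
  have hB : IntegrableOn (fun z => 2 * ‖g z‖ ^ 2 + w z ^ 2 * ‖dd M z‖ ^ 2 / 2
      - jac (fun z => (H z).re) (fun z => (H z).im) z) D := hA.sub hJi
  rw [← integral_add hKp hKm, setIntegral_congr_fun measurableSet_D hpt,
    integral_sub hB hTre, integral_sub hA hJi,
    integral_add (hg2.const_mul 2) (hX.div_const 2), integral_const_mul, integral_div, hJ, hTre0]
  ring

end Crest.Agent.R101
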