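import Crest.Agent.R101.Plane

/-!
The hot-spots theorem for domains in the Euclidean plane.
-/

open MeasureTheory Complex Metric Set ComplexConjugate
open scoped Gradient

noncomputable section
namespace Crest.Agent.R101

/-- The standard identification of `ℂ` with the Euclidean plane. -/
abbrev eC : ℂ ≃ₗᵢ[ℝ] EuclideanSpace ℝ (Fin 2) := Complex.orthonormalBasisOneI.repr

lemma gsq_comp_eC (v : EuclideanSpace ℝ (Fin 2) → ℝ) (z : ℂ) :
    gsq (fun z => v (eC z)) z = ‖∇ v (eC z)‖ ^ 2 := by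
  have h1 : fderiv ℝ (fun z => v (eC z)) z = (fderiv ℝ v (eC z)).comp
      (eC.toContinuousLinearEquiv : ℂ →L[ℝ] EuclideanSpace ℝ (Fin 2)) :=
    eC.toContinuousLinearEquiv.comp_right_fderiv
  have h2 : ∀ y : ℂ, fderiv ℝ (fun z => v (eC z)) z y = inner ℝ (eC.symm (∇ v (eC z))) y := by
    intro y
    rw [h1, ← eC.inner_map_map, LinearIsometryEquiv.apply_symm_apply, gradient,
      InnerProductSpace.toDual_symm_apply]
    rfl
  rw [gsq, px, py, h2, h2, ← eC.symm.norm_map, Complex.sq_norm, Complex.normSq_apply]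
  simp [Complex.inner]
  ring

lemma integral_eC (Ω : Set (EuclideanSpace ℝ (Fin 2))) (F : EuclideanSpace ℝ (Fin 2) → ℝ) :
    ∫ z in eC ⁻¹' Ω, F (eC z) = ∫ x in Ω, F x :=
  eC.measurePreserving.setIntegral_preimage_emb eC.toHomeomorph.measurableEmbedding F Ω

lemma integrable_eC (Ω : Set (EuclideanSpace ℝ (Fin 2))) (F : EuclideanSpace ℝ (Fin 2) → ℝ) :
    IntegrableOn (fun z => F (eC z)) (eC ⁻¹' Ω) ↔ IntegrableOn F Ω :=
  eC.measurePreserving.integrableOn_comp_preimage eC.toHomeomorph.measurableEmbedding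

theorem euclid_final
    (Ω : Set (EuclideanSpace ℝ (Fin 2))) (hopen : IsOpen Ω)
    (hbdd : Bornology.IsBounded Ω) (hsc : IsSimplyConnected Ω)
    (u : EuclideanSpace ℝ (Fin 2) → ℝ) (hu : ContDiffOn ℝ 1 u Ω)
    (huL2 : IntegrableOn (fun x => u x ^ 2) Ω) (hgradL2 : IntegrableOn (fun x => ‖∇ u x‖ ^ 2) Ω)
    (hmean : ∫ x in Ω, u x = 0) (hnz : ∃ x ∈ Ω, u x ≠ 0)
    (hmin : ∀ v : EuclideanSpace ℝ (Fin 2) → ℝ, ContDiffOn ℝ 1 v Ω →
      IntegrableOn (fun x => v x ^ 2) Ω → IntegrableOn (fun x => ‖∇ v x‖ ^ 2) Ω →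
      ∫ x in Ω, v x = 0 →
      (∫ x in Ω, ‖∇ u x‖ ^ 2) * (∫ x in Ω, v x ^ 2) ≤
        (∫ x in Ω, ‖∇ v x‖ ^ 2) * (∫ x in Ω, u x ^ 2)) :
    ∀ x ∈ Ω, ∇ u x ≠ 0 := by
  intro x hx h0
  have hgs : ∀ v : EuclideanSpace ℝ (Fin 2) → ℝ,
      gsq (fun z => v (eC z)) = fun z => ‖∇ v (eC z)‖ ^ 2 := fun v => funext (gsq_comp_eC v)
  have key := plane_final (Ω := eC ⁻¹' Ω) (u := fun z => u (eC z)) (hopen.preimage eC.continuous)
    (eC.isometry.antilipschitz.isBounded_preimage hbdd)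
    (eC.toHomeomorph.isSimplyConnected_preimage.2 hsc)
    (hu.comp eC.contDiff.contDiffOn fun z hz => hz)
    ((integrable_eC Ω fun x => u x ^ 2).2 huL2)
    (by rw [hgs]; exact (integrable_eC Ω fun x => ‖∇ u x‖ ^ 2).2 hgradL2)
    (by rw [integral_eC Ω u, hmean])
    (by
      obtain ⟨y, hy, huy⟩ := hnz
      exact ⟨eC.symm y, by simpa only [mem_preimage, eC.apply_symm_apply] using hy,
        by simpa only [eC.apply_symm_apply] using huy⟩)
    (by
      intro v h1 h2 h3 h4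
      obtain ⟨V, rfl⟩ : ∃ V : EuclideanSpace ℝ (Fin 2) → ℝ, v = fun z => V (eC z) :=
        ⟨fun x => v (eC.symm x), by funext z; simp⟩
      have hV : ContDiffOn ℝ 1 V Ω := by
        have := h1.comp (s := Ω) eC.symm.contDiff.contDiffOn fun y hy => by
          simpa only [mem_preimage, eC.apply_symm_apply] using hy
        refine this.congr fun y _ => ?_
        simp only [Function.comp, eC.apply_symm_apply]
      rw [hgs] at h3
      rw [hgs, hgs, integral_eC Ω fun x => ‖∇ u x‖ ^ 2, integral_eC Ω fun x => ‖∇ V x‖ ^ 2,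
        integral_eC Ω fun x => u x ^ 2, integral_eC Ω fun x => V x ^ 2]
      exact hmin V hV ((integrable_eC Ω fun x => V x ^ 2).1 h2)
        ((integrable_eC Ω fun x => ‖∇ V x‖ ^ 2).1 h3) (by rwa [integral_eC Ω V] at h4))
    (x := eC.symm x) (by simpa only [mem_preimage, eC.apply_symm_apply] using hx)
  apply key
  rw [gsq_comp_eC, LinearIsometryEquiv.apply_symm_apply, h0]
  simp

end Crest.Agent.R101
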