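import Crest.Agent.R101.Radial

/-!
A Hardy-type inequality along rays.
-/

open MeasureTheory Complex Metric Set ComplexConjugate

noncomputable section
namespace Crest.Agent.R101

lemma hardy_cs {x A B : ℝ} (hA : 0 < A) (hB : 0 ≤ B) (hx : 0 ≤ x)
    (h : ∀ t : ℝ, 0 < t → x ≤ t * A / 2 + B / (2 * t)) : x ^ 2 ≤ A * B := by
  rcases hx.eq_or_lt with h0 | h0
  · rw [← h0]; nlinarith [mul_nonneg hA.le hB]
  · have h1 := h (x / A) (by positivity)
    have h2 : x / A * A / 2 + B / (2 * (x / A)) = x / 2 + A * B / (2 * x) := by field_simp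
    rw [h2] at h1
    have h3 : x / 2 ≤ A * B / (2 * x) := by linarith
    rw [le_div_iff₀ (by positivity)] at h3
    nlinarith

lemma hardy_int {r : ℝ} (h0 : 0 ≤ r) (h1 : r < 1) :
    ∫ s in (0 : ℝ)..1, s * (6 / (1 - (s * r) ^ 2) ^ 2) = 3 / (1 - r ^ 2) := by
  have hpos : ∀ s ∈ uIcc (0 : ℝ) 1, 1 - (s * r) ^ 2 ≠ 0 := by
    intro s hs
    rw [uIcc_of_le zero_le_one] at hs
    have h2 : s * r < 1 := by nlinarith [hs.1, hs.2]
    have h3 : 0 ≤ s * r := mul_nonneg hs.1 h0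
    nlinarith
  rw [intervalIntegral.integral_eq_sub_of_hasDerivAt (f := fun s => 3 * s ^ 2 / (1 - (s * r) ^ 2))]
  · simp
  · intro s hs
    have h2 := hpos s hs
    have d1 : HasDerivAt (fun s : ℝ => 3 * s ^ 2) (3 * (2 * s)) s := by
      simpa using (hasDerivAt_pow 2 s).const_mul 3
    have d2 : HasDerivAt (fun s : ℝ => 1 - (s * r) ^ 2) (-(2 * (s * r) * r)) s := by
      simpa using (((hasDerivAt_id s).mul_const r).pow 2).const_sub 1
    refine (d1.div d2 h2).congr_deriv ?_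
    field_simp
    ring
  · refine ContinuousOn.intervalIntegrable ?_
    exact continuousOn_id.mul (continuousOn_const.div (by fun_prop) fun s hs => pow_ne_zero _ (hpos s hs))

lemma hardy_point {q ψ : ℂ → ℂ} (hq : ContinuousOn q D) (hψ : ContinuousOn ψ D)
    (hb : ∀ z ∈ D, ‖q z‖ ^ 2 ≤ 6 / w z ^ 2) {z : ℂ} (hz : z ∈ D) :
    w z ^ 2 * ‖∫ s in (0 : ℝ)..1, (s : ℂ) * (conj (q (s • z)) * ψ (s • z))‖ ^ 2 ≤
      3 * ∫ s in (0 : ℝ)..1, s * w z * ‖ψ (s • z)‖ ^ 2 := by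
  have hw := w_pos hz
  have hm : MapsTo (fun s : ℝ => s • z) (uIcc 0 1) D := fun s hs => by
    rw [uIcc_of_le zero_le_one] at hs
    exact smul_mem_D hz hs.1 hs.2
  have hc : ContinuousOn (fun s : ℝ => s • z) (uIcc 0 1) := by fun_prop
  have hq' : ContinuousOn (fun s : ℝ => q (s • z)) (uIcc 0 1) := hq.comp hc hm
  have hψ' : ContinuousOn (fun s : ℝ => ψ (s • z)) (uIcc 0 1) := hψ.comp hc hm
  have hw' : ContinuousOn (fun s : ℝ => s * (6 / (1 - (s * ‖z‖) ^ 2) ^ 2)) (uIcc 0 1) := by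
    refine continuousOn_id.mul (continuousOn_const.div (by fun_prop) fun s hs => pow_ne_zero _ ?_)
    have h1 := w_pos (hm hs)
    rw [uIcc_of_le zero_le_one] at hs
    rw [w, norm_smul, Real.norm_of_nonneg hs.1] at h1
    exact h1.ne'
  have hB : ContinuousOn (fun s : ℝ => s * ‖ψ (s • z)‖ ^ 2) (uIcc 0 1) :=
    continuousOn_id.mul (hψ'.norm.pow 2)
  have key : ‖∫ s in (0 : ℝ)..1, (s : ℂ) * (conj (q (s • z)) * ψ (s • z))‖ ^ 2 ≤
      3 / w z * ∫ s in (0 : ℝ)..1, s * ‖ψ (s • z)‖ ^ 2 := by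
    refine hardy_cs (by positivity) (intervalIntegral.integral_nonneg zero_le_one fun s hs =>
      mul_nonneg hs.1 (sq_nonneg _)) (norm_nonneg _) fun t ht => ?_
    refine (intervalIntegral.norm_integral_le_of_norm_le zero_le_one
      (g := fun s => t / 2 * (s * (6 / (1 - (s * ‖z‖) ^ 2) ^ 2)) + 1 / (2 * t) * (s * ‖ψ (s • z)‖ ^ 2))
      (Filter.Eventually.of_forall fun s hs => ?_) ?_).trans (le_of_eq ?_)
    · have h1 := hb _ (smul_mem_D hz hs.1.le hs.2)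
      rw [w, norm_smul, Real.norm_of_nonneg hs.1.le] at h1
      rw [norm_mul, norm_mul, Complex.norm_real, Real.norm_of_nonneg hs.1.le, Complex.norm_conj]
      have h2 : ‖q (s • z)‖ * ‖ψ (s • z)‖ ≤
          t / 2 * ‖q (s • z)‖ ^ 2 + 1 / (2 * t) * ‖ψ (s • z)‖ ^ 2 := by
        have h3 : t / 2 * ‖q (s • z)‖ ^ 2 + 1 / (2 * t) * ‖ψ (s • z)‖ ^ 2 -
            ‖q (s • z)‖ * ‖ψ (s • z)‖ = (t * ‖q (s • z)‖ - ‖ψ (s • z)‖) ^ 2 / (2 * t) := by
          field_simp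
          ring
        have h4 : 0 ≤ (t * ‖q (s • z)‖ - ‖ψ (s • z)‖) ^ 2 / (2 * t) := by positivity
        linarith
      have hs0 := hs.1.le
      calc s * (‖q (s • z)‖ * ‖ψ (s • z)‖)
          ≤ s * (t / 2 * ‖q (s • z)‖ ^ 2 + 1 / (2 * t) * ‖ψ (s • z)‖ ^ 2) := by gcongr
        _ ≤ s * (t / 2 * (6 / (1 - (s * ‖z‖) ^ 2) ^ 2) + 1 / (2 * t) * ‖ψ (s • z)‖ ^ 2) := by gcongr
        _ = _ := by ring
    · exact ((continuousOn_const.mul hw').add (continuousOn_const.mul hB)).intervalIntegrable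
    · rw [intervalIntegral.integral_add (hw'.intervalIntegrable.const_mul _)
        (hB.intervalIntegrable.const_mul _), intervalIntegral.integral_const_mul,
        intervalIntegral.integral_const_mul, hardy_int (norm_nonneg z) (mem_D.1 hz), w]
      ring
  have e : ∫ s in (0 : ℝ)..1, s * w z * ‖ψ (s • z)‖ ^ 2 =
      w z * ∫ s in (0 : ℝ)..1, s * ‖ψ (s • z)‖ ^ 2 := by
    rw [← intervalIntegral.integral_const_mul]
    congr 1
    funext s
    ring
  rw [e]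
  refine (mul_le_mul_of_nonneg_left key (sq_nonneg _)).trans (le_of_eq ?_)
  field_simp

lemma hardy_one {ρ : ℝ} (h0 : 0 < ρ) (h1 : ρ < 1) :
    ∫⁻ s in Ioc (0 : ℝ) 1, ENNReal.ofReal ((1 - ρ ^ 2 / s ^ 2) / s) ≤
      ENNReal.ofReal ((1 - ρ ^ 2) ^ 2 / (4 * ρ ^ 2)) := by
  have hc : ContinuousOn (fun s : ℝ => s / (2 * ρ ^ 2) - ρ ^ 2 / (2 * s ^ 3)) (uIcc ρ 1) := by
    refine ContinuousOn.sub (by fun_prop) (continuousOn_const.div (by fun_prop) fun s hs => ?_)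
    rw [uIcc_of_le h1.le] at hs
    have : 0 < s := h0.trans_le hs.1
    positivity
  have hI : ∫ s in ρ..1, (s / (2 * ρ ^ 2) - ρ ^ 2 / (2 * s ^ 3)) =
      (1 - ρ ^ 2) ^ 2 / (4 * ρ ^ 2) := by
    rw [intervalIntegral.integral_eq_sub_of_hasDerivAt
      (f := fun s => (s ^ 2 / ρ ^ 2 + ρ ^ 2 / s ^ 2) / 4) _ hc.intervalIntegrable]
    · field_simp
      ring
    · intro s hs
      rw [uIcc_of_le h1.le] at hs
      have hs0 : 0 < s := h0.trans_le hs.1
      have d1 : HasDerivAt (fun s : ℝ => s ^ 2) (2 * s) s := by simpa using hasDerivAt_pow 2 s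
      refine (((d1.div_const (ρ ^ 2)).add ((hasDerivAt_const s (ρ ^ 2)).div d1
        (by positivity))).div_const 4).congr_deriv ?_
      field_simp
      ring
  have hnn : ∀ s ∈ Ioc ρ 1, 0 ≤ s / (2 * ρ ^ 2) - ρ ^ 2 / (2 * s ^ 3) := by
    intro s hs
    have hs0 : 0 < s := h0.trans hs.1
    have h2 : ρ ^ 4 ≤ s ^ 4 := pow_le_pow_left₀ h0.le hs.1.le 4
    rw [sub_nonneg, div_le_div_iff₀ (by positivity) (by positivity)]
    nlinarith
  rw [← hI, intervalIntegral.integral_of_le h1.le, ofReal_integral_eq_lintegral_ofReal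
    ((intervalIntegrable_iff_integrableOn_Ioc_of_le h1.le).1 hc.intervalIntegrable)
    ((ae_restrict_iff' measurableSet_Ioc).2 (Filter.Eventually.of_forall hnn)),
    ← lintegral_indicator measurableSet_Ioc, ← lintegral_indicator measurableSet_Ioc]
  refine lintegral_mono fun s => ?_
  by_cases hs : s ∈ Ioc (0 : ℝ) 1
  · rw [indicator_of_mem hs]
    have hs0 := hs.1
    by_cases hs' : ρ < s
    · rw [indicator_of_mem (show s ∈ Ioc ρ 1 from ⟨hs', hs.2⟩)]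
      refine ENNReal.ofReal_le_ofReal ?_
      have h3 : s / (2 * ρ ^ 2) - ρ ^ 2 / (2 * s ^ 3) - (1 - ρ ^ 2 / s ^ 2) / s =
          (s ^ 2 - ρ ^ 2) ^ 2 / (2 * ρ ^ 2 * s ^ 3) := by
        field_simp
        ring
      have h4 : 0 ≤ (s ^ 2 - ρ ^ 2) ^ 2 / (2 * ρ ^ 2 * s ^ 3) := by positivity
      linarith
    · rw [ENNReal.ofReal_of_nonpos]
      · exact zero_le
      · refine div_nonpos_of_nonpos_of_nonneg ?_ hs0.le
        rw [sub_nonpos, one_le_div (by positivity)]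
        exact pow_le_pow_left₀ hs0.le (not_lt.1 hs') 2
  · rw [indicator_of_notMem hs]
    exact zero_le

lemma hardy_scale {H : ℂ → ENNReal} (hH : Measurable H) {s : ℝ} (hs : 0 < s) :
    ∫⁻ z, ENNReal.ofReal (s * w z) * H (s • z) =
      ∫⁻ η, ENNReal.ofReal ((1 - ‖η‖ ^ 2 / s ^ 2) / s) * H η := by
  have hG : Measurable fun η : ℂ => ENNReal.ofReal (s * (1 - ‖η‖ ^ 2 / s ^ 2)) * H η := by
    fun_prop
  have h1 := lintegral_map (μ := (volume : Measure ℂ)) hG (measurable_const_smul s)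
  rw [Measure.map_addHaar_smul _ hs.ne', lintegral_smul_measure, Complex.finrank_real_complex,
    smul_eq_mul, ← lintegral_const_mul _ hG] at h1
  have e1 : ∀ z : ℂ, s * (1 - ‖s • z‖ ^ 2 / s ^ 2) = s * w z := fun z => by
    rw [w, norm_smul, Real.norm_of_nonneg hs.le]
    field_simp
  simp only [e1] at h1
  rw [← h1]
  refine lintegral_congr fun η => ?_
  rw [← mul_assoc, ← ENNReal.ofReal_mul (abs_nonneg _), abs_of_pos (by positivity)]
  congr 2
  field_simp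

/-- Proof.  Cauchy–Schwarz on `[0,1]`: `‖L z‖² ≤ (∫₀¹ s‖q(sz)‖²)(∫₀¹ s‖ψ(sz)‖²)` and
`∫₀¹ 6 s/(1 - s²r²)² ds = 3/(1 - r²)` (`r = ‖z‖`; antiderivative `3 s²/(1 - s² r²)`), hence
`w² ‖L‖² ≤ 3 ∫₀¹ s w(z) ‖ψ(sz)‖² ds`.  Work with `lintegral`s.  Finiteness: Tonelli and
`dilate_bound` (`s w ≤ 1`).  Sharp bound: Tonelli, substitute `η = s z`
(`∫_D w(z) h(sz) dz = s⁻² ∫_{‖η‖<s} (1 - ‖η‖²/s²) h(η) dη`), Tonelli again, and for `0 < ρ < 1`
`∫_ρ¹ (1 - ρ²/s²)/s ds ≤ (1 - ρ²)²/(4ρ²)`, because `G s = (s²/ρ² - 2 + ρ²/s²)/4` has `G ρ = 0`,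
`G 1 = (1 - ρ²)²/(4ρ²)`, `G' s = (s² - ρ²)(s² + ρ²)/(2ρ² s³) ≥ (s² - ρ²)/s³` for `ρ ≤ s`. -/
lemma hardy {q ψ L : ℂ → ℂ} (hq : ContinuousOn q D) (hψ : ContinuousOn ψ D)
    (hb : ∀ z ∈ D, ‖q z‖ ^ 2 ≤ 6 / w z ^ 2) (hψ2 : IntegrableOn (fun z => ‖ψ z‖ ^ 2) D)
    (hLc : ContinuousOn L D)
    (hL : ∀ z ∈ D, L z = ∫ s in (0 : ℝ)..1, (s : ℂ) * (conj (q (s • z)) * ψ (s • z))) :
    IntegrableOn (fun z => w z ^ 2 * ‖L z‖ ^ 2) D ∧
    (IntegrableOn (fun z => w z ^ 2 / (4 * ‖z‖ ^ 2) * ‖ψ z‖ ^ 2) D →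
      ∫ z in D, w z ^ 2 * ‖L z‖ ^ 2 ≤ 3 * ∫ z in D, w z ^ 2 / (4 * ‖z‖ ^ 2) * ‖ψ z‖ ^ 2) := by
  classical
  obtain ⟨H, hH, hH1, hH0⟩ : ∃ H : ℂ → ENNReal, Measurable H ∧
      (∀ z ∈ D, H z = ENNReal.ofReal (‖ψ z‖ ^ 2)) ∧ ∀ z, z ∉ D → H z = 0 := by
    refine ⟨fun z => ENNReal.ofReal (D.piecewise (fun z => ‖ψ z‖ ^ 2) (fun _ => 0) z),
      (ContinuousOn.measurable_piecewise (hψ.norm.pow 2) continuousOn_const
        measurableSet_D).ennreal_ofReal, fun z hz => ?_, fun z hz => ?_⟩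
    · simp only [piecewise_eq_of_mem _ _ _ hz]
    · simp only [piecewise_eq_of_notMem _ _ _ hz, ENNReal.ofReal_zero]
  have hwm : Measurable w := continuous_w.measurable
  have h1 : ∫⁻ z in D, ENNReal.ofReal (w z ^ 2 * ‖L z‖ ^ 2) ≤
      3 * ∫⁻ s in Ioc (0 : ℝ) 1, ∫⁻ z in D, ENNReal.ofReal (s * w z) * H (s • z) := by
    rw [lintegral_lintegral_swap (Measurable.aemeasurable (by
      unfold Function.uncurry
      fun_prop)), ← lintegral_const_mul' _ _ (by norm_num)]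
    refine setLIntegral_mono' measurableSet_D fun z hz => ?_
    have hm : MapsTo (fun s : ℝ => s • z) (uIcc 0 1) D := fun s hs => by
      rw [uIcc_of_le zero_le_one] at hs
      exact smul_mem_D hz hs.1 hs.2
    have hc : ContinuousOn (fun s : ℝ => s * w z * ‖ψ (s • z)‖ ^ 2) (uIcc 0 1) :=
      (continuousOn_id.mul continuousOn_const).mul
        ((hψ.comp (by fun_prop : ContinuousOn (fun s : ℝ => s • z) (uIcc 0 1)) hm).norm.pow 2)
    have hw := w_pos hz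
    rw [hL z hz]
    refine (ENNReal.ofReal_le_ofReal (hardy_point hq hψ hb hz)).trans (le_of_eq ?_)
    rw [ENNReal.ofReal_mul (by norm_num), intervalIntegral.integral_of_le zero_le_one,
      ofReal_integral_eq_lintegral_ofReal
        ((intervalIntegrable_iff_integrableOn_Ioc_of_le zero_le_one).1 hc.intervalIntegrable)
        ((ae_restrict_iff' measurableSet_Ioc).2 (Filter.Eventually.of_forall fun s hs =>
          mul_nonneg (mul_nonneg hs.1.le hw.le) (sq_nonneg _))), ENNReal.ofReal_ofNat]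
    congr 1
    refine setLIntegral_congr_fun measurableSet_Ioc fun s hs => ?_
    rw [hH1 _ (smul_mem_D hz hs.1.le hs.2), ENNReal.ofReal_mul (mul_nonneg hs.1.le hw.le)]
  have hms : AEStronglyMeasurable (fun z => w z ^ 2 * ‖L z‖ ^ 2) (volume.restrict D) :=
    ((continuous_w.continuousOn.pow 2).mul (hLc.norm.pow 2)).aestronglyMeasurable measurableSet_D
  have hnn : 0 ≤ᵐ[volume.restrict D] fun z => w z ^ 2 * ‖L z‖ ^ 2 :=
    Filter.Eventually.of_forall fun z => by positivity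
  constructor
  · refine ⟨hms, (hasFiniteIntegral_iff_ofReal hnn).2 (h1.trans_lt ?_)⟩
    obtain ⟨C, hC⟩ := dilate_bound (hψ.norm.pow 2) (fun z _ => sq_nonneg _) hψ2
    refine ENNReal.mul_lt_top (by norm_num) (lt_of_le_of_lt (setLIntegral_mono' measurableSet_Ioc
      (g := fun _ => (C : ENNReal)) fun s hs => le_trans ?_ (hC s hs)) ?_)
    · refine setLIntegral_mono' measurableSet_D fun z hz => ?_
      rw [hH1 _ (smul_mem_D hz hs.1.le hs.2)]
      refine mul_le_of_le_one_left zero_le (ENNReal.ofReal_le_one.2 ?_)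
      exact mul_le_one₀ hs.2 (w_pos hz).le (w_le_one z)
    · simp
  · intro hi
    have hnn' : 0 ≤ᵐ[volume.restrict D] fun z => w z ^ 2 / (4 * ‖z‖ ^ 2) * ‖ψ z‖ ^ 2 :=
      Filter.Eventually.of_forall fun z => by positivity
    have h2 : ∫⁻ s in Ioc (0 : ℝ) 1, ∫⁻ z in D, ENNReal.ofReal (s * w z) * H (s • z) ≤
        ∫⁻ z in D, ENNReal.ofReal (w z ^ 2 / (4 * ‖z‖ ^ 2) * ‖ψ z‖ ^ 2) := by
      refine (setLIntegral_mono' measurableSet_Ioc
        (g := fun s => ∫⁻ η, ENNReal.ofReal ((1 - ‖η‖ ^ 2 / s ^ 2) / s) * H η) fun s hs =>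
          (setLIntegral_le_lintegral _ _).trans (hardy_scale hH hs.1).le).trans ?_
      rw [lintegral_lintegral_swap (Measurable.aemeasurable (by
        unfold Function.uncurry
        fun_prop)), ← lintegral_indicator measurableSet_D]
      refine lintegral_mono_ae ?_
      filter_upwards [compl_mem_ae_iff.2 (measure_singleton (0 : ℂ))] with η hη
      by_cases hη' : η ∈ D
      · rw [indicator_of_mem hη', lintegral_mul_const _ (by fun_prop), hH1 _ hη',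
          ENNReal.ofReal_mul (by positivity)]
        exact mul_le_mul_left (hardy_one (norm_pos_iff.2 hη) (mem_D.1 hη')) _
      · simp [hH0 η hη']
    rw [integral_eq_lintegral_of_nonneg_ae hnn hms]
    refine ENNReal.toReal_le_of_le_ofReal (mul_nonneg (by norm_num) (integral_nonneg_of_ae hnn')) ?_
    rw [ENNReal.ofReal_mul (by norm_num), ofReal_integral_eq_lintegral_ofReal hi hnn',
      ENNReal.ofReal_ofNat]
    exact h1.trans (mul_le_mul_right h2 _)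

end Crest.Agent.R101
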