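import Crest.Agent.R101.Poinc

/-!
The vector-valued Poincaré inequality in dual form.
-/

open MeasureTheory Complex Metric Set ComplexConjugate

noncomputable section
namespace Crest.Agent.R101

lemma hodge_intD {E : Type*} [NormedAddCommGroup E] {f : ℂ → E} (hf : Continuous f) :
    IntegrableOn f D :=
  (hf.continuousOn.integrableOn_compact (isCompact_closedBall 0 1)).mono_set ball_subset_closedBall

lemma hodge_int_mul {ρ g : ℂ → ℝ} (hρ : IntegrableOn ρ D) (hg : Continuous g) :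
    IntegrableOn (fun z => ρ z * g z) D :=
  hρ.mul_continuousOn_of_subset hg.continuousOn measurableSet_D (isCompact_closedBall 0 1)
    ball_subset_closedBall

lemma hodge_cont_px {E : Type*} [NormedAddCommGroup E] [NormedSpace ℝ E] {f : ℂ → E}
    (hf : ContDiff ℝ 1 f) : Continuous (px f) :=
  (hf.continuous_fderiv one_ne_zero).clm_apply continuous_const

lemma hodge_cont_py {E : Type*} [NormedAddCommGroup E] [NormedSpace ℝ E] {f : ℂ → E}
    (hf : ContDiff ℝ 1 f) : Continuous (py f) :=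
  (hf.continuous_fderiv one_ne_zero).clm_apply continuous_const

lemma hodge_cont_gsq {a : ℂ → ℝ} (ha : ContDiff ℝ 1 a) : Continuous (gsq a) :=
  ((hodge_cont_px ha).pow 2).add ((hodge_cont_py ha).pow 2)

lemma hodge_cont_db {f : ℂ → ℂ} (hf : ContDiff ℝ 1 f) : Continuous (db f) :=
  (hodge_cont_px hf).add (continuous_const.mul (hodge_cont_py hf))

/-- Proof: `Θ = a + i b`, `c = ∫‖q‖²a / ∫‖q‖²`; `poinc` for `a - c`, `Data.dirichlet` for `b`
(`abs_le_mul_w`), `norm_db_sq` and `jacD`. -/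
lemma Data.test_ineq {Φ : ℂ → ℂ} (hΦ : Data Φ) {Θ : ℂ → ℂ} (hΘ : Test Θ) :
    ∃ c : ℝ, ∫ z in D, ‖deriv Φ z‖ ^ 2 * ‖Θ z - c‖ ^ 2 ≤ ∫ z in D, ‖db Θ z‖ ^ 2 := by
  have ha : ContDiff ℝ 1 fun z => (Θ z).re := Complex.reCLM.contDiff.comp hΘ.c1
  have hb : ContDiff ℝ 1 fun z => (Θ z).im := Complex.imCLM.contDiff.comp hΘ.c1
  obtain ⟨c, hc⟩ : ∃ c : ℝ, c = (∫ z in D, ‖deriv Φ z‖ ^ 2 * (Θ z).re) /
    ∫ z in D, ‖deriv Φ z‖ ^ 2 := ⟨_, rfl⟩
  refine ⟨c, ?_⟩
  have hac : ContDiff ℝ 1 fun z => (Θ z).re - c := ha.sub contDiff_const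
  have hg : gsq (fun z => (Θ z).re - c) = gsq fun z => (Θ z).re := by
    funext z
    simp only [gsq, px, py, fderiv_sub_const]
  have i1 : IntegrableOn (fun z => ‖deriv Φ z‖ ^ 2 * ((Θ z).re - c) ^ 2) D :=
    hodge_int_mul hΦ.area (hac.continuous.pow 2)
  have i2 : IntegrableOn (fun z => ‖deriv Φ z‖ ^ 2 * (Θ z).im ^ 2) D :=
    hodge_int_mul hΦ.area (hb.continuous.pow 2)
  have h1 := hΦ.poinc (fun z => (Θ z).re - c)
    ⟨hac.contDiffOn, i1, hodge_intD (hodge_cont_gsq hac)⟩ (by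
      simp only [mul_sub]
      rw [integral_sub (hodge_int_mul hΦ.area ha.continuous) (hΦ.area.mul_const c),
        integral_mul_const, hc, mul_div_cancel₀ _ hΦ.pos.ne', sub_self])
  obtain ⟨C, hC⟩ := abs_le_mul_w hb hΘ.re
  have h2 := hΦ.dirichlet hb.contDiffOn (hodge_intD (hodge_cont_gsq hb)) ⟨C, hC⟩
  obtain ⟨i3, h3⟩ := jacD ha.contDiffOn hb.contDiffOn (hodge_intD (hodge_cont_gsq ha))
    (hodge_intD (hodge_cont_gsq hb)) (by
      refine Integrable.mono' (integrable_const (C ^ 2)) ?_ ?_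
      · exact ((hb.continuous.measurable.div continuous_w.measurable).pow_const 2).aestronglyMeasurable
      · filter_upwards [ae_restrict_mem measurableSet_D] with z hz
        have hw := w_pos hz
        rw [Real.norm_of_nonneg (sq_nonneg _), ← sq_abs, abs_div, abs_of_pos hw]
        refine pow_le_pow_left₀ (by positivity) ?_ 2
        rw [div_le_iff₀ hw]; exact hC z hz)
  have e1 : ∫ z in D, ‖deriv Φ z‖ ^ 2 * ‖Θ z - c‖ ^ 2 =
      (∫ z in D, ‖deriv Φ z‖ ^ 2 * ((Θ z).re - c) ^ 2) + ∫ z in D, ‖deriv Φ z‖ ^ 2 * (Θ z).im ^ 2 := by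
    rw [← integral_add i1 i2]
    refine integral_congr_ae (Filter.Eventually.of_forall fun z => ?_)
    simp only
    rw [Complex.sq_norm (Θ z - c), Complex.normSq_apply]
    simp only [sub_re, ofReal_re, sub_im, ofReal_im, sub_zero]
    ring
  have e2 : ∫ z in D, ‖db Θ z‖ ^ 2 = (∫ z in D, gsq (fun z => (Θ z).re) z) +
      (∫ z in D, gsq (fun z => (Θ z).im) z) -
      2 * ∫ z in D, jac (fun z => (Θ z).re) (fun z => (Θ z).im) z := by
    have i4 : IntegrableOn (fun z => gsq (fun z => (Θ z).re) z + gsq (fun z => (Θ z).im) z) D :=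
      (hodge_intD (hodge_cont_gsq ha)).add (hodge_intD (hodge_cont_gsq hb))
    rw [← integral_add (hodge_intD (hodge_cont_gsq ha)) (hodge_intD (hodge_cont_gsq hb)),
      ← integral_const_mul, ← integral_sub i4 (i3.const_mul 2)]
    exact integral_congr_ae (Filter.Eventually.of_forall fun z =>
      norm_db_sq (hΘ.c1.differentiable one_ne_zero z))
  rw [hg] at h1
  rw [e1, e2, h3]
  linarith

lemma hodge_test_add {p p' : ℂ → ℂ} (h : ∃ Θ, Test Θ ∧ ∀ z, db Θ z = p z)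
    (h' : ∃ Θ, Test Θ ∧ ∀ z, db Θ z = p' z) : ∃ Θ, Test Θ ∧ ∀ z, db Θ z = p z + p' z := by
  obtain ⟨Θ, h1, h2⟩ := h
  obtain ⟨Θ', h1', h2'⟩ := h'
  refine ⟨fun z => Θ z + Θ' z, ⟨h1.c1.add h1'.c1, fun z hz => ?_⟩, fun z => ?_⟩
  · rw [add_im, h1.re z hz, h1'.re z hz, add_zero]
  · rw [db_add (h1.c1.differentiable one_ne_zero z) (h1'.c1.differentiable one_ne_zero z), h2, h2']

lemma hodge_test_mono (c : ℂ) (j k : ℕ) :
    ∃ Θ, Test Θ ∧ ∀ z, db Θ z = c * (z ^ j * conj z ^ k) := by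
  obtain ⟨c', hc'⟩ : ∃ c' : ℂ, c' = c / (2 * (k + 1)) := ⟨_, rfl⟩
  have hconj : ContDiff ℝ 1 fun z : ℂ => conj z := Complex.conjCLE.contDiff
  have key : ∀ (d : ℂ) (i : ℕ),
      (∀ z : ℂ, z * conj z = 1 → (c' * (z ^ j * conj z ^ (k + 1)) + d * z ^ i).im = 0) →
      ∃ Θ, Test Θ ∧ ∀ z, db Θ z = c * (z ^ j * conj z ^ k) := by
    intro d i h
    have c1 : ContDiff ℝ 1 fun z : ℂ => z ^ j := contDiff_id.pow j
    have c2 : ContDiff ℝ 1 fun z : ℂ => conj z ^ (k + 1) := hconj.pow _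
    have c3 : ContDiff ℝ 1 fun z : ℂ => d * z ^ i := contDiff_const.mul (contDiff_id.pow i)
    refine ⟨fun z => c' * (z ^ j * conj z ^ (k + 1)) + d * z ^ i,
      ⟨(contDiff_const.mul (c1.mul c2)).add c3, fun z hz => h z ?_⟩, fun z => ?_⟩
    · rw [Complex.mul_conj, Complex.normSq_eq_norm_sq, hz]; simp
    · have d1 := c1.differentiable one_ne_zero z
      have d2 := c2.differentiable one_ne_zero z
      have e1 : db (fun z : ℂ => conj z ^ (k + 1)) z = 2 * (k + 1) * conj z ^ k := by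
        have : (fun z : ℂ => conj z ^ (k + 1)) = fun z => conj (z ^ (k + 1)) := by
          funext z; rw [map_pow]
        rw [this, db_conj (f := fun z => z ^ (k + 1))
          ((contDiff_id.pow (k + 1) : ContDiff ℝ 1 _).differentiable one_ne_zero z),
          dd_holo (f := fun z => z ^ (k + 1)) (by fun_prop)]
        simp [map_ofNat, mul_assoc]
      rw [db_add ((differentiableAt_const _).fun_mul (d1.fun_mul d2))
        (c3.differentiable one_ne_zero z), db_const_mul _ (d1.fun_mul d2), db_mul d1 d2, e1,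
        db_holo (f := fun z => z ^ j) (by fun_prop), db_holo (f := fun z => d * z ^ i) (by fun_prop),
        hc']
      have : (k : ℂ) + 1 ≠ 0 := by exact_mod_cast Nat.succ_ne_zero k
      field_simp
      ring
  rcases le_total (k + 1) j with h | h
  · obtain ⟨i, rfl⟩ := Nat.exists_eq_add_of_le h
    refine key (-c') i fun z hz => ?_
    have : z ^ (k + 1 + i) * conj z ^ (k + 1) = z ^ i := by
      calc _ = (z * conj z) ^ (k + 1) * z ^ i := by ring
        _ = _ := by rw [hz, one_pow, one_mul]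
    rw [this]; simp
  · obtain ⟨i, hi⟩ := Nat.exists_eq_add_of_le h
    refine key (conj c') i fun z hz => ?_
    have : z ^ j * conj z ^ (k + 1) = conj (z ^ i) := by
      calc _ = (z * conj z) ^ j * conj z ^ i := by rw [hi]; ring
        _ = _ := by rw [hz, one_pow, one_mul, map_pow]
    rw [this]
    simp only [add_im, mul_im, conj_re, conj_im]
    ring

lemma hodge_test_poly (P : MvPolynomial (Fin 2) ℂ) :
    ∃ Θ, Test Θ ∧ ∀ z, db Θ z = MvPolynomial.eval ![z, conj z] P := by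
  induction P using MvPolynomial.induction_on' with
  | monomial u a =>
    obtain ⟨Θ, h1, h2⟩ := hodge_test_mono a (u 0) (u 1)
    refine ⟨Θ, h1, fun z => ?_⟩
    rw [h2, MvPolynomial.eval_monomial, Finsupp.prod_fintype _ _ (fun _ => pow_zero _),
      Fin.prod_univ_two]
    rfl
  | add p q hp hq =>
    obtain ⟨Θ, h1, h2⟩ := hodge_test_add hp hq
    exact ⟨Θ, h1, fun z => by rw [h2, map_add]⟩

lemma hodge_poly_dense (f : C(closedBall (0 : ℂ) 1, ℂ)) :
    f ∈ closure {g : C(closedBall (0 : ℂ) 1, ℂ) | ∃ P : MvPolynomial (Fin 2) ℂ,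
      ∀ z, g z = MvPolynomial.eval ![(z : ℂ), conj (z : ℂ)] P} := by
  induction f using ContinuousMap.induction_on_of_compact with
  | const r => exact subset_closure ⟨MvPolynomial.C r, fun z => by simp⟩
  | id => exact subset_closure ⟨MvPolynomial.X 0, fun z => by simp⟩
  | star_id => exact subset_closure ⟨MvPolynomial.X 1, fun z => by simp⟩
  | add f g hf hg =>
    refine map_mem_closure₂ (f := fun a b => a + b) continuous_add hf hg ?_
    rintro a ⟨P, hP⟩ b ⟨Q, hQ⟩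
    exact ⟨P + Q, fun z => by rw [map_add, ← hP, ← hQ]; rfl⟩
  | mul f g hf hg =>
    refine map_mem_closure₂ (f := fun a b => a * b) continuous_mul hf hg ?_
    rintro a ⟨P, hP⟩ b ⟨Q, hQ⟩
    exact ⟨P * Q, fun z => by rw [map_mul, ← hP, ← hQ]; rfl⟩
  | frequently f hf => exact isClosed_closure.closure_subset (mem_closure_iff_frequently.2 hf)

/-- Proof: the set `V` of `p` with `p = db Θ` for some test `Θ` is closed under sums and contains
every `c z^j (conj z)^k`: put `c' = c/(2(k+1))`, `Θ = c' z^j (conj z)^(k+1) + h z` with `h`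
holomorphic: `h = -c' z^(j-k-1)` if `j ≥ k+1` (then `Θ = 0` on the circle) and
`h = conj c' * z^(k+1-j)` otherwise (then `Θ = t + conj t` on the circle).  Finite sums of such
monomials form a star subalgebra of `C(closedBall 0 1, ℂ)` separating points; Stone–Weierstrass
(`ContinuousMap.starSubalgebra_topologicalClosure_eq_top_of_separatesPoints`, or
`polynomialFunctions.starClosure_topologicalClosure` with `StarAlgebra.adjoin_induction` on the
predicate "is the restriction of a function in the span of the monomials"). -/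
lemma test_dense {p : ℂ → ℂ} (hp : Continuous p) {ε : ℝ} (hε : 0 < ε) :
    ∃ Θ : ℂ → ℂ, Test Θ ∧ ∀ z ∈ D, ‖db Θ z - p z‖ ≤ ε := by
  obtain ⟨g, ⟨P, hP⟩, hg⟩ := Metric.mem_closure_iff.1
    (hodge_poly_dense (ContinuousMap.restrict (closedBall (0 : ℂ) 1) ⟨p, hp⟩)) ε hε
  obtain ⟨Θ, h1, h2⟩ := hodge_test_poly P
  refine ⟨Θ, h1, fun z hz => ?_⟩
  have h3 := (ContinuousMap.dist_apply_le_dist (f := ContinuousMap.restrict (closedBall (0 : ℂ) 1)
    ⟨p, hp⟩) (g := g) ⟨z, ball_subset_closedBall hz⟩).trans hg.le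
  rw [hP, dist_comm, dist_eq_norm] at h3
  rw [h2]
  exact h3

/-- The cut-off function away from the centre and the circle. -/
def hodgeChi (n : ℕ) (z : ℂ) : ℝ := min 1 (max 0 (n * min ‖z‖ (1 - ‖z‖) - 1))

lemma hodgeChi_nonneg (n : ℕ) (z : ℂ) : 0 ≤ hodgeChi n z := le_min zero_le_one (le_max_left _ _)
lemma hodgeChi_le (n : ℕ) (z : ℂ) : hodgeChi n z ≤ 1 := min_le_left _ _
lemma hodgeChi_cont (n : ℕ) : Continuous (hodgeChi n) := by unfold hodgeChi; fun_prop

lemma hodgeChi_smul_cont {E : Type*} [NormedAddCommGroup E] [NormedSpace ℝ E] {f : ℂ → E}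
    (hf : ContinuousOn f (D \ {0})) (n : ℕ) : Continuous fun z => hodgeChi n z • f z := by
  rw [continuous_iff_continuousAt]
  intro z
  by_cases hz : z ∈ D \ {0}
  · exact (hodgeChi_cont n).continuousAt.smul
      (hf.continuousAt ((isOpen_D.sdiff isClosed_singleton).mem_nhds hz))
  · have h1 : min ‖z‖ (1 - ‖z‖) ≤ 0 := by
      by_contra h
      rw [not_le, lt_min_iff] at h
      exact hz ⟨mem_D.2 (by linarith [h.2]), norm_pos_iff.1 h.1⟩
    have h2 : (n : ℝ) * min ‖z‖ (1 - ‖z‖) - 1 < 0 := by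
      have := mul_nonpos_of_nonneg_of_nonpos (Nat.cast_nonneg (α := ℝ) n) h1
      linarith
    have h3 : ∀ᶠ y in nhds z, (n : ℝ) * min ‖y‖ (1 - ‖y‖) - 1 < 0 :=
      (show ContinuousAt (fun y : ℂ => (n : ℝ) * min ‖y‖ (1 - ‖y‖) - 1) z by
        fun_prop).eventually_lt continuousAt_const h2
    refine (continuousAt_const (y := (0 : E))).congr ?_
    filter_upwards [h3] with y hy
    rw [hodgeChi, max_eq_left hy.le, min_eq_right zero_le_one, zero_smul]

lemma hodgeChi_eventually {z : ℂ} (hz : z ∈ D \ {0}) :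
    ∀ᶠ n in Filter.atTop, hodgeChi n z = 1 := by
  have h1 : 0 < min ‖z‖ (1 - ‖z‖) :=
    lt_min (norm_pos_iff.2 hz.2) (by linarith [mem_D.1 hz.1])
  filter_upwards [(tendsto_natCast_atTop_atTop.atTop_mul_const h1).eventually_ge_atTop 2] with n hn
  exact min_eq_left (le_max_of_le_right (by linarith))

lemma Data.hodge_step1 {Φ : ℂ → ℂ} (hΦ : Data Φ) {G K : ℂ → ℂ}
    (hK2 : IntegrableOn (fun z => ‖K z‖ ^ 2) D)
    (hw : ∀ Θ : ℂ → ℂ, Test Θ →
      (∫ z in D, G z * db Θ z).re = -(∫ z in D, deriv Φ z * K z * Θ z).re)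
    {Θ : ℂ → ℂ} (hΘ : Test Θ) :
    2 * (∫ z in D, G z * db Θ z).re ≤ (∫ z in D, ‖K z‖ ^ 2) + ∫ z in D, ‖db Θ z‖ ^ 2 := by
  obtain ⟨c, hc⟩ := hΦ.test_ineq hΘ
  have hΘ' : Test fun z => Θ z - c :=
    ⟨hΘ.c1.sub contDiff_const, fun z hz => by rw [sub_im, hΘ.re z hz]; simp⟩
  have h1 := hw _ hΘ'
  have e : ∀ z, db (fun z => Θ z - c) z = db Θ z := fun z => by
    rw [db_sub (hΘ.c1.differentiable one_ne_zero z) (differentiableAt_const _), db_const, sub_zero]
  simp only [e] at h1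
  have i1 : IntegrableOn (fun z => ‖deriv Φ z‖ ^ 2 * ‖Θ z - c‖ ^ 2) D :=
    hodge_int_mul hΦ.area (hΘ'.c1.continuous.norm.pow 2)
  have h2 : ‖∫ z in D, deriv Φ z * K z * (Θ z - c)‖ ≤
      ∫ z in D, (‖K z‖ ^ 2 + ‖deriv Φ z‖ ^ 2 * ‖Θ z - c‖ ^ 2) / 2 := by
    refine norm_integral_le_of_norm_le ((hK2.add i1).div_const 2)
      (Filter.Eventually.of_forall fun z => ?_)
    rw [norm_mul, norm_mul]
    nlinarith [sq_nonneg (‖K z‖ - ‖deriv Φ z‖ * ‖Θ z - c‖)]
  rw [integral_div, integral_add hK2 i1] at h2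
  have h3 := (neg_le_abs _).trans
    (Complex.abs_re_le_norm (∫ z in D, deriv Φ z * K z * (Θ z - c)))
  linarith

lemma Data.hodge_step2 {Φ : ℂ → ℂ} (hΦ : Data Φ) {G K : ℂ → ℂ} (hGi : IntegrableOn G D)
    (hK2 : IntegrableOn (fun z => ‖K z‖ ^ 2) D)
    (hw : ∀ Θ : ℂ → ℂ, Test Θ →
      (∫ z in D, G z * db Θ z).re = -(∫ z in D, deriv Φ z * K z * Θ z).re)
    {p : ℂ → ℂ} (hp : Continuous p) :
    2 * (∫ z in D, G z * p z).re ≤ (∫ z in D, ‖K z‖ ^ 2) + ∫ z in D, ‖p z‖ ^ 2 := by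
  have key : ∀ ε : ℝ, 0 < ε → 2 * (∫ z in D, G z * p z).re ≤
      (∫ z in D, ‖K z‖ ^ 2) + (∫ z in D, ‖p z‖ ^ 2) +
        ε * (2 * (∫ z in D, ‖p z‖) + 2 * ∫ z in D, ‖G z‖) + ε ^ 2 * ∫ _z in D, (1 : ℝ) := by
    intro ε hε
    obtain ⟨Θ, hΘ, h⟩ := test_dense hp hε
    have h1 := hΦ.hodge_step1 hK2 hw hΘ
    have cdb := hodge_cont_db hΘ.c1
    have im : ∀ {g : ℂ → ℂ}, Continuous g → IntegrableOn (fun z => G z * g z) D := fun hg =>
      hGi.mul_continuousOn_of_subset hg.continuousOn measurableSet_D (isCompact_closedBall 0 1)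
        ball_subset_closedBall
    have h2 : ‖(∫ z in D, G z * db Θ z) - ∫ z in D, G z * p z‖ ≤ ∫ z in D, ε * ‖G z‖ := by
      rw [← integral_sub (im cdb) (im hp)]
      refine norm_integral_le_of_norm_le (hGi.norm.const_mul ε) ?_
      filter_upwards [ae_restrict_mem measurableSet_D] with z hz
      rw [← mul_sub, norm_mul, mul_comm]
      exact mul_le_mul_of_nonneg_right (h z hz) (norm_nonneg _)
    have h3 := (neg_le_abs _).trans ((Complex.abs_re_le_norm _).trans h2)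
    rw [sub_re, integral_const_mul] at h3
    have j1 : IntegrableOn (fun z => ‖p z‖ ^ 2) D := hodge_intD (hp.norm.pow 2)
    have j2 := (hodge_intD hp.norm).const_mul (2 * ε)
    have j12 : IntegrableOn (fun z => ‖p z‖ ^ 2 + 2 * ε * ‖p z‖) D := j1.add j2
    have j3 : IntegrableOn (fun _ : ℂ => ε ^ 2 * (1 : ℝ)) D := hodge_intD continuous_const
    have h4 : ∫ z in D, ‖db Θ z‖ ^ 2 ≤ ∫ z in D, (‖p z‖ ^ 2 + 2 * ε * ‖p z‖ + ε ^ 2 * 1) := by
      refine setIntegral_mono_on (hodge_intD (cdb.norm.pow 2)) (j12.add j3)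
        measurableSet_D fun z hz => ?_
      have a1 : ‖db Θ z‖ ≤ ‖p z‖ + ε := by
        have := norm_le_insert' (db Θ z) (p z)
        linarith [h z hz]
      calc _ ≤ (‖p z‖ + ε) ^ 2 := by gcongr
        _ = _ := by ring
    rw [integral_add j12 j3, integral_add j1 j2, integral_const_mul,
      integral_const_mul] at h4
    linarith
  have lim : Filter.Tendsto (fun ε : ℝ => (∫ z in D, ‖K z‖ ^ 2) + (∫ z in D, ‖p z‖ ^ 2) +
        ε * (2 * (∫ z in D, ‖p z‖) + 2 * ∫ z in D, ‖G z‖) + ε ^ 2 * ∫ _z in D, (1 : ℝ))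
      (nhdsWithin 0 (Ioi 0)) (nhds ((∫ z in D, ‖K z‖ ^ 2) + ∫ z in D, ‖p z‖ ^ 2)) := by
    refine Filter.Tendsto.mono_left ?_ nhdsWithin_le_nhds
    refine Continuous.tendsto' (by fun_prop) _ _ (by simp)
  exact ge_of_tendsto lim (eventually_nhdsWithin_of_forall key)

/-- Proof: let `κ = √(∫‖K‖²)`.  For a test `Θ`, apply `hw` to the test function `Θ - c` (same
`db`) and Cauchy–Schwarz: `|Re ∫ G db Θ| ≤ κ √(∫‖db Θ‖²)`.  By `test_dense` (`G` integrable, finite
measure) `|Re ∫ G p| ≤ κ √(∫‖p‖²)` for all continuous `p`.  Take `p = χ * conj G` with `χ` continuous,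
`0 ≤ χ ≤ 1`, supported in a compact subset of `D \ {0}` (`p` is continuous on `ℂ`):
`∫ χ‖G‖² ≤ κ √(∫ χ²‖G‖²) ≤ κ √(∫ χ‖G‖²)`, so `∫ χ‖G‖² ≤ κ²`; let `χ ↑ 1` on `D \ {0}`
(e.g. `χ n z = min 1 (max 0 (n * min ‖z‖ (1 - ‖z‖) - 1))`; monotone convergence / Fatou). -/
lemma Data.dual {Φ : ℂ → ℂ} (hΦ : Data Φ) {G K : ℂ → ℂ} (hGc : ContinuousOn G (D \ {0}))
    (hGi : IntegrableOn G D) (hKc : ContinuousOn K D)
    (hK2 : IntegrableOn (fun z => ‖K z‖ ^ 2) D)
    (hw : ∀ Θ : ℂ → ℂ, Test Θ →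
      (∫ z in D, G z * db Θ z).re = -(∫ z in D, deriv Φ z * K z * Θ z).re) :
    IntegrableOn (fun z => ‖G z‖ ^ 2) D ∧ ∫ z in D, ‖G z‖ ^ 2 ≤ ∫ z in D, ‖K z‖ ^ 2 := by
  have _ := hKc
  have hG2 : ContinuousOn (fun z => ‖G z‖ ^ 2) (D \ {0}) := hGc.norm.pow 2
  have hcj : ContinuousOn (fun z => conj (G z)) (D \ {0}) :=
    Complex.continuous_conj.comp_continuousOn hGc
  have hint : ∀ n, IntegrableOn (fun z => hodgeChi n z • ‖G z‖ ^ 2) D := fun n =>
    hodge_intD (hodgeChi_smul_cont hG2 n)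
  have hnn : ∀ n z, 0 ≤ hodgeChi n z • ‖G z‖ ^ 2 := fun n z =>
    mul_nonneg (hodgeChi_nonneg n z) (sq_nonneg _)
  have hb : ∀ n, ∫ z in D, hodgeChi n z • ‖G z‖ ^ 2 ≤ ∫ z in D, ‖K z‖ ^ 2 := by
    intro n
    have hp := hodgeChi_smul_cont hcj n
    have h1 := hΦ.hodge_step2 hGi hK2 hw hp
    have e1 : ∀ z, G z * (hodgeChi n z • conj (G z)) = ((hodgeChi n z • ‖G z‖ ^ 2 : ℝ) : ℂ) := by
      intro z
      rw [mul_smul_comm, Complex.mul_conj, Complex.normSq_eq_norm_sq, Complex.real_smul,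
        smul_eq_mul, Complex.ofReal_mul]
    simp only [e1] at h1
    rw [integral_complex_ofReal, Complex.ofReal_re] at h1
    have h2 : ∫ z in D, ‖hodgeChi n z • conj (G z)‖ ^ 2 ≤ ∫ z in D, hodgeChi n z • ‖G z‖ ^ 2 := by
      refine integral_mono (hodge_intD (hp.norm.pow 2)) (hint n) fun z => ?_
      simp only
      rw [norm_smul, Complex.norm_conj, Real.norm_of_nonneg (hodgeChi_nonneg n z), mul_pow,
        smul_eq_mul]
      refine mul_le_mul_of_nonneg_right ?_ (sq_nonneg _)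
      nlinarith [hodgeChi_nonneg n z, hodgeChi_le n z]
    linarith
  have hae : ∀ᵐ z ∂(volume.restrict D), z ∈ D \ {0} := by
    filter_upwards [ae_restrict_mem measurableSet_D,
      ae_restrict_of_ae (compl_mem_ae_iff.2 (measure_singleton (0 : ℂ)))] with z h1 h2
    exact ⟨h1, h2⟩
  have hlim : ∀ᵐ z ∂(volume.restrict D), Filter.Tendsto (fun n => hodgeChi n z • ‖G z‖ ^ 2)
      Filter.atTop (nhds (‖G z‖ ^ 2)) := by
    filter_upwards [hae] with z hz
    refine tendsto_const_nhds.congr' ?_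
    filter_upwards [hodgeChi_eventually hz] with n hn
    rw [hn, one_smul]
  have hmeas : AEStronglyMeasurable (fun z => ‖G z‖ ^ 2) (volume.restrict D) :=
    hGi.aestronglyMeasurable.norm.pow 2
  have hK0 : 0 ≤ ∫ z in D, ‖K z‖ ^ 2 := integral_nonneg fun z => sq_nonneg _
  have hl : ∫⁻ z in D, ENNReal.ofReal (‖G z‖ ^ 2) ≤ ENNReal.ofReal (∫ z in D, ‖K z‖ ^ 2) := by
    have a1 : ∫⁻ z in D, ENNReal.ofReal (‖G z‖ ^ 2) = ∫⁻ z in D, Filter.liminf
        (fun n => ENNReal.ofReal (hodgeChi n z • ‖G z‖ ^ 2)) Filter.atTop := by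
      refine lintegral_congr_ae ?_
      filter_upwards [hlim] with z hz
      exact ((ENNReal.tendsto_ofReal hz).liminf_eq).symm
    rw [a1]
    refine (lintegral_liminf_le' fun n =>
      (hint n).aestronglyMeasurable.aemeasurable.ennreal_ofReal).trans ?_
    refine Filter.liminf_le_of_frequently_le' (Filter.Frequently.of_forall fun n => ?_)
    rw [← ofReal_integral_eq_lintegral_ofReal (hint n) (Filter.Eventually.of_forall (hnn n))]
    exact ENNReal.ofReal_le_ofReal (hb n)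
  have hi : IntegrableOn (fun z => ‖G z‖ ^ 2) D := by
    refine ⟨hmeas, ?_⟩
    rw [hasFiniteIntegral_iff_ofReal (Filter.Eventually.of_forall fun z => sq_nonneg _)]
    exact hl.trans_lt ENNReal.ofReal_lt_top
  refine ⟨hi, ?_⟩
  rw [← ofReal_integral_eq_lintegral_ofReal hi
    (Filter.Eventually.of_forall fun z => sq_nonneg _)] at hl
  exact (ENNReal.ofReal_le_ofReal_iff hK0).1 hl

end Crest.Agent.R101
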