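import Crest.Agent.R101.Poinc

/-!
The weak (tangential boundary condition) identity for the modified fields `Gp, Gm`.
-/

open MeasureTheory Complex Metric Set ComplexConjugate

noncomputable section
namespace Crest.Agent.R101

namespace Weak

lemma aesm {E : Type*} [NormedAddCommGroup E] {f : ℂ → E} (hf : ContinuousOn f D) :
    AEStronglyMeasurable f (volume.restrict D) := hf.aestronglyMeasurable measurableSet_D

lemma int_of_le {E : Type*} [NormedAddCommGroup E] {f : ℂ → E} {g : ℂ → ℝ}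
    (hf : AEStronglyMeasurable f (volume.restrict D)) (hg : IntegrableOn g D)
    (h : ∀ z ∈ D, ‖f z‖ ≤ g z) : IntegrableOn f D :=
  Integrable.mono' hg hf (ae_restrict_of_forall_mem measurableSet_D h)

lemma int_const (c : ℝ) : IntegrableOn (fun _ : ℂ => c) D := integrable_const c

lemma int_cont {E : Type*} [NormedAddCommGroup E] {f : ℂ → E} (hf : Continuous f) :
    IntegrableOn f D := by
  obtain ⟨C, hC⟩ := bdd_of_continuous hf
  exact int_of_le (aesm hf.continuousOn) (int_const C) hC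

lemma int_mul_cont {f c : ℂ → ℂ} (hf : IntegrableOn f D) (hc : Continuous c) :
    IntegrableOn (fun z => f z * c z) D := by
  obtain ⟨C, hC⟩ := bdd_of_continuous hc
  exact Integrable.mul_bdd hf (aesm hc.continuousOn) (ae_restrict_of_forall_mem measurableSet_D hC)

lemma int_mul_l2 {f g : ℂ → ℂ} (hf : ContinuousOn f D) (hg : ContinuousOn g D)
    (hf2 : IntegrableOn (fun z => ‖f z‖ ^ 2) D) (hg2 : IntegrableOn (fun z => ‖g z‖ ^ 2) D) :
    IntegrableOn (fun z => f z * g z) D := by
  refine int_of_le (aesm (hf.mul hg)) (hf2.add hg2) fun z _ => ?_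
  rw [norm_mul, Pi.add_apply]
  nlinarith [sq_nonneg (‖f z‖ - ‖g z‖), norm_nonneg (f z), norm_nonneg (g z)]

lemma int_of_l2 {f : ℂ → ℂ} (hf : ContinuousOn f D)
    (hf2 : IntegrableOn (fun z => ‖f z‖ ^ 2) D) : IntegrableOn f D := by
  have := int_mul_l2 hf (g := fun _ => 1) continuousOn_const hf2 (by simp)
  simpa using this

lemma continuous_db {f : ℂ → ℂ} (hf : ContDiff ℝ 1 f) : Continuous (db f) := by
  have h := hf.continuous_fderiv one_ne_zero
  exact (h.clm_apply continuous_const).add (continuous_const.mul (h.clm_apply continuous_const))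

lemma continuous_gsq {a : ℂ → ℝ} (ha : ContDiff ℝ 1 a) : Continuous (gsq a) := by
  have h := ha.continuous_fderiv one_ne_zero
  exact ((h.clm_apply continuous_const).pow 2).add ((h.clm_apply continuous_const).pow 2)

lemma cont_q {Φ : ℂ → ℂ} (hΦ : Data Φ) : ContinuousOn (deriv Φ) D := hΦ.holo_q.continuousOn

lemma int_psi2 {q : ℂ → ℂ} {U : ℂ → ℝ} (hU : Adm q U) :
    IntegrableOn (fun z => ‖gr U z‖ ^ 2) D := by
  simpa only [norm_gr_sq] using hU.g2

lemma cont_gg {q : ℂ → ℂ} {U : ℂ → ℝ} (hq : ContinuousOn q D) (hU : Adm q U) :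
    ContinuousOn (gg q U) D :=
  (Complex.continuous_conj.comp_continuousOn hq).mul
    (Complex.continuous_ofReal.comp_continuousOn hU.c1.continuousOn)

lemma int_gg2 {q : ℂ → ℂ} {U : ℂ → ℝ} (hU : Adm q U) :
    IntegrableOn (fun z => ‖gg q U z‖ ^ 2) D := by
  have e : (fun z => ‖gg q U z‖ ^ 2) = fun z => ‖q z‖ ^ 2 * U z ^ 2 := by
    funext z
    rw [gg, norm_mul, Complex.norm_conj, Complex.norm_real, mul_pow, Real.norm_eq_abs, sq_abs]
  rw [e]; exact hU.l2

lemma int_qg {Φ : ℂ → ℂ} (hΦ : Data Φ) {U : ℂ → ℝ} (hU : Adm (deriv Φ) U) :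
    IntegrableOn (fun z => deriv Φ z * gg (deriv Φ) U z) D :=
  int_mul_l2 (cont_q hΦ) (cont_gg (cont_q hΦ) hU) hΦ.area (int_gg2 hU)

lemma re_integral {f : ℂ → ℂ} (hf : IntegrableOn f D) :
    (∫ z in D, f z).re = ∫ z in D, (f z).re := (integral_re hf).symm

/-- The regularised inverse of `‖z‖²`. -/
def rr (ε : ℝ) (z : ℂ) : ℝ := (‖z‖ ^ 2 + ε)⁻¹

/-- Its complex version. -/
def uu (ε : ℝ) (z : ℂ) : ℂ := (rr ε z : ℝ)

lemma rr_pos {ε : ℝ} (hε : 0 < ε) (z : ℂ) : 0 < rr ε z := by unfold rr; positivity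

lemma rr_mul {ε : ℝ} (hε : 0 < ε) (z : ℂ) : rr ε z * (‖z‖ ^ 2 + ε) = 1 :=
  inv_mul_cancel₀ (by positivity)

lemma continuous_rr {ε : ℝ} (hε : 0 < ε) : Continuous (rr ε) :=
  ((continuous_norm.pow 2).add continuous_const).inv₀
    fun z => (show (0 : ℝ) < ‖z‖ ^ 2 + ε by positivity).ne'

lemma contDiff_uu {ε : ℝ} (hε : 0 < ε) : ContDiff ℝ 1 (uu ε) :=
  Complex.ofRealCLM.contDiff.comp
    (((contDiff_norm_sq ℝ).add contDiff_const).inv fun z => by positivity)

lemma uu_mul {ε : ℝ} (hε : 0 < ε) (z : ℂ) : uu ε z * (z * conj z + ε) = 1 := by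
  rw [Complex.mul_conj, Complex.normSq_eq_norm_sq, uu, ← Complex.ofReal_add, ← Complex.ofReal_mul,
    rr_mul hε, Complex.ofReal_one]

lemma contDiff_conj : ContDiff ℝ 1 fun z : ℂ => conj z := Complex.conjCLE.contDiff

lemma db_uu {ε : ℝ} (hε : 0 < ε) (z : ℂ) : db (uu ε) z = -2 * z * uu ε z ^ 2 := by
  have h1 : DifferentiableAt ℝ (fun z : ℂ => z) z := differentiableAt_id
  have h2 := differentiableAt_conj h1
  have h3 : DifferentiableAt ℝ (uu ε) z := (contDiff_uu hε).differentiable one_ne_zero z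
  have h4 := db_mul h3 ((h1.fun_mul h2).fun_add (differentiableAt_const (ε : ℂ)))
  rw [show (fun z => uu ε z * (z * conj z + ε)) = fun _ => (1 : ℂ) from funext (uu_mul hε),
    db_const, db_add (h1.fun_mul h2) (differentiableAt_const _), db_mul h1 h2, db_id, db_conj_id,
    db_const] at h4
  have h5 := uu_mul hε z
  linear_combination (-(uu ε z)) * h4 - db (uu ε) z * h5

lemma eps_rr_le {ε : ℝ} (hε : 0 < ε) (z : ℂ) : ε * rr ε z ≤ 1 := by
  have := rr_mul hε z
  have := rr_pos hε z
  nlinarith [sq_nonneg ‖z‖]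

/-- The approximate identity has bounded mass. -/
lemma mass_le {ε : ℝ} (hε : 0 < ε) :
    ∫ z in D, w z * (ε * rr ε z ^ 2) ≤ (volume D).toReal := by
  have hw : ContDiff ℝ 1 fun z => (w z : ℂ) := Complex.ofRealCLM.contDiff.comp contDiff_w
  have hb : ContDiff ℝ 1 fun z => (w z : ℂ) * (conj z * uu ε z) :=
    hw.mul (contDiff_conj.mul (contDiff_uu hε))
  have hc : Continuous fun z => conj z * uu ε z := (contDiff_conj.mul (contDiff_uu hε)).continuous
  have h := divD hb.contDiffOn (int_cont (continuous_db hb))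
    ((int_cont hc.norm).congr_fun (fun z hz => by
      simp only
      rw [norm_mul (w z : ℂ), Complex.norm_real, Real.norm_of_nonneg (w_pos hz).le,
        mul_div_cancel_left₀ _ (w_pos hz).ne']) measurableSet_D)
  have e : ∀ z, db (fun z => (w z : ℂ) * (conj z * uu ε z)) z =
      ((2 * (w z * (ε * rr ε z ^ 2)) - 2 * (‖z‖ ^ 2 * rr ε z) : ℝ) : ℂ) := by
    intro z
    have h1 : DifferentiableAt ℝ (fun z : ℂ => z) z := differentiableAt_id
    have h2 := differentiableAt_conj h1
    have h3 : DifferentiableAt ℝ (uu ε) z := (contDiff_uu hε).differentiable one_ne_zero z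
    rw [db_mul differentiableAt_w_ofReal (h2.fun_mul h3), db_mul h2 h3, db_w, db_conj_id,
      db_uu hε]
    have h5 := uu_mul hε z
    have h6 : ((‖z‖ : ℝ) : ℂ) ^ 2 = z * conj z := by
      rw [Complex.mul_conj, Complex.normSq_eq_norm_sq]; push_cast; rfl
    push_cast
    rw [h6]
    change _ = 2 * (w z * (ε * uu ε z ^ 2)) - 2 * (z * conj z * uu ε z)
    linear_combination (-2 * (w z : ℂ) * uu ε z) * h5
  simp only [e] at h
  rw [integral_complex_ofReal, Complex.ofReal_eq_zero] at h
  have hr : Continuous (rr ε) := continuous_rr hε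
  have i1 : IntegrableOn (fun z => w z * (ε * rr ε z ^ 2)) D :=
    int_cont (continuous_w.mul (continuous_const.mul (hr.pow 2)))
  have i2 : IntegrableOn (fun z : ℂ => ‖z‖ ^ 2 * rr ε z) D :=
    int_cont ((continuous_norm.pow 2).mul hr)
  rw [integral_sub (i1.const_mul 2) (i2.const_mul 2), integral_const_mul, integral_const_mul] at h
  have h7 : ∫ z in D, ‖z‖ ^ 2 * rr ε z ≤ ∫ _ in D, (1 : ℝ) := by
    refine integral_mono i2 (int_const 1) fun z => ?_
    have := rr_mul hε z
    have := rr_pos hε z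
    simp only
    nlinarith
  rw [integral_const, smul_eq_mul, mul_one, Measure.real, Measure.restrict_apply_univ] at h7
  linarith

/-- The scale. -/
def ep (n : ℕ) : ℝ := 1 / ((n : ℝ) + 1)

lemma ep_pos (n : ℕ) : 0 < ep n := by unfold ep; positivity

lemma ep_lim : Filter.Tendsto ep Filter.atTop (nhds 0) := tendsto_one_div_add_atTop_nhds_zero_nat

lemma lim1 {T : ℂ → ℂ} (hT : IntegrableOn T D) :
    Filter.Tendsto (fun n => ∫ z in D, T z * (ep n * uu (ep n) z)) Filter.atTop (nhds 0) := by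
  have h := tendsto_integral_of_dominated_convergence (μ := volume.restrict D)
    (F := fun n z => T z * (ep n * uu (ep n) z)) (f := fun _ => 0) (fun z => ‖T z‖)
    (fun n => hT.1.mul (continuous_const.mul (contDiff_uu (ep_pos n)).continuous).aestronglyMeasurable)
    hT.norm (fun n => ae_of_all _ fun z => ?_) ?_
  · simpa using h
  · rw [norm_mul, uu, ← Complex.ofReal_mul, Complex.norm_real,
      Real.norm_of_nonneg (mul_pos (ep_pos n) (rr_pos (ep_pos n) z)).le]
    exact mul_le_of_le_one_right (norm_nonneg _) (eps_rr_le (ep_pos n) z)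
  · filter_upwards [(volume.restrict D).ae_ne 0] with z hz
    have h1 : Filter.Tendsto (fun n => rr (ep n) z) Filter.atTop (nhds (‖z‖ ^ 2 + 0)⁻¹) :=
      (tendsto_const_nhds.add ep_lim).inv₀ (by have := norm_pos_iff.2 hz; positivity)
    have h2 := (Complex.continuous_ofReal.tendsto _).comp (ep_lim.mul h1)
    have h3 := h2.const_mul (T z)
    simp only [zero_mul, Complex.ofReal_zero, mul_zero, Function.comp_def,
      Complex.ofReal_mul] at h3
    exact h3

lemma lim2 {F : ℂ → ℂ} (hc : ContinuousOn F D) (h0 : F 0 = 0) (hF : IntegrableOn F D) :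
    Filter.Tendsto (fun n => ∫ z in D, F z * (ep n * uu (ep n) z ^ 2)) Filter.atTop (nhds 0) := by
  rw [Metric.tendsto_atTop]
  intro κ hκ
  set A : ℝ := (volume D).toReal with hA
  have hA0 : 0 ≤ A := ENNReal.toReal_nonneg
  set κ' : ℝ := κ / (2 * (2 * A + 1)) with hκ'
  have hκ0 : 0 < κ' := by positivity
  obtain ⟨δ₀, hδ₀, hδ⟩ := Metric.continuousAt_iff.1 (hc.continuousAt (D_mem_nhds zero_mem_D)) κ' hκ0
  set δ : ℝ := min δ₀ (1 / 2) with hδd
  have hδ0 : 0 < δ := lt_min hδ₀ (by norm_num)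
  set C : ℝ := (δ ^ 4)⁻¹ * ∫ z in D, ‖F z‖ with hC
  have h1 : Filter.Tendsto (fun n => ep n * C) Filter.atTop (nhds (0 * C)) := ep_lim.mul_const C
  rw [zero_mul, Metric.tendsto_atTop] at h1
  obtain ⟨N, hN⟩ := h1 (κ / 2) (by positivity)
  refine ⟨N, fun n hn => ?_⟩
  have h2 := hN n hn
  rw [dist_zero_right] at h2 ⊢
  have hε := ep_pos n
  set ε := ep n
  have hr : Continuous (rr ε) := continuous_rr hε
  have i1 : IntegrableOn (fun z => w z * (ε * rr ε z ^ 2)) D :=
    int_cont (continuous_w.mul (continuous_const.mul (hr.pow 2)))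
  have h3 : ‖∫ z in D, F z * (ε * uu ε z ^ 2)‖ ≤
      ∫ z in D, (2 * κ' * (w z * (ε * rr ε z ^ 2)) + ε * (δ ^ 4)⁻¹ * ‖F z‖) := by
    refine norm_integral_le_of_norm_le ((i1.const_mul _).add (hF.norm.const_mul _))
      (ae_restrict_of_forall_mem measurableSet_D fun z hz => ?_)
    have a0 := rr_pos hε z
    have a1 : 0 < ε * rr ε z ^ 2 := by positivity
    have a2 := w_pos hz
    have a3 := norm_nonneg (F z)
    rw [norm_mul, uu, ← Complex.ofReal_pow, ← Complex.ofReal_mul, Complex.norm_real,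
      Real.norm_of_nonneg a1.le]
    rcases lt_or_ge ‖z‖ δ with h | h
    · have a4 := hδ (x := z) (by rw [dist_zero_right]; exact h.trans_le (min_le_left _ _))
      rw [h0, dist_zero_right] at a4
      have a5 : ‖z‖ < 1 / 2 := h.trans_le (min_le_right _ _)
      have a6 : 1 ≤ 2 * w z := by unfold w; nlinarith [norm_nonneg z]
      have a7 : ‖F z‖ ≤ 2 * κ' * w z := by nlinarith
      have a8 : 0 ≤ ε * (δ ^ 4)⁻¹ * ‖F z‖ := by positivity
      nlinarith
    · have a4 : rr ε z ≤ (δ ^ 2)⁻¹ := by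
        unfold rr
        refine inv_anti₀ (by positivity) ?_
        have := pow_le_pow_left₀ hδ0.le h 2
        linarith
      have a5 : rr ε z ^ 2 ≤ (δ ^ 4)⁻¹ := by
        refine (pow_le_pow_left₀ a0.le a4 2).trans (le_of_eq ?_)
        rw [inv_pow, ← pow_mul]
      have a6 : ‖F z‖ * (ε * rr ε z ^ 2) ≤ ‖F z‖ * (ε * (δ ^ 4)⁻¹) := by gcongr
      have a7 : 0 ≤ 2 * κ' * (w z * (ε * rr ε z ^ 2)) := by positivity
      linarith
  rw [integral_add (i1.const_mul _) (hF.norm.const_mul _), integral_const_mul,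
    integral_const_mul] at h3
  have h4 := mul_le_mul_of_nonneg_left (mass_le hε) (show 0 ≤ 2 * κ' by positivity)
  have h5 : κ' * (2 * A + 1) = κ / 2 := by rw [hκ']; field_simp
  have h6 := le_abs_self (ε * C)
  rw [Real.norm_eq_abs] at h2
  have h7 : ε * (δ ^ 4)⁻¹ * ∫ z in D, ‖F z‖ = ε * C := by rw [hC, mul_assoc]
  rw [← hA] at h4
  nlinarith

end Weak

open Weak

/-- Neumann equation against complex test functions: `re_gr_mul_db`, `Data.el` for `Re Ξ`,
`jacD` for `(U, Im Ξ)` (`abs_le_mul_w`, `bdd_of_continuous`). -/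
lemma Data.weak_neumann {Φ : ℂ → ℂ} (hΦ : Data Φ) {U : ℂ → ℝ} (hU : Eig (deriv Φ) U)
    {Ξ : ℂ → ℂ} (hΞ : Test Ξ) :
    (∫ z in D, gr U z * db Ξ z).re = (∫ z in D, deriv Φ z * gg (deriv Φ) U z * Ξ z).re := by
  have hre : ContDiff ℝ 1 (fun z => (Ξ z).re) := Complex.reCLM.contDiff.comp hΞ.c1
  have him : ContDiff ℝ 1 (fun z => (Ξ z).im) := Complex.imCLM.contDiff.comp hΞ.c1
  have hψ := int_of_l2 (continuousOn_gr hU.adm.c1) (int_psi2 hU.adm)
  have h1 := int_mul_cont hψ (continuous_db hΞ.c1)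
  have h2 := int_mul_cont (int_qg hΦ hU.adm) hΞ.c1.continuous
  have hadm : Adm (deriv Φ) fun z => (Ξ z).re := by
    refine ⟨hre.contDiffOn, ?_, int_cont (continuous_gsq hre)⟩
    obtain ⟨C, hC⟩ := bdd_of_continuous (hre.continuous.pow 2)
    exact Integrable.mul_bdd hΦ.area (aesm (hre.continuous.pow 2).continuousOn)
      (ae_restrict_of_forall_mem measurableSet_D hC)
  obtain ⟨C, hC⟩ := abs_le_mul_w him hΞ.re
  have hbw : IntegrableOn (fun z => ((Ξ z).im / w z) ^ 2) D := by
    refine int_of_le (aesm ((him.continuous.continuousOn.div continuous_w.continuousOn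
      fun z hz => (w_pos hz).ne').pow 2)) (int_const (C ^ 2)) fun z hz => ?_
    rw [norm_pow, Real.norm_eq_abs, abs_div, abs_of_pos (w_pos hz)]
    exact pow_le_pow_left₀ (div_nonneg (abs_nonneg _) (w_pos hz).le)
      ((div_le_iff₀ (w_pos hz)).2 (hC z hz)) 2
  obtain ⟨hj1, hj2⟩ := jacD hU.adm.c1 him.contDiffOn hU.adm.g2 (int_cont (continuous_gsq him)) hbw
  have hd : ∀ z, DifferentiableAt ℝ Ξ z := hΞ.c1.differentiable one_ne_zero
  have e1 : ∀ z, gdot U (fun z => (Ξ z).re) z =
      (gr U z * db Ξ z).re + jac U (fun z => (Ξ z).im) z := fun z => by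
    rw [re_gr_mul_db U (hd z)]; ring
  have h3 := hΦ.el hU hadm
  simp only [e1] at h3
  have h1' : IntegrableOn (fun z => (gr U z * db Ξ z).re) D := h1.re
  rw [integral_add h1' hj1, hj2, add_zero] at h3
  rw [re_integral h1, re_integral h2]
  refine h3.trans (integral_congr_ae (ae_of_all _ fun z => ?_))
  simp only [gg]
  rw [← mul_assoc (deriv Φ z), Complex.mul_conj, Complex.normSq_eq_norm_sq, ← Complex.ofReal_mul,
    Complex.re_ofReal_mul, mul_assoc]

/-- `ψ, q, M ∈ L²(D) ⊆ L¹(D)`. -/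
lemma integrableOn_Gp {q ψ M : ℂ → ℂ} (hq : ContinuousOn q D) (hψ : ContinuousOn ψ D)
    (hM : ContinuousOn M D) (hq2 : IntegrableOn (fun z => ‖q z‖ ^ 2) D)
    (hψ2 : IntegrableOn (fun z => ‖ψ z‖ ^ 2) D) (hM2 : IntegrableOn (fun z => ‖M z‖ ^ 2) D) :
    IntegrableOn (Gp q ψ M) D := by
  have h1 := int_mul_cont (int_of_l2 hψ hψ2) continuous_id
  have h2 := int_mul_cont (int_mul_l2 hq hM hq2 hM2) (c := fun z => (w z : ℂ) / 2)
    ((Complex.continuous_ofReal.comp continuous_w).div_const 2)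
  have e : Gp q ψ M = fun z => ψ z * id z - q z * M z * ((w z : ℂ) / 2) := by
    funext z; simp only [Gp, id]; ring
  rw [e]; exact h1.sub h2

/-- `ψ/z`: `ψ` is bounded on the ball of radius `1/2` and `‖z‖⁻¹` is locally integrable in the plane
(`integrableOn_ball_of_norm_le_rpow` or similar); outside that ball `‖ψ/z‖ ≤ 2‖ψ‖`. -/
lemma integrableOn_Gm {q ψ M : ℂ → ℂ} (hq : ContinuousOn q D) (hψ : ContinuousOn ψ D)
    (hM : ContinuousOn M D) (hq2 : IntegrableOn (fun z => ‖q z‖ ^ 2) D)
    (hψ2 : IntegrableOn (fun z => ‖ψ z‖ ^ 2) D) (hM2 : IntegrableOn (fun z => ‖M z‖ ^ 2) D) :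
    IntegrableOn (Gm q ψ M) D := by
  have hinv : AEStronglyMeasurable (fun z : ℂ => z⁻¹) (volume.restrict D) :=
    measurable_inv.aestronglyMeasurable
  have h0 : IntegrableOn (fun z : ℂ => ‖z‖⁻¹) D := by
    refine integrableOn_ball_of_norm_le_rpow (C := 1) (α := 1) (by simp) (by simp)
      (ae_of_all _ fun z => ?_) (measurable_norm.inv).aestronglyMeasurable
    rw [Real.rpow_neg_one, one_mul, norm_inv, norm_norm]
  obtain ⟨C, hC⟩ := (isCompact_closedBall (0 : ℂ) (1 / 2)).exists_bound_of_continuousOn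
    (hψ.mono (closedBall_subset_ball (by norm_num)))
  have hC0 : 0 ≤ C := (norm_nonneg _).trans (hC 0 (by simp))
  have h1 : IntegrableOn (fun z => ψ z * z⁻¹) D := by
    refine int_of_le ((aesm hψ).mul hinv)
      ((h0.const_mul C).add ((int_of_l2 hψ hψ2).norm.const_mul 2)) fun z _ => ?_
    rw [norm_mul, norm_inv, Pi.add_apply]
    have a0 : 0 ≤ ‖z‖⁻¹ := by positivity
    have a1 := norm_nonneg (ψ z)
    rcases le_or_gt ‖z‖ (1 / 2) with h | h
    · have := hC z (mem_closedBall_zero_iff.2 h)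
      nlinarith
    · have : ‖z‖⁻¹ ≤ 2 := by
        rw [inv_le_comm₀ (by linarith) (by norm_num)]; linarith
      nlinarith
  have h2 := int_mul_cont (int_mul_l2 hq hM hq2 hM2) (c := fun z => (w z : ℂ) / 2)
    ((Complex.continuous_ofReal.comp continuous_w).div_const 2)
  have h3 : IntegrableOn (fun z => conj z * z⁻¹ * (q z * M z * ((w z : ℂ) / 2))) D := by
    refine Integrable.bdd_mul (c := 1) h2 (Complex.continuous_conj.aestronglyMeasurable.mul hinv)
      (ae_of_all _ fun z => ?_)
    rw [norm_mul, Complex.norm_conj, norm_inv]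
    exact mul_inv_le_one
  have e : Gm q ψ M = fun z => ψ z * z⁻¹ + conj z * z⁻¹ * (q z * M z * ((w z : ℂ) / 2)) := by
    funext z; simp only [Gm]; ring
  rw [e]; exact h1.add h3

/-- (Formalised with the rational cut-off `η = ‖z‖²/(‖z‖² + ε)` instead of the one below.)
The weak identity.  Write `q = Φ'`, `ψ = gr U`, `g = gg q U`, `h z = β z + conj β / z`
(holomorphic off `0`, real on the circle), `R = w M (-β + conj β * conj z / z)/2`.  For `z ∈ D`,
`z ≠ 0`: `β Gp + conj β Gm = h ψ + q R` and (using `hrad`, `db_w`) `β Kp + conj β Km = -h g + db R`.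
Let `η ε z = Real.smoothTransition (‖z‖²/ε² - 1)` (smooth, `0` for `‖z‖ ≤ ε`, `1` for `‖z‖² ≥ 2ε²`,
`‖db (η ε) z‖ ≤ C/ε`, supported in `ε ≤ ‖z‖ ≤ 2ε`), `Θε = η ε * Θ`.
(i) `Data.weak_neumann` for the test function `Ξ = h Θε` (`db Ξ = h db Θε` off `0`);
(ii) `divD` for `b = q R Θε` (`db b = q (db R) Θε + q R db Θε`, `db R = K + h g` is in `L²` where
`η ε ≠ 0`, `‖b‖/w ≤ C‖q‖‖M‖`).  Adding: `Re ∫ G db Θε = - Re ∫ q K Θε`.  Let `ε → 0` along
`ε = 1/(n+2)`: dominated convergence for `G η db Θ` and `q K η Θ`; the extra term satisfies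
`‖∫ G Θ db η‖ ≤ C' sup_{‖z‖ ≤ 2ε} ‖z G z‖ · ε⁻² · vol(ball 2ε) → 0` because `z ↦ z * G z` is
(off `0`) equal to a function continuous at `0` with value `conj β ψ 0 = 0`. -/
lemma Data.weak {Φ : ℂ → ℂ} (hΦ : Data Φ) {U : ℂ → ℝ} (hU : Eig (deriv Φ) U) (h0 : gr U 0 = 0)
    {M : ℂ → ℂ} (hM : ContDiffOn ℝ 1 M D)
    (hrad : ∀ z ∈ D, gg (deriv Φ) U z = M z + (z * dd M z + conj z * db M z) / 2)
    (hM2 : IntegrableOn (fun z => ‖M z‖ ^ 2) D)
    (hKp : IntegrableOn (fun z => ‖Kp M z‖ ^ 2) D) (hKm : IntegrableOn (fun z => ‖Km M z‖ ^ 2) D)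
    (β : ℂ) {Θ : ℂ → ℂ} (hΘ : Test Θ) :
    (∫ z in D, (β * Gp (deriv Φ) (gr U) M z + conj β * Gm (deriv Φ) (gr U) M z) * db Θ z).re =
      -(∫ z in D, deriv Φ z * (β * Kp M z + conj β * Km M z) * Θ z).re := by
  set q := deriv Φ with hq
  set ψ := gr U with hψ
  set g := gg q U with hg
  have cq : ContinuousOn q D := cont_q hΦ
  have cψ : ContinuousOn ψ D := continuousOn_gr hU.adm.c1
  have cM : ContinuousOn M D := hM.continuousOn
  have cc : Continuous fun z : ℂ => conj z := Complex.continuous_conj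
  have cw : Continuous fun z => (w z : ℂ) := Complex.continuous_ofReal.comp continuous_w
  have cΘ : Continuous Θ := hΘ.c1.continuous
  have cdΘ : Continuous (db Θ) := continuous_db hΘ.c1
  have cKp : ContinuousOn (Kp M) D :=
    ((((continuousOn_id.pow 2).mul (continuousOn_dd hM)).add (continuousOn_db hM)).neg).div_const 2
  have cKm : ContinuousOn (Km M) D :=
    ((((continuousOn_dd hM).div_const 2).add
      ((continuousOn_const.mul cc.continuousOn).mul cM)).add
      (((cc.continuousOn.pow 2).mul (continuousOn_db hM)).div_const 2)).neg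
  have iq2 : IntegrableOn (fun z => ‖q z‖ ^ 2) D := hΦ.area
  have iψ2 := int_psi2 hU.adm
  have iψ : IntegrableOn ψ D := int_of_l2 cψ iψ2
  have iqg : IntegrableOn (fun z => q z * g z) D := int_qg hΦ hU.adm
  have iqM : IntegrableOn (fun z => q z * M z) D := int_mul_l2 cq cM iq2 hM2
  set G : ℂ → ℂ := fun z => β * Gp q ψ M z + conj β * Gm q ψ M z with hG
  set K : ℂ → ℂ := fun z => β * Kp M z + conj β * Km M z with hK
  have iG : IntegrableOn G D :=
    ((integrableOn_Gp cq cψ cM iq2 iψ2 hM2).const_mul β).add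
      ((integrableOn_Gm cq cψ cM iq2 iψ2 hM2).const_mul (conj β))
  have iqK : IntegrableOn (fun z => q z * K z) D := by
    have e : (fun z => q z * K z) = fun z => β * (q z * Kp M z) + conj β * (q z * Km M z) := by
      funext z; simp only [hK]; ring
    rw [e]
    exact ((int_mul_l2 cq cKp iq2 hKp).const_mul β).add
      ((int_mul_l2 cq cKm iq2 hKm).const_mul (conj β))
  have i1 := int_mul_cont iG cdΘ
  have i2 := int_mul_cont iqK cΘ
  set T : ℂ → ℂ := fun z => G z * db Θ z + q z * K z * Θ z with hT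
  have iT : IntegrableOn T D := i1.add i2
  set F : ℂ → ℂ := fun z => ψ z * (2 * (β * z ^ 2 + conj β) * Θ z) +
    q z * M z * (w z * (-β * z + conj β * conj z) * Θ z) with hF
  have c1 : Continuous fun z : ℂ => 2 * (β * z ^ 2 + conj β) * Θ z := by fun_prop
  have c2 : Continuous fun z : ℂ => w z * (-β * z + conj β * conj z) * Θ z := by fun_prop
  have iF : IntegrableOn F D := (int_mul_cont iψ c1).add (int_mul_cont iqM c2)
  have cF : ContinuousOn F D := (cψ.mul c1.continuousOn).add ((cq.mul cM).mul c2.continuousOn)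
  have F0 : F 0 = 0 := by simp only [hF, h0]; simp
  have key : ∀ ε : ℝ, 0 < ε → (∫ z in D, T z).re =
      ((∫ z in D, T z * (ε * uu ε z)) - ∫ z in D, F z * (ε * uu ε z ^ 2)).re := by
    intro ε hε
    have du := contDiff_uu hε
    have cu := du.continuous
    have hw : ContDiff ℝ 1 fun z => (w z : ℂ) := Complex.ofRealCLM.contDiff.comp contDiff_w
    have dc := contDiff_conj
    set H : ℂ → ℂ := fun z => (β * (z * z) + conj β) * (conj z * uu ε z) with hH
    have dH : ContDiff ℝ 1 H :=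
      ((contDiff_const.mul (contDiff_id.mul contDiff_id)).add contDiff_const).mul (dc.mul du)
    set S : ℂ → ℂ := fun z => (-β / 2 * z + conj β / 2 * conj z) * (conj z * uu ε z) with hS
    have dS : ContDiff ℝ 1 S :=
      ((contDiff_const.mul contDiff_id).add (contDiff_const.mul dc)).mul (dc.mul du)
    have hΞ : Test fun z => H z * Θ z := by
      refine ⟨dH.mul hΘ.c1, fun z hz => ?_⟩
      have a1 : z * conj z = 1 := by
        rw [Complex.mul_conj, Complex.normSq_eq_norm_sq, hz]; simp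
      have a2 : H z = ((2 * (β * z).re * rr ε z : ℝ) : ℂ) := by
        rw [Complex.ofReal_mul, ← Complex.add_conj, map_mul]
        simp only [hH, uu]
        linear_combination (β * z * (rr ε z : ℂ)) * a1
      rw [a2, Complex.im_ofReal_mul, hΘ.re z hz, mul_zero]
    have hN := hΦ.weak_neumann hU hΞ
    have db1 : ContDiffOn ℝ 1 (fun z => q z * M z * (w z * (S z * Θ z))) D :=
      ((contDiffOn_of_holo hΦ.holo_q).mul hM).mul (hw.mul (dS.mul hΘ.c1)).contDiffOn
    have e : ∀ z ∈ D, z ≠ 0 → db (fun z => q z * M z * (w z * (S z * Θ z))) z =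
        T z - T z * (ε * uu ε z) + F z * (ε * uu ε z ^ 2) + q z * g z * (H z * Θ z) -
          ψ z * db (fun z => H z * Θ z) z := by
      intro z hz hz0
      have h1 : DifferentiableAt ℝ (fun z : ℂ => z) z := differentiableAt_id
      have h2 := differentiableAt_conj h1
      have h3 : DifferentiableAt ℝ (uu ε) z := du.differentiable one_ne_zero z
      have h4 : DifferentiableAt ℂ q z := hΦ.holo_q.differentiableAt (D_mem_nhds hz)
      have h5 : DifferentiableAt ℝ q z := h4.restrictScalars ℝ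
      have h6 := diffAt_of_c1 hM hz
      have h7 : DifferentiableAt ℝ S z := dS.differentiable one_ne_zero z
      have h8 : DifferentiableAt ℝ H z := dH.differentiable one_ne_zero z
      have h9 : DifferentiableAt ℝ Θ z := hΘ.c1.differentiable one_ne_zero z
      have hcu : db (fun z => conj z * uu ε z) z = 2 * uu ε z + conj z * (-2 * z * uu ε z ^ 2) := by
        rw [db_mul h2 h3, db_conj_id, db_uu hε]
      have eH : db H z = (β * (z * z) + conj β) * (2 * uu ε z + conj z * (-2 * z * uu ε z ^ 2)) := by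
        rw [hH, db_mul (((h1.fun_mul h1).const_mul β).add_const _) (h2.fun_mul h3), hcu,
          db_holo (by fun_prop)]
        ring
      have eS : db S z = conj β * (conj z * uu ε z) + (-β / 2 * z + conj β / 2 * conj z) *
          (2 * uu ε z + conj z * (-2 * z * uu ε z ^ 2)) := by
        rw [hS, db_mul ((h1.const_mul _).fun_add (h2.const_mul _)) (h2.fun_mul h3), hcu,
          db_add (h1.const_mul _) (h2.const_mul _), db_const_mul _ h1, db_const_mul _ h2, db_id,
          db_conj_id]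
        ring
      rw [db_mul (h5.fun_mul h6) (differentiableAt_w_ofReal.fun_mul (h7.fun_mul h9)),
        db_mul h5 h6, db_holo h4, db_mul differentiableAt_w_ofReal (h7.fun_mul h9), db_w,
        db_mul h7 h9, db_mul h8 h9, eH, eS]
      have a1 := uu_mul hε z
      have a2 : (ε : ℂ) * uu ε z = 1 - z * conj z * uu ε z := by linear_combination a1
      have a3 : (ε : ℂ) * uu ε z ^ 2 = uu ε z - z * conj z * uu ε z ^ 2 := by
        linear_combination uu ε z * a1
      rw [a2, a3]
      simp only [hT, hF, hG, hK, hH, hS, Gp, Gm, Kp, Km, hrad z hz, w_ofReal]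
      field_simp
      ring
    have j1 : IntegrableOn (fun z => T z * (ε * uu ε z)) D :=
      int_mul_cont iT (continuous_const.mul cu)
    have j2 : IntegrableOn (fun z => F z * (ε * uu ε z ^ 2)) D :=
      int_mul_cont iF (continuous_const.mul (cu.pow 2))
    have j3 : IntegrableOn (fun z => q z * g z * (H z * Θ z)) D :=
      int_mul_cont iqg hΞ.c1.continuous
    have j4 : IntegrableOn (fun z => ψ z * db (fun z => H z * Θ z) z) D :=
      int_mul_cont iψ (continuous_db hΞ.c1)
    have eae : (db fun z => q z * M z * (w z * (S z * Θ z))) =ᵐ[volume.restrict D] fun z =>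
        T z - T z * (ε * uu ε z) + F z * (ε * uu ε z ^ 2) + q z * g z * (H z * Θ z) -
          ψ z * db (fun z => H z * Θ z) z := by
      filter_upwards [(volume.restrict D).ae_ne 0, ae_restrict_mem measurableSet_D] with z h1 h2
      exact e z h2 h1
    have k1 : IntegrableOn (fun z => T z - T z * (ε * uu ε z)) D := iT.sub j1
    have k2 : IntegrableOn (fun z => T z - T z * (ε * uu ε z) + F z * (ε * uu ε z ^ 2)) D :=
      k1.add j2
    have k3 : IntegrableOn (fun z => T z - T z * (ε * uu ε z) + F z * (ε * uu ε z ^ 2) +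
        q z * g z * (H z * Θ z)) D := k2.add j3
    have hdiv := divD db1 ((k3.sub j4).congr eae.symm)
      ((int_mul_cont iqM (dS.mul hΘ.c1).continuous).norm.congr
        (ae_restrict_of_forall_mem measurableSet_D fun z hz => by
          simp only
          rw [mul_left_comm _ (w z : ℂ), norm_mul (w z : ℂ), Complex.norm_real,
            Real.norm_of_nonneg (w_pos hz).le, mul_div_cancel_left₀ _ (w_pos hz).ne']))
    rw [integral_congr_ae eae, integral_sub k3 j4, integral_add k2 j3, integral_add k1 j2,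
      integral_sub iT j1] at hdiv
    have hre := congrArg Complex.re hdiv
    simp only [Complex.sub_re, Complex.add_re, Complex.zero_re] at hre ⊢
    linarith
  have hlim := (Complex.continuous_re.tendsto _).comp ((lim1 iT).sub (lim2 cF F0 iF))
  simp only [sub_zero, Complex.zero_re, Function.comp_def, ← key _ (ep_pos _)] at hlim
  have h1 : (∫ z in D, T z).re = 0 := tendsto_nhds_unique tendsto_const_nhds hlim
  rw [hT, integral_add i1 i2, Complex.add_re] at h1
  linarith

end Crest.Agent.R101
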