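import Crest.Agent.R101.Hodge
import Crest.Agent.R101.Weak
import Crest.Agent.R101.Energy
import Crest.Agent.R101.Hardy

/-!
The hot-spots theorem in the disc model.
-/

open MeasureTheory Complex Metric Set ComplexConjugate

noncomputable section
namespace Crest.Agent.R101

lemma par (A B : ℂ) :
    ‖(1 / 2 : ℂ) * A + conj (1 / 2 : ℂ) * B‖ ^ 2 + ‖(-I / 2 : ℂ) * A + conj (-I / 2 : ℂ) * B‖ ^ 2
      = (‖A‖ ^ 2 + ‖B‖ ^ 2) / 2 := by
  have e1 : conj (1 / 2 : ℂ) = 1 / 2 := by simp [map_ofNat]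
  have e2 : conj (-I / 2 : ℂ) = I / 2 := by simp [map_ofNat]
  rw [e1, e2]
  simp only [Complex.sq_norm, Complex.normSq_apply]
  simp
  ring

lemma G_lower (q ψ M : ℂ → ℂ) {z : ℂ} (hz : z ≠ 0) :
    ‖ψ z‖ ^ 2 + w z ^ 2 / (4 * ‖z‖ ^ 2) * ‖ψ z‖ ^ 2 ≤ (‖Gp q ψ M z‖ ^ 2 + ‖Gm q ψ M z‖ ^ 2) / 2 := by
  have hn : 0 < ‖z‖ := norm_pos_iff.2 hz
  set P := ψ z with hP
  set N := q z * M z with hN
  have e1 : Gp q ψ M z = z * P - (w z : ℂ) * N / 2 := by simp only [Gp, hP, hN]; ring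
  have e2 : z * Gm q ψ M z = P + conj z * (w z : ℂ) * N / 2 := by
    simp only [Gm, hP, hN]; field_simp
  have e3 : ‖Gm q ψ M z‖ ^ 2 = ‖P + conj z * (w z : ℂ) * N / 2‖ ^ 2 / ‖z‖ ^ 2 := by
    rw [← e2, norm_mul]; field_simp
  have key : (‖z‖ ^ 2 * ‖z * P - (w z : ℂ) * N / 2‖ ^ 2 + ‖P + conj z * (w z : ℂ) * N / 2‖ ^ 2) / 2
      = ‖z‖ ^ 2 * ‖P‖ ^ 2 + w z ^ 2 / 4 * ‖P‖ ^ 2 + w z ^ 2 / 4 * ‖P + conj z * N‖ ^ 2 := by
    rw [w_eq]
    simp only [Complex.sq_norm, Complex.normSq_apply]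
    simp [-Complex.ofReal_pow]
    ring
  rw [e1, e3]
  have hn2 : 0 < ‖z‖ ^ 2 := by positivity
  have : (‖z * P - (w z : ℂ) * N / 2‖ ^ 2 + ‖P + conj z * (w z : ℂ) * N / 2‖ ^ 2 / ‖z‖ ^ 2) / 2
      = ((‖z‖ ^ 2 * ‖z * P - (w z : ℂ) * N / 2‖ ^ 2 +
        ‖P + conj z * (w z : ℂ) * N / 2‖ ^ 2) / 2) / ‖z‖ ^ 2 := by
    field_simp
  rw [this, key, le_div_iff₀ hn2]
  have h3 : 0 ≤ w z ^ 2 / 4 * ‖P + conj z * N‖ ^ 2 := by positivity
  have h4 : (‖P‖ ^ 2 + w z ^ 2 / (4 * ‖z‖ ^ 2) * ‖P‖ ^ 2) * ‖z‖ ^ 2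
      = ‖z‖ ^ 2 * ‖P‖ ^ 2 + w z ^ 2 / 4 * ‖P‖ ^ 2 := by
    field_simp
  rw [h4]; linarith

lemma continuousOn_Kp {M : ℂ → ℂ} (hM : ContDiffOn ℝ 1 M D) : ContinuousOn (Kp M) D := by
  have h1 := continuousOn_dd hM
  have h2 := continuousOn_db hM
  unfold Kp
  fun_prop
lemma continuousOn_Km {M : ℂ → ℂ} (hM : ContDiffOn ℝ 1 M D) : ContinuousOn (Km M) D := by
  have h1 := continuousOn_dd hM
  have h2 := continuousOn_db hM
  have h3 := hM.continuousOn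
  have h4 : Continuous (fun z : ℂ => conj z) := Complex.continuous_conj
  unfold Km
  fun_prop

lemma continuousOn_Gp {q ψ M : ℂ → ℂ} (hq : ContinuousOn q D) (hψ : ContinuousOn ψ D)
    (hM : ContinuousOn M D) : ContinuousOn (Gp q ψ M) D := by
  have h5 : Continuous (fun z : ℂ => (w z : ℂ)) := Complex.continuous_ofReal.comp continuous_w
  unfold Gp
  exact (continuousOn_id.mul hψ).sub (((h5.continuousOn.mul hq).mul hM).div_const _)
lemma continuousOn_Gm {q ψ M : ℂ → ℂ} (hq : ContinuousOn q D) (hψ : ContinuousOn ψ D)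
    (hM : ContinuousOn M D) : ContinuousOn (Gm q ψ M) (D \ {0}) := by
  have h5 : Continuous (fun z : ℂ => (w z : ℂ)) := Complex.continuous_ofReal.comp continuous_w
  have h4 : Continuous (fun z : ℂ => conj z) := Complex.continuous_conj
  have hq' : ContinuousOn q (D \ {0}) := hq.mono sdiff_subset
  have hψ' : ContinuousOn ψ (D \ {0}) := hψ.mono sdiff_subset
  have hM' : ContinuousOn M (D \ {0}) := hM.mono sdiff_subset
  have hne : ∀ z ∈ D \ {0}, (fun z : ℂ => z) z ≠ 0 := fun z hz => hz.2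
  unfold Gm
  exact (hψ'.div continuousOn_id hne).add
    (((((h4.continuousOn.div continuousOn_id hne).mul h5.continuousOn).mul hq').mul hM').div_const _)

lemma integrableOn_sq_comb {A B : ℂ → ℂ} (hA : ContinuousOn A D) (hB : ContinuousOn B D)
    (hA2 : IntegrableOn (fun z => ‖A z‖ ^ 2) D) (hB2 : IntegrableOn (fun z => ‖B z‖ ^ 2) D)
    (a b : ℂ) : IntegrableOn (fun z => ‖a * A z + b * B z‖ ^ 2) D := by
  refine Integrable.mono' ((hA2.const_mul (2 * ‖a‖ ^ 2)).add (hB2.const_mul (2 * ‖b‖ ^ 2))) ?_ ?_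
  · exact ContinuousOn.aestronglyMeasurable (by fun_prop) measurableSet_D
  · refine Filter.Eventually.of_forall fun z => ?_
    rw [Real.norm_of_nonneg (by positivity)]
    have h1 : ‖a * A z + b * B z‖ ≤ ‖a‖ * ‖A z‖ + ‖b‖ * ‖B z‖ := by
      refine (norm_add_le _ _).trans ?_
      rw [norm_mul, norm_mul]
    have h2 : ‖a * A z + b * B z‖ ^ 2 ≤ (‖a‖ * ‖A z‖ + ‖b‖ * ‖B z‖) ^ 2 :=
      pow_le_pow_left₀ (norm_nonneg _) h1 2
    simp only [Pi.add_apply]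
    nlinarith [sq_nonneg (‖a‖ * ‖A z‖ - ‖b‖ * ‖B z‖)]

theorem disc_main {Φ : ℂ → ℂ} {U : ℂ → ℝ} (hΦ : Data Φ)
    (hb : ∀ z ∈ D, ‖deriv Φ z‖ ^ 2 ≤ 6 / w z ^ 2) (hU : Eig (deriv Φ) U)
    (hpos : 0 < ∫ z in D, gsq U z) (h0 : gr U 0 = 0) : False := by
  set q := deriv Φ with hq
  set ψ := gr U with hψ
  set g := gg q U with hg
  set M := MM g with hM
  have hqh : DifferentiableOn ℂ q D := hΦ.holo_q
  have hq1 : ContDiffOn ℝ 1 q D := contDiffOn_of_holo hqh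
  have hqc : ContinuousOn q D := hq1.continuousOn
  have hψc : ContinuousOn ψ D := continuousOn_gr hU.adm.c1
  have hg1 : ContDiffOn ℝ 1 g D := by
    have h1 : ContDiffOn ℝ 1 (fun z => conj (q z)) D :=
      Complex.conjCLE.contDiff.comp_contDiffOn hq1
    have h2 : ContDiffOn ℝ 1 (fun z => (U z : ℂ)) D :=
      Complex.ofRealCLM.contDiff.comp_contDiffOn hU.adm.c1
    exact h1.mul h2
  have hgn : ∀ z, ‖g z‖ ^ 2 = ‖q z‖ ^ 2 * U z ^ 2 := by
    intro z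
    simp only [hg, gg, norm_mul, Complex.norm_conj, Complex.norm_real, Real.norm_eq_abs, mul_pow,
      sq_abs]
  have hg2 : IntegrableOn (fun z => ‖g z‖ ^ 2) D := by
    simp only [hgn]; exact hU.adm.l2
  have hψ2 : IntegrableOn (fun z => ‖ψ z‖ ^ 2) D := by
    simp only [hψ, norm_gr_sq]; exact hU.adm.g2
  have hddg : ∀ z ∈ D, dd g z = conj (q z) * ψ z := by
    intro z hz
    have hqz : DifferentiableAt ℝ q z := diffAt_of_c1 hq1 hz
    have hUz : DifferentiableAt ℝ U z := diffAt_of_c1 hU.adm.c1 hz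
    have : g = fun z => conj (q z) * (U z : ℂ) := rfl
    rw [this, dd_mul (differentiableAt_conj hqz) (differentiableAt_ofReal hUz), dd_conj hqz,
      db_holo (hqh.differentiableAt (D_mem_nhds hz)), dd_ofReal hUz]
    simp [hψ]
  have hM1 : ContDiffOn ℝ 1 M D := MM_c1 hg1
  have hM2 : IntegrableOn (fun z => ‖M z‖ ^ 2) D := MM_l2 hg1 hg2
  have hrad : ∀ z ∈ D, g z = M z + (z * dd M z + conj z * db M z) / 2 :=
    fun z hz => MM_radial hg1 hz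
  have hL : ∀ z ∈ D, dd M z = ∫ s in (0 : ℝ)..1, (s : ℂ) * (conj (q (s • z)) * ψ (s • z)) := by
    intro z hz
    rw [hM, dd_MM hg1 hz]
    refine intervalIntegral.integral_congr fun s hs => ?_
    rw [uIcc_of_le zero_le_one] at hs
    simp only [hddg _ (smul_mem_D hz hs.1 hs.2)]
  obtain ⟨hX, hH⟩ := hardy hqc hψc hb hψ2 (continuousOn_dd hM1) hL
  obtain ⟨hKp, hKm, hE⟩ := energy hM1 hrad hg2 hM2 hX
  have hGpi := integrableOn_Gp hqc hψc hM1.continuousOn hΦ.area hψ2 hM2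
  have hGmi := integrableOn_Gm hqc hψc hM1.continuousOn hΦ.area hψ2 hM2
  have hGpc := continuousOn_Gp hqc hψc hM1.continuousOn
  have hGmc := continuousOn_Gm hqc hψc hM1.continuousOn
  have hKpc := continuousOn_Kp hM1
  have hKmc := continuousOn_Km hM1
  have hdual : ∀ β : ℂ,
      IntegrableOn (fun z => ‖β * Gp q ψ M z + conj β * Gm q ψ M z‖ ^ 2) D ∧
      ∫ z in D, ‖β * Gp q ψ M z + conj β * Gm q ψ M z‖ ^ 2 ≤
        ∫ z in D, ‖β * Kp M z + conj β * Km M z‖ ^ 2 := by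
    intro β
    refine hΦ.dual (G := fun z => β * Gp q ψ M z + conj β * Gm q ψ M z)
      (K := fun z => β * Kp M z + conj β * Km M z) ?_ ?_ ?_ ?_ ?_
    · exact (continuousOn_const.mul (hGpc.mono sdiff_subset)).add (continuousOn_const.mul hGmc)
    · exact (hGpi.const_mul β).add (hGmi.const_mul _)
    · exact (continuousOn_const.mul hKpc).add (continuousOn_const.mul hKmc)
    · exact integrableOn_sq_comb hKpc hKmc hKp hKm _ _
    · intro Θ hΘ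
      exact hΦ.weak hU h0 hM1 hrad hM2 hKp hKm β hΘ
  obtain ⟨hG1, hI1⟩ := hdual (1 / 2)
  obtain ⟨hG2, hI2⟩ := hdual (-I / 2)
  have hlow : ∀ z, ‖ψ z‖ ^ 2 + w z ^ 2 / (4 * ‖z‖ ^ 2) * ‖ψ z‖ ^ 2 ≤
      ‖(1 / 2 : ℂ) * Gp q ψ M z + conj (1 / 2 : ℂ) * Gm q ψ M z‖ ^ 2 +
        ‖(-I / 2 : ℂ) * Gp q ψ M z + conj (-I / 2 : ℂ) * Gm q ψ M z‖ ^ 2 := by
    intro z
    rw [par]
    by_cases hz : z = 0
    · subst hz
      rw [h0]; simp only [norm_zero]; norm_num; positivity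
    · exact G_lower q ψ M hz
  have hSn : ∀ z, 0 ≤ w z ^ 2 / (4 * ‖z‖ ^ 2) * ‖ψ z‖ ^ 2 := fun z => by positivity
  have hS : IntegrableOn (fun z => w z ^ 2 / (4 * ‖z‖ ^ 2) * ‖ψ z‖ ^ 2) D := by
    refine Integrable.mono' (hG1.add hG2) ?_ ?_
    · refine AEStronglyMeasurable.mul ?_ hψ2.aestronglyMeasurable
      refine Measurable.aestronglyMeasurable ?_
      exact (continuous_w.measurable.pow_const 2).div
        ((continuous_norm.measurable.pow_const 2).const_mul 4)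
    · refine Filter.Eventually.of_forall fun z => ?_
      rw [Real.norm_of_nonneg (hSn z)]
      have := hlow z
      have h2 : 0 ≤ ‖ψ z‖ ^ 2 := by positivity
      simp only [Pi.add_apply]
      linarith
  have hH' := hH hS
  have hA : (∫ z in D, ‖ψ z‖ ^ 2) + ∫ z in D, w z ^ 2 / (4 * ‖z‖ ^ 2) * ‖ψ z‖ ^ 2 ≤
      (∫ z in D, ‖(1 / 2 : ℂ) * Gp q ψ M z + conj (1 / 2 : ℂ) * Gm q ψ M z‖ ^ 2) +
        ∫ z in D, ‖(-I / 2 : ℂ) * Gp q ψ M z + conj (-I / 2 : ℂ) * Gm q ψ M z‖ ^ 2 := by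
    rw [← integral_add hψ2 hS, ← integral_add hG1 hG2]
    exact integral_mono (hψ2.add hS) (hG1.add hG2) hlow
  have hB : (∫ z in D, ‖(1 / 2 : ℂ) * Kp M z + conj (1 / 2 : ℂ) * Km M z‖ ^ 2) +
        ∫ z in D, ‖(-I / 2 : ℂ) * Kp M z + conj (-I / 2 : ℂ) * Km M z‖ ^ 2 =
      ((∫ z in D, ‖Kp M z‖ ^ 2) + ∫ z in D, ‖Km M z‖ ^ 2) / 2 := by
    rw [← integral_add (integrableOn_sq_comb hKpc hKmc hKp hKm _ _)
      (integrableOn_sq_comb hKpc hKmc hKp hKm _ _), ← integral_add hKp hKm, ← integral_div]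
    exact integral_congr_ae (Filter.Eventually.of_forall fun z => par _ _)
  have hC : ∫ z in D, ‖g z‖ ^ 2 = ∫ z in D, ‖ψ z‖ ^ 2 := by
    simp only [hgn, hψ, norm_gr_sq]; exact hU.eq
  have hS0 : ∫ z in D, w z ^ 2 / (4 * ‖z‖ ^ 2) * ‖ψ z‖ ^ 2 = 0 := by
    have : 0 ≤ ∫ z in D, w z ^ 2 / (4 * ‖z‖ ^ 2) * ‖ψ z‖ ^ 2 := integral_nonneg hSn
    linarith
  rw [integral_eq_zero_iff_of_nonneg hSn hS] at hS0
  have hz : ∀ᵐ z ∂(volume.restrict D), gsq U z = 0 := by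
    filter_upwards [hS0, ae_restrict_mem measurableSet_D] with z hz hzD
    rw [← norm_gr_sq]
    by_cases hz0 : z = 0
    · subst hz0; rw [← hψ, h0]; simp
    · have hn : 0 < ‖z‖ := norm_pos_iff.2 hz0
      have hw := w_pos hzD
      have : 0 < w z ^ 2 / (4 * ‖z‖ ^ 2) := by positivity
      simp only [Pi.zero_apply] at hz
      rcases mul_eq_zero.1 hz with h | h
      · exact absurd h this.ne'
      · exact h
  rw [integral_congr_ae hz] at hpos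
  simp at hpos

end Crest.Agent.R101
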