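import Crest.Agent.R101.Basic

/-!
Transfer from a planar domain `Ω ⊆ ℂ` to the disc along a biholomorphic map `g : D → Ω` with
inverse `f`.
-/

open MeasureTheory Complex Metric Set ComplexConjugate

noncomputable section
namespace Crest.Agent.R101

/-- A biholomorphic pair. -/
structure Biholo (Ω : Set ℂ) (f g : ℂ → ℂ) : Prop where
  isOpen : IsOpen Ω
  hf : DifferentiableOn ℂ f Ω
  hg : DifferentiableOn ℂ g D
  mf : MapsTo f Ω D
  mg : MapsTo g D Ω
  gf : ∀ z ∈ Ω, g (f z) = z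
  fg : ∀ z ∈ D, f (g z) = z

/-- The Poincaré inequality with constant `μ` on `Ω`. -/
def PI (Ω : Set ℂ) (μ : ℝ) : Prop :=
  ∀ v : ℂ → ℝ, ContDiffOn ℝ 1 v Ω → IntegrableOn (fun z => v z ^ 2) Ω → IntegrableOn (gsq v) Ω →
    ∫ z in Ω, v z = 0 → μ * ∫ z in Ω, v z ^ 2 ≤ ∫ z in Ω, gsq v z

lemma det_mul_complex (c : ℂ) :
    ((ContinuousLinearMap.toSpanSingleton ℂ c).restrictScalars ℝ).det = ‖c‖ ^ 2 := by
  rw [ContinuousLinearMap.det, ← LinearMap.det_toMatrix Complex.basisOneI, Matrix.det_fin_two]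
  simp [LinearMap.toMatrix_apply, Complex.sq_norm, Complex.normSq_apply]

namespace Biholo
variable {Ω : Set ℂ} {f g : ℂ → ℂ}

lemma injOn (h : Biholo Ω f g) : InjOn g D := fun a ha b hb e => by
  rw [← h.fg a ha, e, h.fg b hb]

lemma image (h : Biholo Ω f g) : g '' D = Ω :=
  Subset.antisymm h.mg.image_subset fun z hz => ⟨f z, h.mf hz, h.gf z hz⟩

lemma hasFDeriv (h : Biholo Ω f g) {z : ℂ} (hz : z ∈ D) :
    HasFDerivAt g ((ContinuousLinearMap.toSpanSingleton ℂ (deriv g z)).restrictScalars ℝ) z :=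
  (h.hg.differentiableAt (D_mem_nhds hz)).hasDerivAt.hasFDerivAt.restrictScalars ℝ

lemma integral_eq (h : Biholo Ω f g) (F : ℂ → ℝ) :
    ∫ z in Ω, F z = ∫ z in D, ‖deriv g z‖ ^ 2 * F (g z) := by
  have := integral_image_eq_integral_abs_det_fderiv_smul volume measurableSet_D
    (fun z hz => (h.hasFDeriv hz).hasFDerivWithinAt) h.injOn F
  rw [h.image] at this
  rw [this]
  refine integral_congr_ae (Filter.Eventually.of_forall fun z => ?_)
  simp only [det_mul_complex, smul_eq_mul]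
  rw [abs_of_nonneg (by positivity)]

lemma integrable_iff (h : Biholo Ω f g) (F : ℂ → ℝ) :
    IntegrableOn F Ω ↔ IntegrableOn (fun z => ‖deriv g z‖ ^ 2 * F (g z)) D := by
  have := integrableOn_image_iff_integrableOn_abs_det_fderiv_smul volume measurableSet_D
    (fun z hz => (h.hasFDeriv hz).hasFDerivWithinAt) h.injOn F
  rw [h.image] at this
  rw [this]
  have e : (fun z => |((ContinuousLinearMap.toSpanSingleton ℂ
      (deriv g z)).restrictScalars ℝ).det| • F (g z)) = fun z => ‖deriv g z‖ ^ 2 * F (g z) := by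
    funext z
    simp only [det_mul_complex, smul_eq_mul]
    rw [abs_of_nonneg (by positivity)]
  rw [e]

lemma gr_comp (h : Biholo Ω f g) {v : ℂ → ℝ} {z : ℂ} (hz : z ∈ D)
    (hv : DifferentiableAt ℝ v (g z)) : gr (fun z => v (g z)) z = gr v (g z) * deriv g z := by
  have h1 := hv.hasFDerivAt.comp z (h.hasFDeriv hz)
  have h2 : px (fun z => v (g z)) z = fderiv ℝ v (g z) (deriv g z) :=
    (px_of_hasFDerivAt h1).trans (by simp)
  have h3 : py (fun z => v (g z)) z = fderiv ℝ v (g z) (I * deriv g z) :=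
    (py_of_hasFDerivAt h1).trans (by simp)
  rw [gr, gr, h2, h3, fderiv_eq_px_py, fderiv_eq_px_py]
  apply Complex.ext <;> simp <;> ring

lemma gsq_comp (h : Biholo Ω f g) {v : ℂ → ℝ} {z : ℂ} (hz : z ∈ D)
    (hv : DifferentiableAt ℝ v (g z)) :
    gsq (fun z => v (g z)) z = ‖deriv g z‖ ^ 2 * gsq v (g z) := by
  rw [← norm_gr_sq, ← norm_gr_sq, h.gr_comp hz hv, norm_mul]; ring

lemma diffAt (h : Biholo Ω f g) {v : ℂ → ℝ} (hv : ContDiffOn ℝ 1 v Ω) {z : ℂ} (hz : z ∈ D) :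
    DifferentiableAt ℝ v (g z) :=
  (hv.contDiffAt (h.isOpen.mem_nhds (h.mg hz))).differentiableAt one_ne_zero

lemma deriv_scale (h : Biholo Ω f g) (c : ℂ) {z : ℂ} (hz : z ∈ D) :
    deriv (fun z => c * g z) z = c * deriv g z :=
  deriv_const_mul c (h.hg.differentiableAt (D_mem_nhds hz))

lemma norm_deriv_scale (h : Biholo Ω f g) {μ : ℝ} (hμ : 0 < μ) {z : ℂ} (hz : z ∈ D) :
    ‖deriv (fun z => (Real.sqrt μ : ℂ) * g z) z‖ ^ 2 = μ * ‖deriv g z‖ ^ 2 := by
  rw [h.deriv_scale _ hz, norm_mul, mul_pow, Complex.norm_real, Real.norm_eq_abs, sq_abs,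
    Real.sq_sqrt hμ.le]

lemma integral_scale (h : Biholo Ω f g) {μ : ℝ} (hμ : 0 < μ) (F : ℂ → ℝ) :
    ∫ z in D, ‖deriv (fun z => (Real.sqrt μ : ℂ) * g z) z‖ ^ 2 * F (g z) = μ * ∫ z in Ω, F z := by
  rw [h.integral_eq F, ← integral_const_mul]
  refine setIntegral_congr_fun measurableSet_D fun z hz => ?_
  simp only [h.norm_deriv_scale hμ hz]; ring

lemma integrable_scale (h : Biholo Ω f g) {μ : ℝ} (hμ : 0 < μ) (F : ℂ → ℝ) :
    IntegrableOn (fun z => ‖deriv (fun z => (Real.sqrt μ : ℂ) * g z) z‖ ^ 2 * F (g z)) D ↔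
      IntegrableOn F Ω := by
  rw [h.integrable_iff F]
  have e : EqOn (fun z => ‖deriv (fun z => (Real.sqrt μ : ℂ) * g z) z‖ ^ 2 * F (g z))
      (fun z => μ * (‖deriv g z‖ ^ 2 * F (g z))) D := fun z hz => by
    simp only [h.norm_deriv_scale hμ hz]; ring
  rw [integrableOn_congr_fun e measurableSet_D]
  exact integrable_const_mul_iff (IsUnit.mk0 μ hμ.ne') _

lemma gsq_integral (h : Biholo Ω f g) {v : ℂ → ℝ} (hv : ContDiffOn ℝ 1 v Ω) :
    ∫ z in D, gsq (fun z => v (g z)) z = ∫ z in Ω, gsq v z := by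
  rw [h.integral_eq]
  exact setIntegral_congr_fun measurableSet_D fun z hz => h.gsq_comp hz (h.diffAt hv hz)

lemma gsq_integrable (h : Biholo Ω f g) {v : ℂ → ℝ} (hv : ContDiffOn ℝ 1 v Ω) :
    IntegrableOn (gsq fun z => v (g z)) D ↔ IntegrableOn (gsq v) Ω := by
  rw [h.integrable_iff]
  exact integrableOn_congr_fun (fun z hz => h.gsq_comp hz (h.diffAt hv hz)) measurableSet_D

lemma data (h : Biholo Ω f g) (hb : Bornology.IsBounded Ω)
    {μ : ℝ} (hμ : 0 < μ) (hP : PI Ω μ) : Data (fun z => (Real.sqrt μ : ℂ) * g z) := by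
  have hfin : volume Ω < ⊤ := hb.measure_lt_top
  have h1 : IntegrableOn (fun _ : ℂ => (1 : ℝ)) Ω := integrableOn_const hfin.ne
  refine ⟨h.hg.const_mul _, ?_, ?_, ?_, ?_⟩
  · obtain ⟨C, hC⟩ := hb.exists_norm_le
    refine ⟨‖(Real.sqrt μ : ℂ)‖ * C, fun z hz => ?_⟩
    rw [norm_mul]
    exact mul_le_mul_of_nonneg_left (hC _ (h.mg hz)) (norm_nonneg _)
  · simpa using (h.integrable_scale hμ (fun _ => 1)).2 h1
  · have := h.integral_scale hμ (fun _ => 1)
    simp only [mul_one] at this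
    rw [this]
    refine mul_pos hμ ?_
    simp only [integral_const, smul_eq_mul, mul_one, measureReal_restrict_apply_univ]
    exact ENNReal.toReal_pos (h.isOpen.measure_pos volume ⟨g 0, h.mg zero_mem_D⟩).ne' hfin.ne
  · intro a ha hm
    set v : ℂ → ℝ := fun z => a (f z) with hv
    have hv1 : ContDiffOn ℝ 1 v Ω :=
      ha.c1.comp ((h.hf.contDiffOn h.isOpen).restrict_scalars ℝ) h.mf
    have hva : EqOn (fun z => v (g z)) a D := fun z hz => by simp only [hv, h.fg z hz]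
    have hgs : EqOn (gsq fun z => v (g z)) (gsq a) D := fun z hz => by
      have : (fun z => v (g z)) =ᶠ[nhds z] a := Filter.eventually_of_mem (D_mem_nhds hz) hva
      rw [gsq, gsq, px_congr this, py_congr this]
    have e1 : ∀ F : ℝ → ℝ, EqOn (fun z => ‖deriv (fun z => (Real.sqrt μ : ℂ) * g z) z‖ ^ 2 *
        F (v (g z))) (fun z => ‖deriv (fun z => (Real.sqrt μ : ℂ) * g z) z‖ ^ 2 * F (a z)) D :=
      fun F z hz => by simp only [hv, h.fg z hz]
    have h2 : IntegrableOn (fun z => v z ^ 2) Ω :=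
      (h.integrable_scale hμ _).1 ((integrableOn_congr_fun (e1 (· ^ 2)) measurableSet_D).2 ha.l2)
    have h3 : IntegrableOn (gsq v) Ω :=
      (h.gsq_integrable hv1).1 ((integrableOn_congr_fun hgs measurableSet_D).2 ha.g2)
    have h4 : ∫ z in Ω, v z = 0 := by
      have := h.integral_scale hμ v
      rw [setIntegral_congr_fun measurableSet_D (e1 fun x => x)] at this
      rw [hm] at this
      exact (mul_eq_zero.1 this.symm).resolve_left hμ.ne'
    have h5 := hP v hv1 h2 h3 h4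
    rw [← h.integral_scale hμ (fun z => v z ^ 2), ← h.gsq_integral hv1,
      setIntegral_congr_fun measurableSet_D (e1 (· ^ 2)),
      setIntegral_congr_fun measurableSet_D hgs] at h5
    exact h5

lemma eig (h : Biholo Ω f g) {μ : ℝ} (hμ : 0 < μ)
    {u : ℂ → ℝ} (hu : ContDiffOn ℝ 1 u Ω) (h2 : IntegrableOn (fun z => u z ^ 2) Ω)
    (hg2 : IntegrableOn (gsq u) Ω) (hm : ∫ z in Ω, u z = 0)
    (he : μ * ∫ z in Ω, u z ^ 2 = ∫ z in Ω, gsq u z) :
    Eig (deriv fun z => (Real.sqrt μ : ℂ) * g z) (fun z => u (g z)) ∧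
      ∫ z in D, gsq (fun z => u (g z)) z = ∫ z in Ω, gsq u z := by
  refine ⟨⟨⟨hu.comp (contDiffOn_of_holo h.hg) h.mg, (h.integrable_scale hμ (fun z => u z ^ 2)).2 h2,
    (h.gsq_integrable hu).2 hg2⟩, ?_, ?_⟩, h.gsq_integral hu⟩
  · rw [h.integral_scale hμ u, hm, mul_zero]
  · rw [h.integral_scale hμ (fun z => u z ^ 2), he, h.gsq_integral hu]

end Biholo

end Crest.Agent.R101
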