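import Crest.Agent.R101.Main
import Crest.Agent.R101.Transfer
import Crest.Agent.Lib.RMT.Main

/-!
The hot-spots theorem for domains in `ℂ`.
-/

open MeasureTheory Complex Metric Set ComplexConjugate
open Crest.Agent.Lib.RMT

noncomputable section
namespace Crest.Agent.R101

lemma mob_neg_mob {a z : ℂ} (ha : ‖a‖ < 1) (hz : ‖z‖ < 1) : mob (-a) (mob a z) = z := by
  have h1 := mob_den_ne ha hz
  have h2 := mob_den_ne ha ha
  have h3 : 1 - conj (-a) * mob a z = (1 - conj a * a) / (1 - conj a * z) := by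
    rw [mob, map_neg]; field_simp; ring
  have h4 : mob a z - -a = z * (1 - conj a * a) / (1 - conj a * z) := by
    rw [mob, eq_div_iff h1, sub_mul, div_mul_cancel₀ _ h1]; ring
  rw [mob, h3, h4, div_div_div_cancel_right₀ h1, mul_div_assoc, div_self h2, mul_one]

lemma Biholo.shift {Ω : Set ℂ} {f g : ℂ → ℂ} (h : Biholo Ω f g) {a : ℂ} (ha : a ∈ D) :
    Biholo Ω (fun z => mob a (f z)) (fun z => g (mob (-a) z)) := by
  have ha1 := mem_D.1 ha
  have ha2 : ‖-a‖ < 1 := by rwa [norm_neg]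
  have hm : ∀ {b : ℂ}, ‖b‖ < 1 → MapsTo (mob b) D D := fun hb z hz =>
    mem_D.2 (norm_mob_lt hb (mem_D.1 hz))
  have hd : ∀ {b : ℂ}, ‖b‖ < 1 → DifferentiableOn ℂ (mob b) D := fun hb z hz =>
    (hasDerivAt_mob hb (mem_D.1 hz)).differentiableAt.differentiableWithinAt
  refine ⟨h.isOpen, (hd ha1).comp h.hf h.mf, h.hg.comp (hd ha2) (hm ha2), (hm ha1).comp h.mf,
    h.mg.comp (hm ha2), fun z hz => ?_, fun z hz => ?_⟩
  · rw [mob_neg_mob ha1 (mem_D.1 (h.mf hz)), h.gf z hz]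
  · rw [h.fg _ (hm ha2 hz)]
    have := mob_neg_mob ha2 (mem_D.1 hz)
    rwa [neg_neg] at this

lemma Biholo.bound {Ω : Set ℂ} {f g : ℂ → ℂ} (h : Biholo Ω f g) (hb : Bornology.IsBounded Ω)
    {μ : ℝ} (hμ : 0 < μ) (hP : PI Ω μ) {a : ℂ} (ha : a ∈ D) :
    ‖deriv (fun z => (Real.sqrt μ : ℂ) * g z) a‖ ^ 2 ≤ 6 / w a ^ 2 := by
  have ha1 := mem_D.1 ha
  have ha2 : ‖-a‖ < 1 := by rwa [norm_neg]
  have h1 := ((h.shift ha).data hb hμ hP).center
  rw [(h.shift ha).norm_deriv_scale hμ zero_mem_D] at h1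
  have h0 : mob (-a) 0 = a := by simp [mob]
  have h2 : HasDerivAt (fun z => g (mob (-a) z)) (deriv g a * (w a : ℂ)) 0 := by
    have h3 := hasDerivAt_mob (z := 0) ha2 (by simp)
    have h4 : HasDerivAt g (deriv g a) (mob (-a) 0) := by
      rw [h0]; exact (h.hg.differentiableAt (D_mem_nhds ha)).hasDerivAt
    have e : ((1 - conj (-a) * -a) / (1 - conj (-a) * 0) ^ 2 : ℂ) = (w a : ℂ) := by
      rw [w_ofReal]; simp; ring
    rw [e] at h3
    exact h4.comp 0 h3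
  rw [h2.deriv, norm_mul, mul_pow, Complex.norm_real, Real.norm_eq_abs, sq_abs] at h1
  have hw := w_pos ha
  rw [h.norm_deriv_scale hμ ha, le_div_iff₀ (by positivity)]
  linarith

theorem plane_main {Ω : Set ℂ} (hopen : IsOpen Ω) (hb : Bornology.IsBounded Ω)
    (hsc : IsSimplyConnected Ω) {μ : ℝ} (hμ : 0 < μ) (hP : PI Ω μ)
    {u : ℂ → ℝ} (hu : ContDiffOn ℝ 1 u Ω) (h2 : IntegrableOn (fun z => u z ^ 2) Ω)
    (hg2 : IntegrableOn (gsq u) Ω) (hm : ∫ z in Ω, u z = 0)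
    (he : μ * ∫ z in Ω, u z ^ 2 = ∫ z in Ω, gsq u z) (hpos : 0 < ∫ z in Ω, gsq u z)
    {x : ℂ} (hx : x ∈ Ω) : gr u x ≠ 0 := by
  intro h0
  have hne : Ω ≠ univ := by
    rintro rfl
    exact NormedSpace.unbounded_univ ℝ ℂ hb
  obtain ⟨f, g, hf, hg, mf, mg, gf, fg, hx0⟩ := exists_biholo_ball hopen hsc hne hx
  have h : Biholo Ω f g := ⟨hopen, hf, hg, mf, mg, gf, fg⟩
  obtain ⟨hE, hI⟩ := h.eig hμ hu h2 hg2 hm he
  have hg0 : g 0 = x := by rw [← hx0, gf x hx]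
  refine disc_main (h.data hb hμ hP) (fun z hz => h.bound hb hμ hP hz) hE (by rwa [hI]) ?_
  rw [h.gr_comp zero_mem_D (h.diffAt hu zero_mem_D), hg0, h0, zero_mul]

lemma integral_pos_of_ne {Ω : Set ℂ} (hopen : IsOpen Ω) {F : ℂ → ℝ} (hc : ContinuousOn F Ω)
    (h0 : ∀ z, 0 ≤ F z) (hi : IntegrableOn F Ω) {x : ℂ} (hx : x ∈ Ω) (hFx : F x ≠ 0) :
    0 < ∫ z in Ω, F z := by
  rw [setIntegral_pos_iff_support_of_nonneg_ae (Filter.Eventually.of_forall h0) hi]
  have : IsOpen (Ω ∩ F ⁻¹' {0}ᶜ) := hc.isOpen_inter_preimage hopen isOpen_compl_singleton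
  refine (this.measure_pos volume ⟨x, hx, hFx⟩).trans_le (measure_mono ?_)
  exact fun z hz => ⟨hz.2, hz.1⟩

theorem plane_final {Ω : Set ℂ} (hopen : IsOpen Ω) (hb : Bornology.IsBounded Ω)
    (hsc : IsSimplyConnected Ω)
    {u : ℂ → ℝ} (hu : ContDiffOn ℝ 1 u Ω) (h2 : IntegrableOn (fun z => u z ^ 2) Ω)
    (hg2 : IntegrableOn (gsq u) Ω) (hm : ∫ z in Ω, u z = 0) (hnz : ∃ x ∈ Ω, u x ≠ 0)
    (hmin : ∀ v : ℂ → ℝ, ContDiffOn ℝ 1 v Ω → IntegrableOn (fun z => v z ^ 2) Ω →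
      IntegrableOn (gsq v) Ω → ∫ z in Ω, v z = 0 →
      (∫ z in Ω, gsq u z) * (∫ z in Ω, v z ^ 2) ≤ (∫ z in Ω, gsq v z) * ∫ z in Ω, u z ^ 2)
    {x : ℂ} (hx : x ∈ Ω) : gsq u x ≠ 0 := by
  obtain ⟨y, hy, huy⟩ := hnz
  have hB : 0 < ∫ z in Ω, u z ^ 2 :=
    integral_pos_of_ne hopen (hu.continuousOn.pow 2) (fun z => sq_nonneg _) h2 hy
      (pow_ne_zero 2 huy)
  have hfd : ContinuousOn (fderiv ℝ u) Ω := hu.continuousOn_fderiv_of_isOpen hopen le_rfl
  have hgc : ContinuousOn (gsq u) Ω :=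
    ((hfd.clm_apply continuousOn_const).pow 2).add ((hfd.clm_apply continuousOn_const).pow 2)
  have hA : 0 < ∫ z in Ω, gsq u z := by
    by_cases hall : ∀ z ∈ Ω, gsq u z = 0
    · exfalso
      have hz : EqOn (fderiv ℝ u) 0 Ω := by
        intro z hz
        have := hall z hz
        unfold gsq at this
        have h1 : px u z = 0 := by nlinarith [sq_nonneg (px u z), sq_nonneg (py u z)]
        have h2 : py u z = 0 := by nlinarith [sq_nonneg (px u z), sq_nonneg (py u z)]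
        ext v
        rw [fderiv_eq_px_py, h1, h2]; simp
      have hc : ∀ z ∈ Ω, u z = u y := fun z hz' =>
        hopen.is_const_of_fderiv_eq_zero hsc.isPathConnected.isConnected.isPreconnected
          (hu.differentiableOn one_ne_zero) hz hz' hy
      rw [setIntegral_congr_fun hopen.measurableSet hc] at hm
      simp only [integral_const, smul_eq_mul, measureReal_restrict_apply_univ] at hm
      have hv : 0 < volume.real Ω :=
        ENNReal.toReal_pos (hopen.measure_pos volume ⟨y, hy⟩).ne' hb.measure_lt_top.ne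
      exact (mul_ne_zero hv.ne' huy) hm
    · push Not at hall
      obtain ⟨z, hz, hz'⟩ := hall
      exact integral_pos_of_ne hopen hgc (gsq_nonneg u) hg2 hz hz'
  have hP : PI Ω ((∫ z in Ω, gsq u z) / ∫ z in Ω, u z ^ 2) := by
    intro v h1 h2 h3 h4
    rw [div_mul_eq_mul_div, div_le_iff₀ hB]
    exact hmin v h1 h2 h3 h4
  have := plane_main hopen hb hsc (div_pos hA hB) hP hu h2 hg2 hm (div_mul_cancel₀ _ hB.ne') hA hx
  rw [← norm_gr_sq]
  exact pow_ne_zero 2 (norm_ne_zero_iff.2 this)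

end Crest.Agent.R101
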