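import Crest.Agent.R101.Cutoff

/-!
Consequences of the weighted Poincaré inequality: Euler–Lagrange equation, Dirichlet inequality
(plane-wave trick), pointwise bound at the centre.
-/

open MeasureTheory Complex Metric Set ComplexConjugate

noncomputable section
namespace Crest.Agent.R101

private lemma intD_of_le {E : Type*} [NormedAddCommGroup E] {f : ℂ → E} (hf : ContinuousOn f D)
    {g : ℂ → ℝ} (hg : IntegrableOn g D) (h : ∀ z ∈ D, ‖f z‖ ≤ g z) : IntegrableOn f D :=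
  Integrable.mono' hg (hf.aestronglyMeasurable measurableSet_D)
    (ae_restrict_of_forall_mem measurableSet_D h)

private lemma intD_const (c : ℝ) : IntegrableOn (fun _ : ℂ => c) D := integrable_const c

private lemma px_lin {a b : ℂ → ℝ} {z : ℂ} (t : ℝ) (ha : DifferentiableAt ℝ a z)
    (hb : DifferentiableAt ℝ b z) : px (fun z => a z + t * b z) z = px a z + t * px b z := by
  have := ha.hasFDerivAt.add (hb.hasFDerivAt.const_mul t)
  exact (px_of_hasFDerivAt this).trans (by simp [px])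

private lemma py_lin {a b : ℂ → ℝ} {z : ℂ} (t : ℝ) (ha : DifferentiableAt ℝ a z)
    (hb : DifferentiableAt ℝ b z) : py (fun z => a z + t * b z) z = py a z + t * py b z := by
  have := ha.hasFDerivAt.add (hb.hasFDerivAt.const_mul t)
  exact (py_of_hasFDerivAt this).trans (by simp [py])

private lemma continuousOn_gdot' {a b : ℂ → ℝ} (ha : ContDiffOn ℝ 1 a D)
    (hb : ContDiffOn ℝ 1 b D) : ContinuousOn (gdot a b) D :=
  ((continuousOn_px ha).mul (continuousOn_px hb)).add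
    ((continuousOn_py ha).mul (continuousOn_py hb))

private lemma int_gdot {a b : ℂ → ℝ} (ha : ContDiffOn ℝ 1 a D) (hb : ContDiffOn ℝ 1 b D)
    (ha2 : IntegrableOn (gsq a) D) (hb2 : IntegrableOn (gsq b) D) :
    IntegrableOn (gdot a b) D := by
  refine intD_of_le (continuousOn_gdot' ha hb) (ha2.add hb2) fun z _ => ?_
  simp only [Pi.add_apply, Real.norm_eq_abs, gdot, gsq]
  rw [abs_le]
  constructor <;> nlinarith [sq_nonneg (px a z + px b z), sq_nonneg (py a z + py b z),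
    sq_nonneg (px a z - px b z), sq_nonneg (py a z - py b z), sq_nonneg (px a z),
    sq_nonneg (px b z), sq_nonneg (py a z), sq_nonneg (py b z)]

private lemma int_wmul {q : ℂ → ℂ} (hq : ContinuousOn q D) {a b : ℂ → ℝ} (ha : Adm q a)
    (hb : Adm q b) : IntegrableOn (fun z => ‖q z‖ ^ 2 * (a z * b z)) D := by
  refine intD_of_le ((hq.norm.pow 2).mul (ha.c1.continuousOn.mul hb.c1.continuousOn))
    (ha.l2.add hb.l2) fun z _ => ?_
  simp only [Pi.add_apply, Real.norm_eq_abs]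
  rw [abs_mul, abs_of_nonneg (sq_nonneg _), ← mul_add]
  refine mul_le_mul_of_nonneg_left ?_ (sq_nonneg _)
  rw [abs_le]
  constructor <;> nlinarith [sq_nonneg (a z + b z), sq_nonneg (a z - b z), sq_nonneg (a z),
    sq_nonneg (b z)]

private lemma gsq_lin {a b : ℂ → ℝ} (t : ℝ) (ha : ContDiffOn ℝ 1 a D) (hb : ContDiffOn ℝ 1 b D)
    {z : ℂ} (hz : z ∈ D) :
    gsq (fun z => a z + t * b z) z = gsq a z + 2 * t * gdot a b z + t ^ 2 * gsq b z := by
  simp only [gsq, gdot, px_lin t (diffAt_of_c1 ha hz) (diffAt_of_c1 hb hz),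
    py_lin t (diffAt_of_c1 ha hz) (diffAt_of_c1 hb hz)]
  ring

private lemma adm_lin {q : ℂ → ℂ} (hq : ContinuousOn q D) {a b : ℂ → ℝ} (ha : Adm q a)
    (hb : Adm q b) (t : ℝ) : Adm q (fun z => a z + t * b z) := by
  refine ⟨ha.c1.add (contDiffOn_const.mul hb.c1), ?_, ?_⟩
  · have := (ha.l2.add ((int_wmul hq ha hb).const_mul (2 * t))).add (hb.l2.const_mul (t ^ 2))
    refine IntegrableOn.congr_fun this (fun z _ => ?_) measurableSet_D
    simp only [Pi.add_apply]; ring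
  · have := (ha.g2.add ((int_gdot ha.c1 hb.c1 ha.g2 hb.g2).const_mul (2 * t))).add
      (hb.g2.const_mul (t ^ 2))
    refine IntegrableOn.congr_fun this (fun z hz => ?_) measurableSet_D
    simp only [Pi.add_apply]; rw [gsq_lin t ha.c1 hb.c1 hz]

private lemma integral_three {f g h : ℂ → ℝ} (hf : IntegrableOn f D) (hg : IntegrableOn g D)
    (hh : IntegrableOn h D) (s t : ℝ) :
    ∫ z in D, (f z + s * g z + t * h z)
      = (∫ z in D, f z) + s * (∫ z in D, g z) + t * ∫ z in D, h z := by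
  have h1 : Integrable (fun z => f z + s * g z) (volume.restrict D) := hf.add (hg.const_mul s)
  rw [integral_add h1 (hh.const_mul t), integral_add hf (hg.const_mul s), integral_const_mul,
    integral_const_mul]

private lemma integral_gsq_lin {q : ℂ → ℂ} {a b : ℂ → ℝ} (ha : Adm q a)
    (hb : Adm q b) (t : ℝ) :
    ∫ z in D, gsq (fun z => a z + t * b z) z
      = (∫ z in D, gsq a z) + 2 * t * (∫ z in D, gdot a b z) + t ^ 2 * ∫ z in D, gsq b z := by
  rw [setIntegral_congr_fun measurableSet_D (fun z hz => gsq_lin t ha.c1 hb.c1 hz)]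
  exact integral_three ha.g2 (int_gdot ha.c1 hb.c1 ha.g2 hb.g2) hb.g2 _ _

private lemma integral_wsq_lin {q : ℂ → ℂ} (hq : ContinuousOn q D) {a b : ℂ → ℝ} (ha : Adm q a)
    (hb : Adm q b) (t : ℝ) :
    ∫ z in D, ‖q z‖ ^ 2 * (a z + t * b z) ^ 2
      = (∫ z in D, ‖q z‖ ^ 2 * a z ^ 2) + 2 * t * (∫ z in D, ‖q z‖ ^ 2 * (a z * b z))
        + t ^ 2 * ∫ z in D, ‖q z‖ ^ 2 * b z ^ 2 := by
  have : ∀ z, ‖q z‖ ^ 2 * (a z + t * b z) ^ 2 = ‖q z‖ ^ 2 * a z ^ 2
      + 2 * t * (‖q z‖ ^ 2 * (a z * b z)) + t ^ 2 * (‖q z‖ ^ 2 * b z ^ 2) := fun z => by ring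
  simp only [this]
  exact integral_three ha.l2 (int_wmul hq ha hb) hb.l2 _ _

private lemma adm_one {q : ℂ → ℂ} (hq : IntegrableOn (fun z => ‖q z‖ ^ 2) D) :
    Adm q (fun _ => 1) := by
  refine ⟨contDiffOn_const, by simpa using hq, ?_⟩
  have : gsq (fun _ => (1 : ℝ)) = fun _ => 0 := by
    funext z; simp [gsq, px, py]
  rw [this]; exact intD_const 0

private lemma int_w1 {q : ℂ → ℂ} (hq : ContinuousOn q D)
    (hq2 : IntegrableOn (fun z => ‖q z‖ ^ 2) D) {a : ℂ → ℝ} (ha : Adm q a) :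
    IntegrableOn (fun z => ‖q z‖ ^ 2 * a z) D := by
  simpa using int_wmul hq ha (adm_one hq2)

private lemma integral_w1_lin {q : ℂ → ℂ} (hq : ContinuousOn q D)
    (hq2 : IntegrableOn (fun z => ‖q z‖ ^ 2) D) {a b : ℂ → ℝ} (ha : Adm q a)
    (hb : Adm q b) (t : ℝ) :
    ∫ z in D, ‖q z‖ ^ 2 * (a z + t * b z)
      = (∫ z in D, ‖q z‖ ^ 2 * a z) + t * ∫ z in D, ‖q z‖ ^ 2 * b z := by
  have : ∀ z, ‖q z‖ ^ 2 * (a z + t * b z) = ‖q z‖ ^ 2 * a z + t * (‖q z‖ ^ 2 * b z) :=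
    fun z => by ring
  simp only [this]
  rw [integral_add (int_w1 hq hq2 ha) ((int_w1 hq hq2 hb).const_mul t), integral_const_mul]

private lemma el_mean {Φ : ℂ → ℂ} (hΦ : Data Φ) {U v : ℂ → ℝ} (hU : Eig (deriv Φ) U)
    (hv : Adm (deriv Φ) v) (hm : ∫ z in D, ‖deriv Φ z‖ ^ 2 * v z = 0) :
    ∫ z in D, gdot U v z = ∫ z in D, ‖deriv Φ z‖ ^ 2 * (U z * v z) := by
  have hq := hΦ.holo_q.continuousOn
  have key : ∀ t : ℝ, 0 ≤ ((∫ z in D, gsq v z) - ∫ z in D, ‖deriv Φ z‖ ^ 2 * v z ^ 2) * (t * t)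
      + (2 * ((∫ z in D, gdot U v z) - ∫ z in D, ‖deriv Φ z‖ ^ 2 * (U z * v z))) * t + 0 := by
    intro t
    have h := hΦ.poinc _ (adm_lin hq hU.adm hv t) (by
      rw [integral_w1_lin hq hΦ.area hU.adm hv t, hU.mean, hm]; simp)
    rw [integral_gsq_lin hU.adm hv t, integral_wsq_lin hq hU.adm hv t, hU.eq] at h
    nlinarith
  have := discrim_le_zero key
  rw [discrim] at this
  have h2 : ((∫ z in D, gdot U v z) - ∫ z in D, ‖deriv Φ z‖ ^ 2 * (U z * v z)) ^ 2 ≤ 0 := by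
    nlinarith
  have h3 := pow_eq_zero_iff (two_ne_zero) |>.1 (le_antisymm h2 (sq_nonneg _))
  linarith

/-- Euler–Lagrange equation.  Proof: for `v` admissible put `v₀ = v - c` with
`c = ∫‖q‖²v / ∫‖q‖²` (mean zero; constants are admissible since `‖q‖²` is integrable); the quadratic
`t ↦ ∫ gsq (U + t v₀) - ∫ ‖q‖² (U + t v₀)²` is `≥ 0` and vanishes at `t = 0`, so its linear
coefficient vanishes; `∫ ‖q‖² U c = 0`. -/
lemma Data.el {Φ : ℂ → ℂ} (hΦ : Data Φ) {U v : ℂ → ℝ} (hU : Eig (deriv Φ) U)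
    (hv : Adm (deriv Φ) v) :
    ∫ z in D, gdot U v z = ∫ z in D, ‖deriv Φ z‖ ^ 2 * (U z * v z) := by
  have hq := hΦ.holo_q.continuousOn
  have h1 := adm_one hΦ.area
  set c : ℝ := -((∫ z in D, ‖deriv Φ z‖ ^ 2 * v z) / ∫ z in D, ‖deriv Φ z‖ ^ 2) with hc
  have h := el_mean hΦ hU (adm_lin hq hv h1 c) (by
    rw [integral_w1_lin hq hΦ.area hv h1 c, hc]
    have := hΦ.pos.ne'
    simp only [mul_one]
    field_simp
    ring)
  have e1 : ∫ z in D, gdot U (fun z => v z + c * 1) z = ∫ z in D, gdot U v z := by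
    refine setIntegral_congr_fun measurableSet_D fun z hz => ?_
    simp only [gdot]
    rw [px_lin c (diffAt_of_c1 hv.c1 hz) (differentiableAt_const _),
      py_lin c (diffAt_of_c1 hv.c1 hz) (differentiableAt_const _)]
    simp [px, py]
  have e2 : ∫ z in D, ‖deriv Φ z‖ ^ 2 * (U z * (v z + c * 1))
      = ∫ z in D, ‖deriv Φ z‖ ^ 2 * (U z * v z) := by
    have : ∀ z, ‖deriv Φ z‖ ^ 2 * (U z * (v z + c * 1))
        = ‖deriv Φ z‖ ^ 2 * (U z * v z) + c * (‖deriv Φ z‖ ^ 2 * U z) := fun z => by ring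
    simp only [this]
    rw [integral_add (int_wmul hq hU.adm hv) ((int_w1 hq hΦ.area hU.adm).const_mul c),
      integral_const_mul, hU.mean]
    simp
  rw [← e1, ← e2]
  exact h

private lemma continuousOn_re {Φ : ℂ → ℂ} (hΦ : Data Φ) : ContinuousOn (fun z => (Φ z).re) D :=
  Complex.continuous_re.comp_continuousOn hΦ.holo.continuousOn

private lemma bdd_comp {Φ : ℂ → ℂ} (hΦ : Data Φ) {H : ℝ → ℝ} (hH : Continuous H) :
    ∃ K : ℝ, 0 ≤ K ∧ ∀ z ∈ D, |H (Φ z).re| ≤ K := by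
  obtain ⟨C, hC⟩ := hΦ.bdd
  obtain ⟨K, hK⟩ := (isCompact_Icc (a := -C) (b := C)).exists_bound_of_continuousOn
    hH.continuousOn
  refine ⟨max K 0, le_max_right _ _, fun z hz => le_trans ?_ (le_max_left _ _)⟩
  have := (Complex.abs_re_le_norm (Φ z)).trans (hC z hz)
  exact hK _ (abs_le.1 this)

private lemma int_comp {Φ : ℂ → ℂ} (hΦ : Data Φ) {H : ℝ → ℝ} (hH : Continuous H) :
    IntegrableOn (fun z => ‖deriv Φ z‖ ^ 2 * H (Φ z).re) D := by
  obtain ⟨K, -, hK⟩ := bdd_comp hΦ hH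
  refine intD_of_le ((hΦ.holo_q.continuousOn.norm.pow 2).mul
    (hH.comp_continuousOn (continuousOn_re hΦ))) (hΦ.area.mul_const K) fun z hz => ?_
  rw [Real.norm_eq_abs, abs_mul, abs_of_nonneg (sq_nonneg _)]
  exact mul_le_mul_of_nonneg_left (hK z hz) (sq_nonneg _)

private lemma hasFDerivAt_comp {Φ : ℂ → ℂ} (hΦ : Data Φ) {F F' : ℝ → ℝ}
    (hF : ∀ x, HasDerivAt F (F' x) x) {z : ℂ} (hz : z ∈ D) :
    HasFDerivAt (fun z => F (Φ z).re) (F' (Φ z).re • fderiv ℝ (fun z => (Φ z).re) z) z := by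
  have h1 : DifferentiableAt ℝ Φ z := diffAt_of_c1 (contDiffOn_of_holo hΦ.holo) hz
  have h2 : DifferentiableAt ℝ (fun z => (Φ z).re) z :=
    Complex.reCLM.differentiableAt.comp z h1
  exact (hF _).comp_hasFDerivAt z h2.hasFDerivAt

private lemma px_comp {Φ : ℂ → ℂ} (hΦ : Data Φ) {F F' : ℝ → ℝ}
    (hF : ∀ x, HasDerivAt F (F' x) x) {z : ℂ} (hz : z ∈ D) :
    px (fun z => F (Φ z).re) z = F' (Φ z).re * (deriv Φ z).re := by
  have h1 : DifferentiableAt ℝ Φ z := diffAt_of_c1 (contDiffOn_of_holo hΦ.holo) hz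
  have h0 : DifferentiableAt ℂ Φ z := hΦ.holo.differentiableAt (D_mem_nhds hz)
  rw [px_of_hasFDerivAt (hasFDerivAt_comp hΦ hF hz), ← px_holo h0, ← px_re h1]
  simp [px]

private lemma py_comp {Φ : ℂ → ℂ} (hΦ : Data Φ) {F F' : ℝ → ℝ}
    (hF : ∀ x, HasDerivAt F (F' x) x) {z : ℂ} (hz : z ∈ D) :
    py (fun z => F (Φ z).re) z = -(F' (Φ z).re * (deriv Φ z).im) := by
  have h1 : DifferentiableAt ℝ Φ z := diffAt_of_c1 (contDiffOn_of_holo hΦ.holo) hz
  have h0 : DifferentiableAt ℂ Φ z := hΦ.holo.differentiableAt (D_mem_nhds hz)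
  have h2 : py (fun z => (Φ z).re) z = -(deriv Φ z).im := by
    rw [py_re h1, py_holo h0]; simp
  rw [py_of_hasFDerivAt (hasFDerivAt_comp hΦ hF hz)]
  rw [py] at h2
  simp [h2]

private lemma c1_comp {Φ : ℂ → ℂ} (hΦ : Data Φ) {F F' : ℝ → ℝ}
    (hF : ∀ x, HasDerivAt F (F' x) x) (hF' : Continuous F') :
    ContDiffOn ℝ 1 (fun z => F (Φ z).re) D := by
  have h1 : ContDiff ℝ 1 F := by
    rw [contDiff_one_iff_deriv]
    refine ⟨fun x => (hF x).differentiableAt, ?_⟩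
    have : deriv F = F' := funext fun x => (hF x).deriv
    rwa [this]
  exact h1.comp_contDiffOn (Complex.reCLM.contDiff.comp_contDiffOn (contDiffOn_of_holo hΦ.holo))

private lemma gdot_comp {Φ : ℂ → ℂ} (hΦ : Data Φ) {F F' G G' : ℝ → ℝ}
    (hF : ∀ x, HasDerivAt F (F' x) x) (hG : ∀ x, HasDerivAt G (G' x) x) {z : ℂ} (hz : z ∈ D) :
    gdot (fun z => F (Φ z).re) (fun z => G (Φ z).re) z
      = ‖deriv Φ z‖ ^ 2 * (F' (Φ z).re * G' (Φ z).re) := by
  rw [gdot, px_comp hΦ hF hz, py_comp hΦ hF hz, px_comp hΦ hG hz, py_comp hΦ hG hz,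
    Complex.sq_norm, Complex.normSq_apply]
  ring

private lemma gsq_comp {Φ : ℂ → ℂ} (hΦ : Data Φ) {F F' : ℝ → ℝ}
    (hF : ∀ x, HasDerivAt F (F' x) x) {z : ℂ} (hz : z ∈ D) :
    gsq (fun z => F (Φ z).re) z = ‖deriv Φ z‖ ^ 2 * F' (Φ z).re ^ 2 := by
  rw [gsq, px_comp hΦ hF hz, py_comp hΦ hF hz, Complex.sq_norm, Complex.normSq_apply]
  ring

private lemma gr_comp {Φ : ℂ → ℂ} (hΦ : Data Φ) {F F' : ℝ → ℝ}
    (hF : ∀ x, HasDerivAt F (F' x) x) {z : ℂ} (hz : z ∈ D) :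
    gr (fun z => F (Φ z).re) z = (F' (Φ z).re : ℂ) * deriv Φ z := by
  rw [gr, px_comp hΦ hF hz, py_comp hΦ hF hz]
  apply Complex.ext <;> simp

private lemma adm_comp {Φ : ℂ → ℂ} (hΦ : Data Φ) {F F' : ℝ → ℝ}
    (hF : ∀ x, HasDerivAt F (F' x) x) (hF' : Continuous F') :
    Adm (deriv Φ) (fun z => F (Φ z).re) := by
  have hc : Continuous F := continuous_iff_continuousAt.2 fun x => (hF x).continuousAt
  refine ⟨c1_comp hΦ hF hF', int_comp hΦ (H := fun x => F x ^ 2) (hc.pow 2), ?_⟩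
  exact IntegrableOn.congr_fun (int_comp hΦ (H := fun x => F' x ^ 2) (hF'.pow 2))
    (fun z hz => (gsq_comp hΦ hF hz).symm) measurableSet_D

private lemma integral_gsq_comp {Φ : ℂ → ℂ} (hΦ : Data Φ) {F F' : ℝ → ℝ}
    (hF : ∀ x, HasDerivAt F (F' x) x) :
    ∫ z in D, gsq (fun z => F (Φ z).re) z = ∫ z in D, ‖deriv Φ z‖ ^ 2 * F' (Φ z).re ^ 2 :=
  setIntegral_congr_fun measurableSet_D fun _ hz => gsq_comp hΦ hF hz

private lemma divD_re {b : ℂ → ℂ} (hb : ContDiffOn ℝ 1 b D) (h1 : IntegrableOn (db b) D)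
    (h2 : IntegrableOn (fun z => ‖b z‖ / w z) D) {g : ℂ → ℝ} (hg : ∀ z ∈ D, (db b z).re = g z) :
    ∫ z in D, g z = 0 := by
  rw [← setIntegral_congr_fun measurableSet_D hg]
  have := Complex.reCLM.integral_comp_comm h1
  simp only [Complex.reCLM_apply] at this
  rw [this, divD hb h1 h2]; simp

private lemma adm_of_bw {Φ : ℂ → ℂ} (hΦ : Data Φ) {b : ℂ → ℝ} (hb : ContDiffOn ℝ 1 b D)
    (hb2 : IntegrableOn (gsq b) D) {C : ℝ} (hC : ∀ z ∈ D, |b z| ≤ C * w z) (hC0 : 0 ≤ C) :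
    Adm (deriv Φ) b := by
  refine ⟨hb, ?_, hb2⟩
  refine intD_of_le ((hΦ.holo_q.continuousOn.norm.pow 2).mul (hb.continuousOn.pow 2))
    (hΦ.area.mul_const (C ^ 2)) fun z hz => ?_
  rw [Real.norm_eq_abs, abs_of_nonneg (by positivity)]
  refine mul_le_mul_of_nonneg_left ?_ (sq_nonneg _)
  have h1 : |b z| ≤ C := (hC z hz).trans (mul_le_of_le_one_right hC0 (w_le_one z))
  rw [← sq_abs]
  exact pow_le_pow_left₀ (abs_nonneg _) h1 2

/-- Green's identity against a function of `Re Φ`. -/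
private lemma green_comp {Φ : ℂ → ℂ} (hΦ : Data Φ) {b : ℂ → ℝ} (hb : ContDiffOn ℝ 1 b D)
    (hb2 : IntegrableOn (gsq b) D) {C : ℝ} (hC : ∀ z ∈ D, |b z| ≤ C * w z) (hC0 : 0 ≤ C)
    {F G : ℝ → ℝ} (hF : ∀ x, HasDerivAt F (G x) x) (hG : ∀ x, HasDerivAt G (-F x) x) :
    ∫ z in D, gdot b (fun z => F (Φ z).re) z = ∫ z in D, ‖deriv Φ z‖ ^ 2 * (b z * F (Φ z).re) := by
  have hFc : Continuous F := continuous_iff_continuousAt.2 fun x => (hF x).continuousAt
  have hGc : Continuous G := continuous_iff_continuousAt.2 fun x => (hG x).continuousAt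
  have hq := hΦ.holo_q.continuousOn
  have hba := adm_of_bw hΦ hb hb2 hC hC0
  have hFa := adm_comp hΦ hF hGc
  have hG1 := c1_comp hΦ (F' := fun x => -F x) hG hFc.neg
  obtain ⟨K, hK0, hK⟩ := bdd_comp hΦ hGc
  have hc1 : ContDiffOn ℝ 1
      (fun z => (b z : ℂ) * ((G (Φ z).re : ℂ) * deriv Φ z)) D :=
    (Complex.ofRealCLM.contDiff.comp_contDiffOn hb).mul
      ((Complex.ofRealCLM.contDiff.comp_contDiffOn hG1).mul (contDiffOn_of_holo hΦ.holo_q))
  have hdb : ∀ z ∈ D, db (fun z => (b z : ℂ) * ((G (Φ z).re : ℂ) * deriv Φ z)) z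
      = conj (gr b z) * ((G (Φ z).re : ℂ) * deriv Φ z)
        - ((‖deriv Φ z‖ ^ 2 * (b z * F (Φ z).re) : ℝ) : ℂ) := by
    intro z hz
    have d1 := diffAt_of_c1 hb hz
    have d2 := diffAt_of_c1 hG1 hz
    have d3 := diffAt_of_c1 (contDiffOn_of_holo hΦ.holo_q) hz
    rw [db_mul (differentiableAt_ofReal d1) ((differentiableAt_ofReal d2).fun_mul d3),
      db_mul (differentiableAt_ofReal d2) d3, db_ofReal d1, db_ofReal d2,
      db_holo (hΦ.holo_q.differentiableAt (D_mem_nhds hz)),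
      gr_comp hΦ (F' := fun x => -F x) hG hz]
    have : ((‖deriv Φ z‖ : ℝ) : ℂ) ^ 2 = conj (deriv Φ z) * deriv Φ z := by
      rw [← Complex.normSq_eq_conj_mul_self, Complex.normSq_eq_norm_sq]; push_cast; ring
    simp only [map_mul, Complex.conj_ofReal]
    push_cast
    rw [this]; ring
  have hi1 : IntegrableOn (fun z => conj (gr b z) * ((G (Φ z).re : ℂ) * deriv Φ z)) D := by
    refine intD_of_le ((Complex.continuous_conj.comp_continuousOn (continuousOn_gr hb)).mul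
      ((Complex.continuous_ofReal.comp_continuousOn hG1.continuousOn).mul hq))
      ((hb2.add hΦ.area).const_mul K) fun z hz => ?_
    simp only [Pi.add_apply, norm_mul, Complex.norm_conj, Complex.norm_real, Real.norm_eq_abs]
    rw [← norm_gr_sq]
    have h1 : ‖gr b z‖ * ‖deriv Φ z‖ ≤ ‖gr b z‖ ^ 2 + ‖deriv Φ z‖ ^ 2 := by
      nlinarith [sq_nonneg (‖gr b z‖ - ‖deriv Φ z‖), norm_nonneg (gr b z), norm_nonneg (deriv Φ z)]
    calc ‖gr b z‖ * (|G (Φ z).re| * ‖deriv Φ z‖) = |G (Φ z).re| * (‖gr b z‖ * ‖deriv Φ z‖) := by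
          ring
      _ ≤ K * (‖gr b z‖ ^ 2 + ‖deriv Φ z‖ ^ 2) := mul_le_mul (hK z hz) h1 (by positivity) hK0
  have hi2 := int_wmul hq hba hFa
  have h1 : IntegrableOn (db (fun z => (b z : ℂ) * ((G (Φ z).re : ℂ) * deriv Φ z))) D :=
    IntegrableOn.congr_fun (hi1.sub hi2.ofReal) (fun z hz => (hdb z hz).symm) measurableSet_D
  have h2 : IntegrableOn
      (fun z => ‖(b z : ℂ) * ((G (Φ z).re : ℂ) * deriv Φ z)‖ / w z) D := by
    refine intD_of_le (hc1.continuousOn.norm.div continuous_w.continuousOn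
      fun z hz => (w_pos hz).ne') (((intD_const 1).add hΦ.area).const_mul (C * K))
      fun z hz => ?_
    have hw := w_pos hz
    simp only [Pi.add_apply, norm_mul, Complex.norm_real, Real.norm_eq_abs]
    rw [abs_of_nonneg (by positivity), div_le_iff₀ hw]
    have h1 : ‖deriv Φ z‖ ≤ 1 + ‖deriv Φ z‖ ^ 2 := by
      nlinarith [sq_nonneg (‖deriv Φ z‖ - 1), norm_nonneg (deriv Φ z)]
    calc |b z| * (|G (Φ z).re| * ‖deriv Φ z‖) ≤ (C * w z) * (K * (1 + ‖deriv Φ z‖ ^ 2)) :=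
          mul_le_mul (hC z hz) (mul_le_mul (hK z hz) h1 (norm_nonneg _) hK0) (by positivity)
            (by positivity)
      _ = C * K * (1 + ‖deriv Φ z‖ ^ 2) * w z := by ring
  have h3 := divD_re hc1 h1 h2 (g := fun z => gdot b (fun z => F (Φ z).re) z
    - ‖deriv Φ z‖ ^ 2 * (b z * F (Φ z).re)) (fun z hz => by
      rw [hdb z hz, ← gr_comp hΦ hF hz, Complex.sub_re, Complex.ofReal_re]
      simp [gr, gdot])
  rw [integral_sub (int_gdot hb hFa.c1 hb2 hFa.g2) hi2] at h3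
  linarith

/-- Plane waves. -/
private def wv (a b x : ℝ) : ℝ := a * Real.cos x + b * Real.sin x

private lemma wv_deriv (a b x : ℝ) : HasDerivAt (wv a b) (wv b (-a) x) x := by
  have := ((Real.hasDerivAt_cos x).const_mul a).add ((Real.hasDerivAt_sin x).const_mul b)
  have e : wv b (-a) x = a * -Real.sin x + b * Real.cos x := by simp only [wv]; ring
  rw [e]
  exact this

private lemma wv_deriv' (a b x : ℝ) : HasDerivAt (wv b (-a)) (-wv a b x) x := by
  convert wv_deriv b (-a) x using 1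
  simp only [wv]; ring

private lemma wv_cont (a b : ℝ) : Continuous (wv a b) := by
  unfold wv; fun_prop

private lemma integral_wv {Φ : ℂ → ℂ} (hΦ : Data Φ) (a b : ℝ) :
    ∫ z in D, ‖deriv Φ z‖ ^ 2 * wv a b (Φ z).re
      = a * (∫ z in D, ‖deriv Φ z‖ ^ 2 * Real.cos (Φ z).re)
        + b * ∫ z in D, ‖deriv Φ z‖ ^ 2 * Real.sin (Φ z).re := by
  have : ∀ z, ‖deriv Φ z‖ ^ 2 * wv a b (Φ z).re = a * (‖deriv Φ z‖ ^ 2 * Real.cos (Φ z).re)
      + b * (‖deriv Φ z‖ ^ 2 * Real.sin (Φ z).re) := fun z => by simp only [wv]; ring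
  simp only [this]
  rw [integral_add ((int_comp hΦ Real.continuous_cos).const_mul a)
    ((int_comp hΦ Real.continuous_sin).const_mul b), integral_const_mul, integral_const_mul]

/-- The plane wave `exp (I Re Φ)` does not have mean zero. -/
private lemma wave_mean_ne {Φ : ℂ → ℂ} (hΦ : Data Φ) :
    (∫ z in D, ‖deriv Φ z‖ ^ 2 * Real.cos (Φ z).re) ^ 2
      + (∫ z in D, ‖deriv Φ z‖ ^ 2 * Real.sin (Φ z).re) ^ 2 ≠ 0 := by
  intro h
  have m1 : ∫ z in D, ‖deriv Φ z‖ ^ 2 * Real.cos (Φ z).re = 0 := by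
    refine pow_eq_zero_iff two_ne_zero |>.1 (le_antisymm ?_ (sq_nonneg _))
    nlinarith [sq_nonneg (∫ z in D, ‖deriv Φ z‖ ^ 2 * Real.sin (Φ z).re)]
  have m2 : ∫ z in D, ‖deriv Φ z‖ ^ 2 * Real.sin (Φ z).re = 0 := by
    refine pow_eq_zero_iff two_ne_zero |>.1 (le_antisymm ?_ (sq_nonneg _))
    nlinarith [sq_nonneg (∫ z in D, ‖deriv Φ z‖ ^ 2 * Real.cos (Φ z).re)]
  have hs : ∀ x, HasDerivAt Real.sin (Real.cos x) x := Real.hasDerivAt_sin
  have hc : ∀ x, HasDerivAt Real.cos (-Real.sin x) x := Real.hasDerivAt_cos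
  have as := adm_comp hΦ hs Real.continuous_cos
  have ac := adm_comp hΦ (F' := fun x => -Real.sin x) hc Real.continuous_sin.neg
  have ps := hΦ.poinc _ as m2
  have pc := hΦ.poinc _ ac m1
  have gs := integral_gsq_comp hΦ hs
  have gc := integral_gsq_comp hΦ (F' := fun x => -Real.sin x) hc
  simp only [neg_sq] at gc
  have es : Eig (deriv Φ) (fun z => Real.sin (Φ z).re) := ⟨as, m2, by linarith⟩
  have ec : Eig (deriv Φ) (fun z => Real.cos (Φ z).re) := ⟨ac, m1, by linarith⟩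
  have h1 : ∀ x, HasDerivAt (fun x => Real.cos x * x) (-Real.sin x * x + Real.cos x) x := by
    intro x; simpa using (hc x).fun_mul (hasDerivAt_id x)
  have h2 : ∀ x, HasDerivAt (fun x => Real.sin x * x) (Real.cos x * x + Real.sin x) x := by
    intro x; simpa using (hs x).fun_mul (hasDerivAt_id x)
  have e1 := hΦ.el es (adm_comp hΦ h1 (by fun_prop))
  have e2 := hΦ.el ec (adm_comp hΦ h2 (by fun_prop))
  rw [setIntegral_congr_fun measurableSet_D (fun z hz => gdot_comp hΦ hs h1 hz)] at e1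
  rw [setIntegral_congr_fun measurableSet_D
    (fun z hz => gdot_comp hΦ (F' := fun x => -Real.sin x) hc h2 hz)] at e2
  have e3 : ∫ z in D, ‖deriv Φ z‖ ^ 2 * (Real.sin (Φ z).re * (Real.cos (Φ z).re * (Φ z).re))
      = ∫ z in D, ‖deriv Φ z‖ ^ 2 * (Real.cos (Φ z).re * (Real.sin (Φ z).re * (Φ z).re)) := by
    congr 1; funext z; ring
  have i1 := int_comp hΦ (H := fun x => Real.cos x * (-Real.sin x * x + Real.cos x)) (by fun_prop)
  have i2 := int_comp hΦ (H := fun x => -Real.sin x * (Real.cos x * x + Real.sin x)) (by fun_prop)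
  have e4 := integral_sub i1 i2
  have e5 : ∀ z, ‖deriv Φ z‖ ^ 2 *
        (Real.cos (Φ z).re * (-Real.sin (Φ z).re * (Φ z).re + Real.cos (Φ z).re))
      - ‖deriv Φ z‖ ^ 2 *
        (-Real.sin (Φ z).re * (Real.cos (Φ z).re * (Φ z).re + Real.sin (Φ z).re))
      = ‖deriv Φ z‖ ^ 2 := fun z => by
    linear_combination ‖deriv Φ z‖ ^ 2 * Real.cos_sq_add_sin_sq (Φ z).re
  simp only [e5] at e4
  have := hΦ.pos
  linarith

/-- Dirichlet inequality (first Dirichlet eigenvalue ≥ first positive Neumann eigenvalue).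
Proof: `q = Φ'`, `φ = Re Φ` (bounded, `gr φ = q`, so `gsq φ = ‖q‖²`), `E = exp (I φ)`.  For `α : ℂ`
put `c = Re (α E)`, `s = Im (α E)`: `gr c = -q s`, `gr s = q c`, so `gsq c + gsq s = ‖q‖²(c² + s²)`,
and `divD` applied to `b * gr c = -(b * q * s)` (whose `db` has real part `gdot b c - ‖q‖² b c`)
gives `∫ gdot b c = ∫ ‖q‖² b c`.  If `m = ∫ ‖q‖² E ≠ 0` take `α = -(∫‖q‖² b)/m`: then `b + c` and
`s` have mean zero; add the two Poincaré inequalities.  If `m = 0` then `c = cos φ`, `s = sin φ`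
have mean zero and the two Poincaré inequalities add up to an equality, so both are `Eig`; `Data.el`
for `s` with `v = c φ` minus `Data.el` for `c` with `v = s φ` gives `∫ gsq φ = 0`, contradicting
`pos`. -/
lemma Data.dirichlet {Φ : ℂ → ℂ} (hΦ : Data Φ) {b : ℂ → ℝ} (hb : ContDiffOn ℝ 1 b D)
    (hb2 : IntegrableOn (gsq b) D) (hbw : ∃ C : ℝ, ∀ z ∈ D, |b z| ≤ C * w z) :
    ∫ z in D, ‖deriv Φ z‖ ^ 2 * b z ^ 2 ≤ ∫ z in D, gsq b z := by
  obtain ⟨C₀, hC₀⟩ := hbw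
  have hC : ∀ z ∈ D, |b z| ≤ max C₀ 0 * w z := fun z hz =>
    (hC₀ z hz).trans (mul_le_mul_of_nonneg_right (le_max_left _ _) (w_pos hz).le)
  have hC0 : 0 ≤ max C₀ 0 := le_max_right _ _
  have hq := hΦ.holo_q.continuousOn
  have hba := adm_of_bw hΦ hb hb2 hC hC0
  have hm := wave_mean_ne hΦ
  set m1 := ∫ z in D, ‖deriv Φ z‖ ^ 2 * Real.cos (Φ z).re with hm1
  set m2 := ∫ z in D, ‖deriv Φ z‖ ^ 2 * Real.sin (Φ z).re with hm2
  set β := ∫ z in D, ‖deriv Φ z‖ ^ 2 * b z with hβ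
  set a1 := -β * m1 / (m1 ^ 2 + m2 ^ 2) with ha1
  set a2 := -β * m2 / (m1 ^ 2 + m2 ^ 2) with ha2
  have ac := adm_comp hΦ (wv_deriv a1 a2) (wv_cont _ _)
  have as := adm_comp hΦ (F' := fun x => -wv a1 a2 x) (wv_deriv' a1 a2) (wv_cont _ _).neg
  have gc := integral_gsq_comp hΦ (wv_deriv a1 a2)
  have gs := integral_gsq_comp hΦ (F' := fun x => -wv a1 a2 x) (wv_deriv' a1 a2)
  simp only [neg_sq] at gs
  have p1 := hΦ.poinc _ (adm_lin hq hba ac 1) (by
    rw [integral_w1_lin hq hΦ.area hba ac 1, integral_wv hΦ, ← hm1, ← hm2, ← hβ, ha1, ha2]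
    field_simp
    ring)
  have p2 := hΦ.poinc _ as (by
    rw [integral_wv hΦ, ← hm1, ← hm2, ha1, ha2]
    field_simp
    ring)
  rw [integral_gsq_lin hba ac 1, integral_wsq_lin hq hba ac 1,
    green_comp hΦ hb hb2 hC hC0 (wv_deriv a1 a2) (wv_deriv' a1 a2)] at p1
  linarith

private lemma abs_w_le {z : ℂ} (hz : z ∈ D) : |w z| ≤ 1 := by
  rw [abs_of_pos (w_pos hz)]; exact w_le_one z

private lemma int_cont {E : Type*} [NormedAddCommGroup E] {f : ℂ → E} (hf : Continuous f) :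
    IntegrableOn f D :=
  (hf.continuousOn.integrableOn_compact (isCompact_closedBall 0 1)).mono_set ball_subset_closedBall

private lemma db_wpow (n : ℕ) (z : ℂ) :
    db (fun z => (w z : ℂ) ^ (n + 1)) z = -2 * (n + 1) * z * (w z : ℂ) ^ n := by
  induction n with
  | zero => simp [db_w]
  | succ n ih =>
    have : (fun z => (w z : ℂ) ^ (n + 1 + 1)) = fun z => (w z : ℂ) ^ (n + 1) * (w z : ℂ) := by
      funext z; ring
    rw [this, db_mul (differentiableAt_w_ofReal.fun_pow _) differentiableAt_w_ofReal, ih, db_w]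
    push_cast; ring

private lemma c1_wpow (n : ℕ) : ContDiff ℝ 1 (fun z => (w z : ℂ) ^ n) :=
  (Complex.ofRealCLM.contDiff.comp contDiff_w).pow n

/-- `∫ (n+2) w^(n+1) = ∫ (n+1) w^n`. -/
private lemma integral_wpow (n : ℕ) :
    (n + 2) * ∫ z in D, w z ^ (n + 1) = (n + 1) * ∫ z in D, w z ^ n := by
  have hc : ContDiff ℝ 1 (fun z : ℂ => conj z * (w z : ℂ) ^ (n + 1)) :=
    Complex.conjCLE.contDiff.mul (c1_wpow _)
  have hdb : ∀ z, db (fun z : ℂ => conj z * (w z : ℂ) ^ (n + 1)) z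
      = ((2 * ((n + 2) * w z ^ (n + 1) - (n + 1) * w z ^ n) : ℝ) : ℂ) := by
    intro z
    have h1 : DifferentiableAt ℝ (fun z : ℂ => z) z := differentiableAt_id
    rw [db_mul (differentiableAt_conj h1) (differentiableAt_w_ofReal.fun_pow _), db_conj_id,
      db_wpow]
    push_cast
    have := w_ofReal z
    linear_combination (-2 * ((n : ℂ) + 1) * (w z : ℂ) ^ n) * this
  have hcw := continuous_w
  have h1 : IntegrableOn (db (fun z : ℂ => conj z * (w z : ℂ) ^ (n + 1))) D := by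
    rw [funext hdb]; exact int_cont (by fun_prop)
  have h2 : IntegrableOn (fun z : ℂ => ‖conj z * (w z : ℂ) ^ (n + 1)‖ / w z) D := by
    refine intD_of_le (hc.continuous.continuousOn.norm.div hcw.continuousOn
      fun z hz => (w_pos hz).ne') (intD_const 1) fun z hz => ?_
    have hw := w_pos hz
    rw [norm_mul, norm_pow, Complex.norm_conj, Complex.norm_real, Real.norm_eq_abs,
      Real.norm_eq_abs, abs_of_pos hw, abs_of_nonneg (by positivity), div_le_one hw, pow_succ]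
    have := (mem_D.1 hz).le
    have h3 : w z ^ n ≤ 1 := pow_le_one₀ hw.le (w_le_one z)
    calc ‖z‖ * (w z ^ n * w z) ≤ 1 * (1 * w z) := by gcongr
      _ = w z := by ring
  have h3 := divD_re hc.contDiffOn h1 h2
    (g := fun z => 2 * ((n + 2) * w z ^ (n + 1) - (n + 1) * w z ^ n))
    (fun z _ => by rw [hdb, Complex.ofReal_re])
  rw [integral_const_mul, integral_sub (int_cont (by fun_prop)) (int_cont (by fun_prop)),
    integral_const_mul, integral_const_mul] at h3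
  linarith

private lemma int_dslope {Φ : ℂ → ℂ} (hΦ : Data Φ) :
    IntegrableOn (dslope (deriv Φ) 0) D := by
  have hk : DifferentiableOn ℂ (dslope (deriv Φ) 0) D :=
    (Complex.differentiableOn_dslope (D_mem_nhds zero_mem_D)).2 hΦ.holo_q
  obtain ⟨K, hK⟩ := (isCompact_closedBall (0 : ℂ) (1 / 2)).exists_bound_of_continuousOn
    (hk.continuousOn.mono (closedBall_subset_ball (by norm_num)))
  refine intD_of_le hk.continuousOn
    ((intD_const (|K| + 2 + 2 * ‖deriv Φ 0‖)).add (hΦ.area.const_mul 2)) fun z _ => ?_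
  simp only [Pi.add_apply]
  by_cases h : ‖z‖ ≤ 1 / 2
  · have := hK z (mem_closedBall_zero_iff.2 h)
    have := le_abs_self K
    have := norm_nonneg (deriv Φ 0)
    nlinarith [sq_nonneg ‖deriv Φ z‖]
  · have h1 := congrArg norm (sub_smul_dslope (deriv Φ) 0 z)
    rw [sub_zero, norm_smul] at h1
    have h2 := norm_sub_le (deriv Φ z) (deriv Φ 0)
    have h3 : 1 / 2 * ‖dslope (deriv Φ) 0 z‖ ≤ ‖z‖ * ‖dslope (deriv Φ) 0 z‖ :=
      mul_le_mul_of_nonneg_right (not_le.1 h).le (norm_nonneg _)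
    have := abs_nonneg K
    nlinarith [sq_nonneg (‖deriv Φ z‖ - 1), norm_nonneg (deriv Φ z)]

private lemma int_center {Φ : ℂ → ℂ} (hΦ : Data Φ) :
    IntegrableOn (fun z => conj (deriv Φ 0) * (deriv Φ z - deriv Φ 0) * (w z : ℂ) ^ 2) D := by
  refine intD_of_le ((continuousOn_const.mul (hΦ.holo_q.continuousOn.sub continuousOn_const)).mul
    (c1_wpow 2).continuous.continuousOn)
    (((intD_const (1 + ‖deriv Φ 0‖)).add hΦ.area).const_mul ‖deriv Φ 0‖) fun z hz => ?_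
  simp only [Pi.add_apply, norm_mul, norm_pow, Complex.norm_conj, Complex.norm_real,
    Real.norm_eq_abs]
  have h1 : |w z| ^ 2 ≤ 1 := pow_le_one₀ (abs_nonneg _) (abs_w_le hz)
  have h2 : ‖deriv Φ z - deriv Φ 0‖ ≤ 1 + ‖deriv Φ 0‖ + ‖deriv Φ z‖ ^ 2 := by
    have := norm_sub_le (deriv Φ z) (deriv Φ 0)
    nlinarith [sq_nonneg (‖deriv Φ z‖ - 1), norm_nonneg (deriv Φ z)]
  calc ‖deriv Φ 0‖ * ‖deriv Φ z - deriv Φ 0‖ * |w z| ^ 2
      ≤ ‖deriv Φ 0‖ * (1 + ‖deriv Φ 0‖ + ‖deriv Φ z‖ ^ 2) * 1 := by gcongr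
    _ = _ := by ring

private lemma mean_center {Φ : ℂ → ℂ} (hΦ : Data Φ) :
    ∫ z in D, (conj (deriv Φ 0) * (deriv Φ z - deriv Φ 0) * (w z : ℂ) ^ 2).re = 0 := by
  have hk : DifferentiableOn ℂ (dslope (deriv Φ) 0) D :=
    (Complex.differentiableOn_dslope (D_mem_nhds zero_mem_D)).2 hΦ.holo_q
  have hk' : DifferentiableOn ℂ (fun z => -(conj (deriv Φ 0) / 6) * dslope (deriv Φ) 0 z) D :=
    hk.const_mul _
  have hc : ContDiffOn ℝ 1
      (fun z => -(conj (deriv Φ 0) / 6) * dslope (deriv Φ) 0 z * (w z : ℂ) ^ (2 + 1)) D :=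
    (contDiffOn_of_holo hk').mul (c1_wpow _).contDiffOn
  have hdb : ∀ z ∈ D,
      db (fun z => -(conj (deriv Φ 0) / 6) * dslope (deriv Φ) 0 z * (w z : ℂ) ^ (2 + 1)) z
      = conj (deriv Φ 0) * (deriv Φ z - deriv Φ 0) * (w z : ℂ) ^ 2 := by
    intro z hz
    rw [db_mul (diffAt_of_c1 (contDiffOn_of_holo hk') hz) (differentiableAt_w_ofReal.fun_pow _),
      db_holo (hk'.differentiableAt (D_mem_nhds hz)), db_wpow,
      ← sub_smul_dslope (deriv Φ) 0 z, sub_zero, smul_eq_mul]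
    push_cast; ring
  have h1 := IntegrableOn.congr_fun (int_center hΦ) (fun z hz => (hdb z hz).symm) measurableSet_D
  refine divD_re hc h1 ?_ fun z hz => by rw [hdb z hz]
  refine intD_of_le (hc.continuousOn.norm.div continuous_w.continuousOn
    fun z hz => (w_pos hz).ne') ((int_dslope hΦ).norm.const_mul ‖-(conj (deriv Φ 0) / 6)‖)
    fun z hz => ?_
  have hw := w_pos hz
  rw [norm_mul, norm_mul, norm_pow, Complex.norm_real, Real.norm_eq_abs,
    Real.norm_eq_abs, abs_of_pos hw, abs_of_nonneg (by positivity), div_le_iff₀ hw, pow_succ]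
  have h3 : w z ^ 2 ≤ 1 := pow_le_one₀ hw.le (w_le_one z)
  calc ‖-(conj (deriv Φ 0) / 6)‖ * ‖dslope (deriv Φ) 0 z‖ * (w z ^ 2 * w z)
      ≤ ‖-(conj (deriv Φ 0) / 6)‖ * ‖dslope (deriv Φ) 0 z‖ * (1 * w z) := by gcongr
    _ = _ := by ring

/-- Pointwise bound at the centre.  Proof: `Data.dirichlet` with `b = w` (`gsq w = 4‖z‖²`).
With `A = vol D > 0`: `divD` for `conj z * w` and `conj z * w²` give `∫‖z‖² = ∫ w = A/2`,
`∫ w² = A/3`.  With `k = dslope q 0` (holomorphic on `D`, `q z = q 0 + z * k z`; `‖k‖` integrable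
since bounded near `0` and `≤ 2(‖q‖ + ‖q 0‖)` for `‖z‖ ≥ 1/2`), `divD` for `k * w³`
(`db = -6 z k w²`) gives `∫ q w² = q 0 ∫ w²`; then
`‖q‖² ≥ 2 Re (conj (q 0) q) - ‖q 0‖²` gives `∫ ‖q‖² w² ≥ ‖q 0‖² A/3`, while `∫ gsq w = 2A`. -/
lemma Data.center {Φ : ℂ → ℂ} (hΦ : Data Φ) : ‖deriv Φ 0‖ ^ 2 ≤ 6 := by
  have hcw := continuous_w
  have hg : ∀ z, gsq w z = 4 * (w z ^ 0 - w z ^ 1) := fun z => by
    rw [gsq, px_w, py_w, w_eq]; ring
  have hgi : IntegrableOn (gsq w) D := by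
    rw [funext hg]; exact int_cont (by fun_prop)
  have hbw : ∀ z ∈ D, |w z| ≤ 1 * w z := fun z hz => by rw [abs_of_pos (w_pos hz), one_mul]
  have hd := hΦ.dirichlet contDiff_w.contDiffOn hgi ⟨1, hbw⟩
  have hadm := adm_of_bw hΦ contDiff_w.contDiffOn hgi hbw zero_le_one
  have i0 := integral_wpow 0
  have i1 := integral_wpow 1
  have hA : 0 < ∫ z in D, w z ^ 0 := by
    simp only [pow_zero, integral_const, smul_eq_mul, mul_one, MeasurableSet.univ,
      measureReal_restrict_apply, univ_inter]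
    exact ENNReal.toReal_pos (measure_ball_pos volume 0 one_pos).ne' volume_D_lt_top.ne
  have e1 : ∫ z in D, gsq w z = 4 * ((∫ z in D, w z ^ 0) - ∫ z in D, w z ^ 1) := by
    simp only [hg]
    rw [integral_const_mul, integral_sub (int_cont (by fun_prop)) (int_cont (by fun_prop))]
  have ic : IntegrableOn
      (fun z => (conj (deriv Φ 0) * (deriv Φ z - deriv Φ 0) * (w z : ℂ) ^ 2).re) D :=
    (int_center hΦ).re
  have iw : IntegrableOn (fun z => w z ^ 2) D := int_cont (by fun_prop)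
  have e2 : ∫ z in D, (‖deriv Φ 0‖ ^ 2 * w z ^ 2
      + 2 * (conj (deriv Φ 0) * (deriv Φ z - deriv Φ 0) * (w z : ℂ) ^ 2).re)
      ≤ ∫ z in D, ‖deriv Φ z‖ ^ 2 * w z ^ 2 := by
    refine setIntegral_mono_on ((iw.const_mul _).add (ic.const_mul 2)) hadm.l2 measurableSet_D
      fun z _ => ?_
    rw [← Complex.ofReal_pow, Complex.re_mul_ofReal, Complex.sq_norm, Complex.sq_norm,
      Complex.normSq_apply, Complex.normSq_apply]
    simp only [mul_re, conj_re, conj_im, sub_re, sub_im]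
    nlinarith [mul_nonneg (sq_nonneg ((deriv Φ z).re - (deriv Φ 0).re)) (sq_nonneg (w z)),
      mul_nonneg (sq_nonneg ((deriv Φ z).im - (deriv Φ 0).im)) (sq_nonneg (w z))]
  rw [integral_add (iw.const_mul _) (ic.const_mul 2), integral_const_mul, integral_const_mul,
    mean_center hΦ] at e2
  push_cast at i0 i1
  norm_num only at i0 i1
  have e3 : ∫ z in D, w z ^ 2 = (∫ z in D, w z ^ 0) / 3 := by linarith
  rw [e3] at e2
  have e4 : ‖deriv Φ 0‖ ^ 2 * (∫ z in D, w z ^ 0) ≤ 6 * ∫ z in D, w z ^ 0 := by linarith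
  exact le_of_mul_le_mul_right e4 hA

end Crest.Agent.R101
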