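import Crest.Agent.R101.Basic

/-!
The radial average `MM g z = ∫₀¹ g (s z) ds`.
-/

open MeasureTheory Complex Metric Set ComplexConjugate

noncomputable section
namespace Crest.Agent.R101

lemma rad_ray {E : Type*} [TopologicalSpace E] {F : ℂ → E} (hF : ContinuousOn F D) {z : ℂ}
    (hz : z ∈ D) : ContinuousOn (fun s : ℝ => F (s • z)) (Icc 0 1) :=
  hF.comp (by fun_prop) fun _ hs => smul_mem_D hz hs.1 hs.2

lemma rad_uIoc : uIoc (0 : ℝ) 1 ⊆ Icc 0 1 := by
  rw [uIoc_of_le zero_le_one]; exact Ioc_subset_Icc_self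

lemma rad_meas {E : Type*} [NormedAddCommGroup E] {F : ℝ → E} (hF : ContinuousOn F (Icc 0 1)) :
    AEStronglyMeasurable F (volume.restrict (uIoc (0 : ℝ) 1)) :=
  (hF.mono rad_uIoc).aestronglyMeasurable measurableSet_uIoc

lemma rad_int {E : Type*} [NormedAddCommGroup E] {F : ℝ → E} (hF : ContinuousOn F (Icc 0 1)) :
    IntervalIntegrable F volume 0 1 :=
  hF.intervalIntegrable_of_Icc zero_le_one

lemma rad_local {E : Type*} [NormedAddCommGroup E] {F : ℂ → E} (hF : ContinuousOn F D) {z : ℂ}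
    (hz : z ∈ D) : ∃ U ∈ nhds z, U ⊆ D ∧ ∃ C : ℝ, 0 ≤ C ∧ ∀ x ∈ U, ∀ s ∈ Icc (0 : ℝ) 1,
      ‖F (s • x)‖ ≤ C := by
  obtain ⟨ρ, h1, h2⟩ := exists_between (mem_D.1 hz)
  have hsub : closedBall (0 : ℂ) ρ ⊆ D := closedBall_subset_ball h2
  obtain ⟨C, hC⟩ := (isCompact_closedBall (0 : ℂ) ρ).exists_bound_of_continuousOn (hF.mono hsub)
  refine ⟨closedBall 0 ρ, closedBall_mem_nhds_of_mem (mem_ball_zero_iff.2 h1), hsub, max C 0,
    le_max_right _ _, fun x hx s hs => (hC _ ?_).trans (le_max_left _ _)⟩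
  rw [mem_closedBall_zero_iff] at hx ⊢
  rw [norm_smul, Real.norm_of_nonneg hs.1]
  exact (mul_le_of_le_one_left (norm_nonneg _) hs.2).trans hx

lemma rad_int_fderiv {g : ℂ → ℂ} (hg : ContDiffOn ℝ 1 g D) {z : ℂ} (hz : z ∈ D) :
    ContinuousOn (fun s : ℝ => s • fderiv ℝ g (s • z)) (Icc 0 1) :=
  continuousOn_id.smul (rad_ray (continuousOn_fderiv_of_c1 hg) hz)

/-- Differentiation under the integral sign (near `z ∈ D` work in a closed ball `‖·‖ ≤ ρ < 1`, on
which `fderiv g` is bounded; `hasFDerivAt_integral_of_dominated_of_fderiv_le`). -/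
lemma hasFDerivAt_MM {g : ℂ → ℂ} (hg : ContDiffOn ℝ 1 g D) {z : ℂ} (hz : z ∈ D) :
    HasFDerivAt (MM g) (∫ s in (0 : ℝ)..1, s • fderiv ℝ g (s • z)) z := by
  obtain ⟨U, hU, hUD, C, hC0, hC⟩ := rad_local (continuousOn_fderiv_of_c1 hg) hz
  refine intervalIntegral.hasFDerivAt_integral_of_dominated_of_fderiv_le (𝕜 := ℝ)
    (F := fun x s => g (s • x)) (F' := fun x s => s • fderiv ℝ g (s • x)) (bound := fun _ => C)
    hU ?_ (rad_int (rad_ray hg.continuousOn hz)) (rad_meas (rad_int_fderiv hg hz)) ?_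
    intervalIntegrable_const ?_
  · filter_upwards [D_mem_nhds hz] with x hx using rad_meas (rad_ray hg.continuousOn hx)
  · refine Filter.Eventually.of_forall fun s hs x hx => ?_
    have hs' := rad_uIoc hs
    rw [norm_smul, Real.norm_of_nonneg hs'.1]
    exact (mul_le_of_le_one_left (norm_nonneg _) hs'.2).trans (hC x hx s hs')
  · refine Filter.Eventually.of_forall fun s hs x hx => ?_
    have hs' := rad_uIoc hs
    have h1 := (diffAt_of_c1 hg (smul_mem_D (hUD hx) hs'.1 hs'.2)).hasFDerivAt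
    have h2 : HasFDerivAt (fun x : ℂ => s • x) (s • ContinuousLinearMap.id ℝ ℂ) x :=
      (hasFDerivAt_id x).const_smul s
    have h3 := h1.comp x h2
    rwa [ContinuousLinearMap.comp_smul, ContinuousLinearMap.comp_id] at h3

lemma MM_c1 {g : ℂ → ℂ} (hg : ContDiffOn ℝ 1 g D) : ContDiffOn ℝ 1 (MM g) D := by
  rw [show (1 : WithTop ℕ∞) = 0 + 1 from rfl, contDiffOn_succ_iff_fderiv_of_isOpen isOpen_D]
  refine ⟨fun z hz => (hasFDerivAt_MM hg hz).differentiableAt.differentiableWithinAt,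
    by simp, ?_⟩
  rw [contDiffOn_zero]
  refine ContinuousOn.congr (f := fun z => ∫ s in (0 : ℝ)..1, s • fderiv ℝ g (s • z))
    (fun z hz => ContinuousAt.continuousWithinAt ?_) fun z hz => (hasFDerivAt_MM hg hz).fderiv
  obtain ⟨U, hU, hUD, C, hC0, hC⟩ := rad_local (continuousOn_fderiv_of_c1 hg) hz
  refine intervalIntegral.continuousAt_of_dominated_interval (bound := fun _ => C) ?_ ?_
    intervalIntegrable_const ?_
  · filter_upwards [D_mem_nhds hz] with x hx using rad_meas (rad_int_fderiv hg hx)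
  · filter_upwards [hU] with x hx
    refine Filter.Eventually.of_forall fun s hs => ?_
    have hs' := rad_uIoc hs
    rw [norm_smul, Real.norm_of_nonneg hs'.1]
    exact (mul_le_of_le_one_left (norm_nonneg _) hs'.2).trans (hC x hx s hs')
  · refine Filter.Eventually.of_forall fun s hs => ?_
    have hs' := rad_uIoc hs
    have h1 := (continuousOn_fderiv_of_c1 hg).continuousAt
      (D_mem_nhds (smul_mem_D hz hs'.1 hs'.2))
    exact (ContinuousAt.comp (f := fun x : ℂ => s • x) h1 (by fun_prop)).const_smul s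

lemma fderiv_MM_apply {g : ℂ → ℂ} (hg : ContDiffOn ℝ 1 g D) {z : ℂ} (hz : z ∈ D) (v : ℂ) :
    fderiv ℝ (MM g) z v = ∫ s in (0 : ℝ)..1, (s : ℂ) * fderiv ℝ g (s • z) v := by
  rw [(hasFDerivAt_MM hg hz).fderiv,
    ContinuousLinearMap.intervalIntegral_apply (rad_int (rad_int_fderiv hg hz))]
  rfl

lemma rad_cont_apply {g : ℂ → ℂ} (hg : ContDiffOn ℝ 1 g D) {z : ℂ} (hz : z ∈ D) (v : ℂ) :
    ContinuousOn (fun s : ℝ => (s : ℂ) * fderiv ℝ g (s • z) v) (Icc 0 1) :=
  Complex.continuous_ofReal.continuousOn.mul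
    ((rad_ray (continuousOn_fderiv_of_c1 hg) hz).clm_apply continuousOn_const)

lemma dd_MM {g : ℂ → ℂ} (hg : ContDiffOn ℝ 1 g D) {z : ℂ} (hz : z ∈ D) :
    dd (MM g) z = ∫ s in (0 : ℝ)..1, (s : ℂ) * dd g (s • z) := by
  rw [dd, px, py, fderiv_MM_apply hg hz, fderiv_MM_apply hg hz,
    ← intervalIntegral.integral_const_mul, ← intervalIntegral.integral_sub
      (rad_int (rad_cont_apply hg hz 1)) ((rad_int (rad_cont_apply hg hz I)).const_mul I)]
  refine intervalIntegral.integral_congr fun s _ => ?_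
  simp only [dd, px, py]
  ring

/-- `g z = ∫₀¹ d/ds (s g (s z)) ds = MM g z + fderiv (MM g) z z`, and `fderiv_eq_dd_db`. -/
lemma MM_radial {g : ℂ → ℂ} (hg : ContDiffOn ℝ 1 g D) {z : ℂ} (hz : z ∈ D) :
    g z = MM g z + (z * dd (MM g) z + conj z * db (MM g) z) / 2 := by
  have e1 : (z * dd (MM g) z + conj z * db (MM g) z) / 2 = fderiv ℝ (MM g) z z := by
    rw [fderiv_eq_dd_db]; ring
  have i1 := rad_int (rad_ray hg.continuousOn hz)
  have i2 := rad_int (rad_cont_apply hg hz z)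
  rw [e1, fderiv_MM_apply hg hz, MM, ← intervalIntegral.integral_add i1 i2,
    intervalIntegral.integral_eq_sub_of_hasDerivAt (f := fun s : ℝ => (s : ℂ) * g (s • z)) ?_
      (i1.add i2)]
  · simp
  · intro s hs
    rw [uIcc_of_le zero_le_one] at hs
    have h1 := (diffAt_of_c1 hg (smul_mem_D hz hs.1 hs.2)).hasFDerivAt
    have h2 : HasDerivAt (fun s : ℝ => s • z) z s := by
      simpa using (hasDerivAt_id s).smul_const z
    have h3 : HasDerivAt (fun s : ℝ => g (s • z)) (fderiv ℝ g (s • z) z) s :=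
      h1.comp_hasDerivAt s h2
    have h4 : HasDerivAt (fun s : ℝ => (s : ℂ)) 1 s := Complex.ofRealCLM.hasDerivAt
    simpa using h4.fun_mul h3

/-- Uniform bound for dilates: for `s ≤ 1/2` use the bound of `h` on the closed ball of radius
`1/2`; for `s ≥ 1/2` use scaling of Lebesgue measure (`∫_D h (s z) = s⁻² ∫_{sD} h ≤ 4 ∫_D h`;
`Measure.setIntegral_comp_smul_of_pos`, `lintegral` versions, or `integral_comp_smul` applied to
`indicator D h`). -/
lemma dilate_bound {h : ℂ → ℝ} (hc : ContinuousOn h D) (h0 : ∀ z ∈ D, 0 ≤ h z)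
    (hi : IntegrableOn h D) :
    ∃ C : NNReal, ∀ s ∈ Set.Ioc (0 : ℝ) 1, ∫⁻ z in D, ENNReal.ofReal (h (s • z)) ≤ C := by
  obtain ⟨B, hB⟩ := (isCompact_closedBall (0 : ℂ) (1 / 2)).exists_bound_of_continuousOn
    (hc.mono (closedBall_subset_ball (by norm_num)))
  have hI : ∫⁻ z in D, ENNReal.ofReal (h z) < ⊤ := by
    refine (hasFiniteIntegral_iff_ofReal ?_).1 hi.2
    filter_upwards [ae_restrict_mem measurableSet_D] with z hz using h0 z hz
  have hfin : ENNReal.ofReal B * volume D + ENNReal.ofReal 4 * ∫⁻ z in D, ENNReal.ofReal (h z) ≠ ⊤ :=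
    ENNReal.add_ne_top.2 ⟨ENNReal.mul_ne_top ENNReal.ofReal_ne_top volume_D_lt_top.ne,
      ENNReal.mul_ne_top ENNReal.ofReal_ne_top hI.ne⟩
  refine ⟨_root_.ENNReal.toNNReal _, fun s hs => le_trans ?_ (ENNReal.coe_toNNReal hfin).ge⟩
  rcases le_total s (1 / 2) with h1 | h1
  · refine le_trans ?_ le_self_add
    rw [← setLIntegral_const]
    refine setLIntegral_mono' measurableSet_D fun z hz => ENNReal.ofReal_le_ofReal ?_
    refine (le_abs_self _).trans (hB _ ?_)
    rw [mem_closedBall_zero_iff, norm_smul, Real.norm_of_nonneg hs.1.le]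
    nlinarith [mem_D.1 hz, norm_nonneg z, hs.1]
  · refine le_trans ?_ le_add_self
    have hme : MeasurableEmbedding fun z : ℂ => s • z :=
      (Homeomorph.smul (Units.mk0 s hs.1.ne')).toMeasurableEquiv.measurableEmbedding
    calc ∫⁻ z in D, ENNReal.ofReal (h (s • z))
        = ∫⁻ z in D, D.indicator (fun z => ENNReal.ofReal (h z)) (s • z) :=
          setLIntegral_congr_fun measurableSet_D fun z hz => by
            rw [indicator_of_mem (smul_mem_D hz hs.1.le hs.2)]
      _ ≤ ∫⁻ z, D.indicator (fun z => ENNReal.ofReal (h z)) (s • z) :=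
          setLIntegral_le_lintegral _ _
      _ = ENNReal.ofReal |(s ^ Module.finrank ℝ ℂ)⁻¹| * ∫⁻ z in D, ENNReal.ofReal (h z) := by
          rw [← hme.lintegral_map, Measure.map_addHaar_smul _ hs.1.ne', lintegral_smul_measure,
            lintegral_indicator measurableSet_D, smul_eq_mul]
      _ ≤ _ := by
          refine mul_le_mul_left (ENNReal.ofReal_le_ofReal ?_) _
          rw [Complex.finrank_real_complex, abs_of_pos (by have := hs.1; positivity),
            inv_le_comm₀ (by have := hs.1; positivity) (by norm_num)]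
          nlinarith

/-- `‖MM g z‖² ≤ ∫₀¹ ‖g (s z)‖² ds` (Cauchy–Schwarz / Jensen), Tonelli, `dilate_bound`. -/
lemma MM_l2 {g : ℂ → ℂ} (hg : ContDiffOn ℝ 1 g D) (h2 : IntegrableOn (fun z => ‖g z‖ ^ 2) D) :
    IntegrableOn (fun z => ‖MM g z‖ ^ 2) D := by
  have hc : ContinuousOn (fun z => ‖g z‖ ^ 2) D := hg.continuousOn.norm.pow 2
  obtain ⟨C, hC⟩ := dilate_bound hc (fun z _ => sq_nonneg _) h2
  refine ⟨((MM_c1 hg).continuousOn.norm.pow 2).aestronglyMeasurable measurableSet_D, ?_⟩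
  rw [hasFiniteIntegral_iff_ofReal (Filter.Eventually.of_forall fun z => sq_nonneg _)]
  have h1 : ∀ z ∈ D, ENNReal.ofReal (‖MM g z‖ ^ 2) ≤
      ∫⁻ s in Ioc (0 : ℝ) 1, ENNReal.ofReal (‖g (s • z)‖ ^ 2) := by
    intro z hz
    have i1 := rad_int (rad_ray hg.continuousOn.norm hz)
    have i2 := rad_int (rad_ray hc hz)
    rw [← ofReal_integral_eq_lintegral_ofReal i2.1
      (Filter.Eventually.of_forall fun s => sq_nonneg _),
      ← intervalIntegral.integral_of_le zero_le_one]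
    refine ENNReal.ofReal_le_ofReal ?_
    have a1 : ‖MM g z‖ ≤ ∫ s in (0 : ℝ)..1, ‖g (s • z)‖ :=
      intervalIntegral.norm_integral_le_integral_norm zero_le_one
    have a2 : ∫ s in (0 : ℝ)..1, 2 * ‖MM g z‖ * ‖g (s • z)‖ ≤
        ∫ s in (0 : ℝ)..1, (‖MM g z‖ ^ 2 + ‖g (s • z)‖ ^ 2) :=
      intervalIntegral.integral_mono_on zero_le_one (i1.const_mul _)
        (intervalIntegrable_const.add i2) fun s _ => by
          nlinarith [sq_nonneg (‖MM g z‖ - ‖g (s • z)‖)]
    rw [intervalIntegral.integral_const_mul,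
      intervalIntegral.integral_add intervalIntegrable_const i2,
      intervalIntegral.integral_const] at a2
    simp only [sub_zero, one_smul] at a2
    nlinarith [norm_nonneg (MM g z)]
  have hm : AEMeasurable (Function.uncurry fun (z : ℂ) (s : ℝ) => ENNReal.ofReal (‖g (s • z)‖ ^ 2))
      ((volume.restrict D).prod (volume.restrict (Ioc (0 : ℝ) 1))) := by
    rw [Measure.prod_restrict]
    refine AEMeasurable.ennreal_ofReal (f := fun p : ℂ × ℝ => ‖g (p.2 • p.1)‖ ^ 2) ?_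
    refine ContinuousOn.aemeasurable ?_ (measurableSet_D.prod measurableSet_Ioc)
    exact hc.comp (f := fun p : ℂ × ℝ => p.2 • p.1) (by fun_prop)
      fun p hp => smul_mem_D hp.1 hp.2.1.le hp.2.2
  calc ∫⁻ z in D, ENNReal.ofReal (‖MM g z‖ ^ 2)
      ≤ ∫⁻ z in D, ∫⁻ s in Ioc (0 : ℝ) 1, ENNReal.ofReal (‖g (s • z)‖ ^ 2) :=
        setLIntegral_mono' measurableSet_D h1
    _ = ∫⁻ s in Ioc (0 : ℝ) 1, ∫⁻ z in D, ENNReal.ofReal (‖g (s • z)‖ ^ 2) :=
        lintegral_lintegral_swap hm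
    _ ≤ ∫⁻ _s in Ioc (0 : ℝ) 1, (C : ENNReal) := setLIntegral_mono' measurableSet_Ioc hC
    _ < ⊤ := by simp

end Crest.Agent.R101
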